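import Mathlib
import Vale.Agent.P333.Bdl.B1

set_option linter.all false

/-!
P333, ratio below `7/3`: top level interface. `AlgSide` is the algorithm with the bound on the length
of its output, `NoPeel` is the combinatorial statement; both together give a ratio below `7/3`.
-/

namespace Vale.Agent.P333.E

open Vale.Agent.P333 Vale.Agent.P333.U Vale.Agent.Lib.PolyTime

/-- `G` is obtained from `m` strings of `S`, each of them glued to the text so far with a valid
overlap (not necessarily the longest one). -/
inductive Glue (S : List (List ℕ)) : ℕ → List ℕ → Prop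
  | nil : Glue S 0 []
  | step {m : ℕ} {G s : List ℕ} {k : ℕ} : Glue S m G → s ∈ S → k ≤ G.length → k ≤ s.length →
      G.drop (G.length - k) = s.take k → Glue S (m + 1) (G ++ s.drop k)

/-- Some string of the class `c` is contained in `G`. -/
def Tch (c : List (List ℕ)) (G : List ℕ) : Prop := ∃ s ∈ c, s <:+: G

/-- All strings of the class `c` are contained in `G`. -/
def Cont (c : List (List ℕ)) (G : List ℕ) : Prop := ∀ s ∈ c, s <:+: G

open Classical in
/-- `D * (weights of the contained classes) + N * (overlaps of the touched classes)`. -/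
noncomputable def gain (N D : ℕ) (rem : List (List (List ℕ))) (G : List ℕ) : ℕ :=
  (rem.map (fun c => (if Cont c G then D * cycW c else 0) +
    (if Tch c G then N * cycO c else 0))).sum

/-- No text made of at most `M` strings improves (`λ = N / D`). -/
def NoImp (S : List (List ℕ)) (N D M : ℕ) (rem : List (List (List ℕ))) : Prop :=
  ∀ m G, m ≤ M → Glue S m G → gain N D rem G ≤ D * G.length

/-- Total weight. -/
def sW (L : List (List (List ℕ))) : ℕ := (L.map cycW).sum

/-- Total opening overlap. -/
def sO (L : List (List (List ℕ))) : ℕ := (L.map cycO).sum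

/-- The algorithm side. -/
def AlgSide (N D M : ℕ) : Prop := ∃ alg : List (List ℕ) → List ℕ, PT ∅ alg ∧
  ∀ S, Sfree S → IsSuperstring S (alg S) ∧
    ∃ L rem, MinCover S L ∧ rem.Sublist L ∧ NoImp S N D M rem ∧
      ∀ T, IsSuperstring S T →
        3 * D * (alg S).length + 3 * N * sO rem ≤
          3 * D * sW L + 3 * N * sO L + D * sO rem + 2 * D * T.length

/-- The combinatorial side. -/
def NoPeel (N D M E : ℕ) : Prop := ∀ S L T rem, Sfree S → MinCover S L → IsSuperstring S T →
  T ≠ [] → rem.Sublist L → NoImp S N D M rem →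
    E * (3 * D * sW L + 3 * N * sO L + D * sO rem) ≤
      (5 * E - 3) * (D * T.length) + E * (3 * N * sO rem)

theorem hasApprox_of {N D M E : ℕ} (hD : 0 < D) (hE : 0 < E) (hA : AlgSide N D M)
    (hP : NoPeel N D M E) : HasApprox (7 / 3 - 1 / E) := by
  obtain ⟨alg, h1, h2⟩ := hA
  refine ⟨fun S => alg (clean S), polyTime_of_PT (h1.comp (PT_clean PT.id)), fun S => ?_⟩
  have hS := sfree_clean S
  obtain ⟨h3, L, rem, hL, hr, hno, hb⟩ := h2 _ hS
  obtain ⟨T, hT, hTn⟩ := exists_opt (clean S)
  rw [opt_clean] at hTn
  refine ⟨(isSuperstring_clean S _).1 h3, ?_⟩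
  have hb' := hb T hT
  have hDr : (0 : ℝ) < D := by exact_mod_cast hD
  have hEr : (0 : ℝ) < E := by exact_mod_cast hE
  by_cases hT0 : T = []
  · -- everything is empty
    subst hT0
    have hS0 : clean S = [] := by
      by_contra hne
      obtain ⟨s, S', hs⟩ := List.exists_cons_of_ne_nil hne
      have hmem : s ∈ clean S := by rw [hs]; simp
      have := hT s hmem
      exact hS.1 s hmem (by simpa using this)
    have hL0 : L = [] := by
      by_contra hne
      obtain ⟨c, L', hc⟩ := List.exists_cons_of_ne_nil hne
      have hcm : c ∈ L := by rw [hc]; simp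
      obtain ⟨s, c', hs⟩ := List.exists_cons_of_ne_nil (hL.ne c hcm)
      have : s ∈ clean S := hL.perm.mem_iff.1 (List.mem_flatten.2 ⟨c, hcm, by rw [hs]; simp⟩)
      rw [hS0] at this
      simp at this
    subst hL0
    have hr0 : rem = [] := by simpa using hr
    subst hr0
    simp only [sW, sO, List.map_nil, List.sum_nil, mul_zero, add_zero, List.length_nil] at hb'
    have : (alg (clean S)).length = 0 := by
      rcases Nat.mul_eq_zero.1 (Nat.le_zero.1 hb') with h | h
      · omega
      · exact h
    simp only [this]
    simp only [List.length_nil] at hTn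
    rw [← hTn]
    simp
  · have hp := hP _ L T rem hS hL hT hT0 hr hno
    have hE5 : 3 ≤ 5 * E := by omega
    have c1 : ((E : ℝ) * (3 * D * sW L + 3 * N * sO L + D * sO rem)) ≤
        (5 * E - 3) * (D * T.length) + E * (3 * N * sO rem) := by
      have := (Nat.cast_le (α := ℝ)).2 hp
      push_cast [Nat.cast_sub hE5] at this
      linarith
    have c2 : (3 * (D : ℝ) * (alg (clean S)).length + 3 * N * sO rem) ≤
        3 * D * sW L + 3 * N * sO L + D * sO rem + 2 * D * T.length := by
      have := (Nat.cast_le (α := ℝ)).2 hb'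
      push_cast at this
      linarith
    have c3 : (E : ℝ) * (3 * (D : ℝ) * (alg (clean S)).length) ≤
        (7 * E - 3) * (D * T.length) := by
      have := mul_le_mul_of_nonneg_left c2 hEr.le
      nlinarith
    have c4 : (3 * (E : ℝ)) * ((alg (clean S)).length : ℝ) ≤ (7 * E - 3) * T.length := by
      have h : (D : ℝ) * ((3 * (E : ℝ)) * ((alg (clean S)).length : ℝ)) ≤
          D * ((7 * E - 3) * T.length) := by nlinarith
      exact le_of_mul_le_mul_left h hDr
    rw [← hTn]
    have : (7 / 3 - 1 / (E : ℝ)) * (T.length : ℝ) = ((7 * E - 3) * T.length) / (3 * E) := by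
      field_simp
    rw [this, le_div_iff₀ (by positivity)]
    linarith

end Vale.Agent.P333.E
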