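import Mathlib
import Vale.Agent.P333.E.Spec

set_option linter.all false

/-!
P333, ratio below `7/3`: the algorithm (definitions, and the statements of the parts).
-/

namespace Vale.Agent.P333.E

open Vale.Agent.P333 Vale.Agent.P333.U Vale.Agent.Lib.PolyTime

/-- One more piece (a suffix of a string of `S`). -/
def extC (S : List (List ℕ)) (Gs : List (List ℕ)) : List (List ℕ) :=
  Gs ++ Gs.flatMap (fun G => S.flatMap (fun s => (List.range (s.length + 1)).map
    (fun k => G ++ s.drop k)))

/-- All texts made of at most `m` pieces. -/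
def cands (S : List (List ℕ)) : ℕ → List (List ℕ)
  | 0 => [[]]
  | m + 1 => extC S (cands S m)

/-- The class is touched. -/
def tchB (c : List (List ℕ)) (G : List ℕ) : Bool := c.any (fun s => infB s G)

/-- The class is contained. -/
def contB (c : List (List ℕ)) (G : List ℕ) : Bool := c.all (fun s => infB s G)

/-- The gain, as a computable function. -/
def gainB (N D : ℕ) (rem : List (List (List ℕ))) (G : List ℕ) : ℕ :=
  (rem.map (fun c => (if contB c G then D * cycW c else 0) +
    (if tchB c G then N * cycO c else 0))).sum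

/-- The cycle starting at its first string contained in `G`. -/
def rotC (c : List (List ℕ)) (G : List ℕ) : List (List ℕ) :=
  c.dropWhile (fun s => !infB s G) ++ c.takeWhile (fun s => !infB s G)

/-- Once around the cycle, starting and ending with the first string contained in `G`. -/
def loopC (c : List (List ℕ)) (G : List ℕ) : List ℕ :=
  mergeL (rotC c G ++ [(rotC c G).headD []])

/-- Position of the first occurrence. -/
def occP (X s : List ℕ) : ℕ :=
  ((List.range (X.length + 1)).find? (fun i => decide ((X.drop i).take s.length = s))).getD 0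

/-- The first occurrence of `s` in `X` is replaced by `R`. -/
def insW (X s R : List ℕ) : List ℕ := X.take (occP X s) ++ R ++ X.drop (occP X s + s.length)

/-- Insertion of the loop of a touched class which is not contained. -/
def loopIn (G X : List ℕ) (c : List (List ℕ)) : List ℕ :=
  if tchB c G && !contB c G then insW X ((rotC c G).headD []) (loopC c G) else X

/-- The text `G` with all loops. -/
def expand (rem : List (List (List ℕ))) (G : List ℕ) : List ℕ := rem.foldl (loopIn G) G

/-- The classes which are not touched. -/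
def remOf (rem : List (List (List ℕ))) (G : List ℕ) : List (List (List ℕ)) :=
  rem.filter (fun c => !tchB c G)

/-- One test. -/
def stepP (N D : ℕ) (st : List ℕ × List (List (List ℕ))) (G : List ℕ) :
    List ℕ × List (List (List ℕ)) :=
  if D * G.length < gainB N D st.2 G then (st.1 ++ expand st.2 G, remOf st.2 G) else st

/-- All tests. -/
def peelP (N D : ℕ) (L : List (List (List ℕ))) (Gs : List (List ℕ)) :
    List ℕ × List (List (List ℕ)) := Gs.foldl (stepP N D) ([], L)

/-- The last stage. -/
def stage (atsp : List Unit × List (List ℕ) → List ℕ) (rem : List (List (List ℕ))) : List ℕ :=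
  mergeL (order (rem.map mergeL)
    (atsp (List.replicate (rem.map mergeL).flatten.length (), ovMat (rem.map mergeL))))

/-- The algorithm (for substring free families). -/
def algE (N D M : ℕ) (cover : List (List ℕ) → List (List (List ℕ)))
    (atsp : List Unit × List (List ℕ) → List ℕ) (S : List (List ℕ)) : List ℕ :=
  (peelP N D (cover S) (cands S M)).1 ++ stage atsp (peelP N D (cover S) (cands S M)).2

/-! ### Statements of the parts -/

/-- ALG1: completeness of the list of candidates. -/
def BlkCands : Prop := ∀ S m M G, m ≤ M → Glue S m G → G ∈ cands S M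

/-- ALG2: the loop. -/
def BlkLoop : Prop := ∀ (c : List (List ℕ)) (G : List ℕ), tchB c G = true →
  (rotC c G).headD [] ∈ c ∧ (rotC c G).headD [] <:+: G ∧
  (rotC c G).headD [] <+: loopC c G ∧ (rotC c G).headD [] <:+ loopC c G ∧
  (∀ t ∈ c, t <:+: loopC c G) ∧ (loopC c G).length = ((rotC c G).headD []).length + cycW c

/-- ALG3: replacing the first occurrence. -/
def BlkIns : Prop := ∀ X s R : List ℕ, s <:+: X → s <+: R → s <:+ R →
  R <:+: insW X s R ∧ (insW X s R).length + s.length = X.length + R.length ∧
  ∀ t : List ℕ, t <:+: X → (t = s ∨ ¬ s <:+: t) → t <:+: insW X s R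

/-- ALG4: the text with all loops. -/
def BlkExpand : Prop := ∀ S L rem G, Sfree S → MinCover S L → rem.Sublist L →
  (∀ s ∈ S, s <:+: G → s <:+: expand rem G) ∧
  (∀ c ∈ rem, tchB c G = true → ∀ s ∈ c, s <:+: expand rem G) ∧
  (expand rem G).length = G.length +
    (rem.map (fun c => if tchB c G && !contB c G then cycW c else 0)).sum

/-- ALG5: the tests. -/
def BlkPeel : Prop := ∀ N D S L Gs, Sfree S → MinCover S L →
  (peelP N D L Gs).2.Sublist L ∧
  (∀ G ∈ Gs, gain N D (peelP N D L Gs).2 G ≤ D * G.length) ∧
  (∀ c ∈ L, c ∈ (peelP N D L Gs).2 ∨ ∀ s ∈ c, s <:+: (peelP N D L Gs).1) ∧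
  D * (peelP N D L Gs).1.length + D * sW (peelP N D L Gs).2 + N * sO (peelP N D L Gs).2 ≤
    D * sW L + N * sO L

/-- ALG6: the last stage. -/
def BlkStage : Prop := ∀ (atsp : List Unit × List (List ℕ) → List ℕ),
  (∀ u M, SqMat M u.length → (atsp (u, M)).Perm (List.range M.length) ∧
    ∀ P, P.Perm (List.range M.length) →
      2 * pathV (ent M) P ≤ 3 * pathV (ent M) (atsp (u, M))) →
  ∀ S L rem T, Sfree S → MinCover S L → rem.Sublist L → IsSuperstring S T →
    (∀ c ∈ rem, ∀ s ∈ c, s <:+: stage atsp rem) ∧
    3 * (stage atsp rem).length ≤ 3 * sW rem + sO rem + 2 * T.length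

/-- ALG7: polynomial time. -/
def BlkPT : Prop := ∀ (N D M : ℕ) (cover : List (List ℕ) → List (List (List ℕ)))
  (atsp : List Unit × List (List ℕ) → List ℕ), PT ∅ cover → PT ∅ atsp →
  PT ∅ (algE N D M cover atsp)

/-- The algorithm side from the parts. -/
theorem algSide_of (h1 : BlkCands) (h5 : BlkPeel) (h6 : BlkStage) (h7 : BlkPT) (hc : CoverAlg)
    (ha : AtspAlg 2 3) (N D M : ℕ) : AlgSide N D M := by
  obtain ⟨cover, hc1, hc2⟩ := hc
  obtain ⟨atsp, ha1, ha2⟩ := ha
  refine ⟨algE N D M cover atsp, h7 N D M cover atsp hc1 ha1, fun S hS => ?_⟩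
  have hL := hc2 S hS
  obtain ⟨p1, p2, p3, p4⟩ := h5 N D S (cover S) (cands S M) hS hL
  set st := peelP N D (cover S) (cands S M) with hst
  have hout : algE N D M cover atsp S = st.1 ++ stage atsp st.2 := rfl
  refine ⟨?_, cover S, st.2, hL, p1, ?_, ?_⟩
  · intro s hs
    rw [hout]
    obtain ⟨c, hc, hsc⟩ := List.mem_flatten.1 (hL.perm.mem_iff.2 hs)
    rcases p3 c hc with h | h
    · have := (h6 atsp ha2 S (cover S) st.2 S.flatten hS hL p1
        (fun s hs => List.infix_of_mem_flatten hs)).1 c h s hsc
      exact this.trans (List.suffix_append _ _).isInfix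
    · exact (h s hsc).trans (List.prefix_append _ _).isInfix
  · intro m G hm hG
    exact p2 G (h1 S m M G hm hG)
  · intro T hT
    have h8 := (h6 atsp ha2 S (cover S) st.2 T hS hL p1 hT).2
    rw [hout, List.length_append]
    nlinarith [Nat.mul_le_mul_left D h8, p4]

end Vale.Agent.P333.E
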