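import Mathlib
import Vale.Agent.P333.E.AlgDefs

set_option linter.all false

namespace Vale.Agent.P333.E

open Vale.Agent.P333 Vale.Agent.P333.U Vale.Agent.Lib.PolyTime

theorem cands_mono (S : List (List ℕ)) {m M : ℕ} (h : m ≤ M) {G : List ℕ} (hG : G ∈ cands S m) :
    G ∈ cands S M := by
  induction M with
  | zero =>
    have : m = 0 := by omega
    subst this
    exact hG
  | succ M ih =>
    rcases Nat.lt_or_ge m (M + 1) with h' | h'
    · exact List.mem_append_left _ (ih (by omega))
    · have : m = M + 1 := by omega
      subst this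
      exact hG

theorem glue_mem_cands {S : List (List ℕ)} {m : ℕ} {G : List ℕ} (h : Glue S m G) :
    G ∈ cands S m := by
  induction h with
  | nil => simp [cands]
  | @step m G s k hg hs hk1 hk2 he ih =>
    refine List.mem_append_right _ ?_
    rw [List.mem_flatMap]
    refine ⟨G, ih, ?_⟩
    rw [List.mem_flatMap]
    refine ⟨s, hs, ?_⟩
    rw [List.mem_map]
    exact ⟨k, List.mem_range.2 (by omega), rfl⟩

theorem blkCands : BlkCands := fun S m M G hm hG => cands_mono S hm (glue_mem_cands hG)

end Vale.Agent.P333.E
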