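import Mathlib
import Vale.Agent.P333.E.AlgDefs

/-!
P333, ratio below `7/3`, algorithm side (ALG4): the text with all loops.
-/

namespace Vale.Agent.P333.E

open Vale.Agent.P333 Vale.Agent.P333.U Vale.Agent.Lib.PolyTime

theorem sfree_eq_or' {S : List (List ℕ)} (hS : Sfree S) {s t : List ℕ} (hs : s ∈ S) (ht : t ∈ S) :
    t = s ∨ ¬ s <:+: t := by
  by_cases h : t = s
  · exact Or.inl h
  · refine Or.inr ?_
    have : Std.Symm (fun s t : List ℕ => ¬ s <:+: t ∧ ¬ t <:+: s) := ⟨fun a b hab =>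
      ⟨hab.2, hab.1⟩⟩
    exact (hS.2.forall hs ht (fun e => h e.symm)).1

/-- One loop. -/
theorem loopIn_step (h1 : BlkLoop) (h2 : BlkIns) {S : List (List ℕ)} (hS : Sfree S)
    {G X : List ℕ} (hX : ∀ s ∈ S, s <:+: G → s <:+: X) {c : List (List ℕ)}
    (hc : ∀ s ∈ c, s ∈ S) :
    (∀ s ∈ S, s <:+: X → s <:+: loopIn G X c) ∧
    (tchB c G = true → ∀ s ∈ c, s <:+: loopIn G X c) ∧
    (loopIn G X c).length = X.length + (if tchB c G && !contB c G then cycW c else 0) := by
  rw [loopIn]
  by_cases ht : tchB c G = true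
  · by_cases hk : contB c G = true
    · rw [ht, hk]
      refine ⟨fun s _ hs => by simpa using hs, fun _ s hs => ?_, by simp⟩
      have h3 : s <:+: G := by
        rw [contB, List.all_eq_true] at hk
        exact (infB_iff _ _).1 (hk s hs)
      simpa using hX s (hc s hs) h3
    · have hk' : contB c G = false := by simpa using hk
      rw [ht, hk']
      obtain ⟨a1, a2, a3, a4, a5, a6⟩ := h1 c G ht
      set r := (rotC c G).headD [] with hr
      have hrS : r ∈ S := hc r a1
      obtain ⟨b1, b2, b3⟩ := h2 X r (loopC c G) (hX r hrS a2) a3 a4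
      simp only [Bool.not_false, Bool.and_self, if_true]
      refine ⟨fun s hs hsX => b3 s hsX (sfree_eq_or' hS hrS hs), fun _ s hs => (a5 s hs).trans b1,
        ?_⟩
      omega
  · have ht' : tchB c G = false := by simpa using ht
    rw [ht']
    refine ⟨fun s _ hs => by simpa using hs, fun h => by simp at h, by simp⟩

theorem expand_aux (h1 : BlkLoop) (h2 : BlkIns) {S : List (List ℕ)} (hS : Sfree S)
    {G : List ℕ} (l : List (List (List ℕ))) (hl : ∀ c ∈ l, ∀ s ∈ c, s ∈ S) (X : List ℕ)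
    (hX : ∀ s ∈ S, s <:+: G → s <:+: X) :
    (∀ s ∈ S, s <:+: X → s <:+: l.foldl (loopIn G) X) ∧
    (∀ c ∈ l, tchB c G = true → ∀ s ∈ c, s <:+: l.foldl (loopIn G) X) ∧
    (l.foldl (loopIn G) X).length = X.length +
      (l.map (fun c => if tchB c G && !contB c G then cycW c else 0)).sum := by
  induction l generalizing X with
  | nil => exact ⟨fun s _ hs => hs, fun c hc => by simp at hc, by simp⟩
  | cons c l ih =>
    obtain ⟨a1, a2, a3⟩ := loopIn_step h1 h2 hS hX (hl c List.mem_cons_self)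
    obtain ⟨b1, b2, b3⟩ := ih (fun d hd => hl d (List.mem_cons_of_mem _ hd)) (loopIn G X c)
      (fun s hs hsG => a1 s hs (hX s hs hsG))
    rw [List.foldl_cons]
    refine ⟨fun s hs hsX => b1 s hs (a1 s hs hsX), fun d hd htd s hs => ?_, ?_⟩
    · rcases List.mem_cons.1 hd with rfl | hd
      · exact b1 s (hl d List.mem_cons_self s hs) (a2 htd s hs)
      · exact b2 d hd htd s hs
    · rw [b3, a3, List.map_cons, List.sum_cons]
      omega

theorem mem_of_minCover {S : List (List ℕ)} {L : List (List (List ℕ))} (hL : MinCover S L)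
    {c : List (List ℕ)} (hc : c ∈ L) : ∀ s ∈ c, s ∈ S := fun _ hs =>
  hL.perm.mem_iff.1 (List.mem_flatten.2 ⟨c, hc, hs⟩)

theorem blkExpand (h1 : BlkLoop) (h2 : BlkIns) : BlkExpand := by
  intro S L rem G hS hL hr
  exact expand_aux h1 h2 hS rem (fun c hc => mem_of_minCover hL (hr.subset hc)) G
    (fun s _ hs => hs)

end Vale.Agent.P333.E
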