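import Mathlib
import Vale.Agent.P333.E.AlgDefs

set_option linter.all false

/-!
P333, ratio below `7/3`, ALG3: the first occurrence of a factor is replaced.
-/

namespace Vale.Agent.P333.E

open Vale.Agent.P333 Vale.Agent.P333.U Vale.Agent.Lib.PolyTime

theorem occP_spec {X s : List ℕ} (h : s <:+: X) :
    (X.drop (occP X s)).take s.length = s ∧ occP X s + s.length ≤ X.length := by
  obtain ⟨u, v, hX⟩ := h
  have h1 : ∃ i, (List.range (X.length + 1)).find?
      (fun i => decide ((X.drop i).take s.length = s)) = some i := by
    rw [← Option.isSome_iff_exists, List.find?_isSome]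
    refine ⟨u.length, ?_, ?_⟩
    · rw [List.mem_range, ← hX]
      simp only [List.length_append]
      omega
    · apply decide_eq_true
      rw [← hX]
      simp
  obtain ⟨i, hi⟩ := h1
  have h2 : occP X s = i := by rw [occP, hi]; rfl
  have h3 := List.find?_some hi
  have h4 : (X.drop i).take s.length = s := of_decide_eq_true h3
  have h5 := List.mem_of_find?_eq_some hi
  rw [List.mem_range] at h5
  rw [h2]
  refine ⟨h4, ?_⟩
  have h6 := congrArg List.length h4
  rw [List.length_take, List.length_drop] at h6
  omega

/-- `t` is a factor of `A ++ s ++ B`: three cases. -/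
theorem infix_cases {A s B t u v : List ℕ} (h : u ++ t ++ v = A ++ s ++ B) :
    t <:+: A ++ s ∨ t <:+: s ++ B ∨ (s <:+: t ∧ s.length < t.length) := by
  have hl := congrArg List.length h
  simp only [List.length_append] at hl
  by_cases h1 : u.length + t.length ≤ A.length + s.length
  · left
    have h2 : u ++ t <+: A ++ s := by
      refine List.prefix_of_prefix_length_le (l₃ := A ++ s ++ B) ?_ (List.prefix_append _ _) ?_
      · rw [← h]; exact List.prefix_append _ _
      · simp only [List.length_append]; omega
    exact (List.suffix_append u t).isInfix.trans h2.isInfix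
  · by_cases h2 : A.length ≤ u.length
    · right; left
      have h3 : t ++ v <:+ s ++ B := by
        refine List.suffix_of_suffix_length_le (l₃ := A ++ s ++ B) ?_ ?_ ?_
        · rw [← h, List.append_assoc]; exact List.suffix_append _ _
        · rw [List.append_assoc]; exact List.suffix_append _ _
        · simp only [List.length_append]; omega
      exact (List.prefix_append t v).isInfix.trans h3.isInfix
    · right; right
      have h3 : u <+: A := by
        refine List.prefix_of_prefix_length_le (l₃ := A ++ s ++ B) ?_ ?_ (by omega)
        · rw [← h, List.append_assoc]; exact List.prefix_append _ _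
        · rw [List.append_assoc]; exact List.prefix_append _ _
      obtain ⟨A', hA'⟩ := h3
      have h4 : t ++ v = A' ++ s ++ B := by
        rw [← hA', List.append_assoc, List.append_assoc, List.append_assoc] at h
        have := List.append_cancel_left h
        rw [this, List.append_assoc]
      have h5 := congrArg List.length hA'
      rw [List.length_append] at h5
      refine ⟨?_, by omega⟩
      have h6 : A' ++ s <+: t := by
        refine List.prefix_of_prefix_length_le (l₃ := t ++ v) ?_ (List.prefix_append _ _) ?_
        · rw [h4]; exact List.prefix_append _ _
        · rw [List.length_append]; omega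
      exact (List.suffix_append A' s).isInfix.trans h6.isInfix

/-- **ALG3.** -/
theorem blkIns : BlkIns := by
  intro X s R hs hp hq
  obtain ⟨h1, h2⟩ := occP_spec hs
  set p := occP X s with hpdef
  have hX : X.take p ++ s ++ X.drop (p + s.length) = X := by
    have e1 : X.drop p = s ++ X.drop (p + s.length) := by
      conv_lhs => rw [← List.take_append_drop s.length (X.drop p), h1]
      rw [List.drop_drop]
    rw [List.append_assoc, ← e1, List.take_append_drop]
  have hI : insW X s R = X.take p ++ R ++ X.drop (p + s.length) := rfl
  refine ⟨?_, ?_, ?_⟩
  · rw [hI]
    exact ⟨_, _, rfl⟩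
  · rw [hI]
    simp only [List.length_append, List.length_take, List.length_drop]
    omega
  · intro t ht hts
    obtain ⟨u, v, huv⟩ := ht
    rw [hI]
    rcases infix_cases (huv.trans hX.symm) with h | h | ⟨h, h'⟩
    · obtain ⟨r, hr⟩ := hp
      refine h.trans ?_
      rw [← hr]
      refine (List.prefix_append (X.take p ++ s) (r ++ X.drop (p + s.length))).isInfix.trans ?_
      simp
    · obtain ⟨r, hr⟩ := hq
      refine h.trans ?_
      rw [← hr]
      refine (List.suffix_append (X.take p ++ r) (s ++ X.drop (p + s.length))).isInfix.trans ?_
      simp
    · rcases hts with rfl | hts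
      · omega
      · exact absurd h hts

end Vale.Agent.P333.E
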