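import Mathlib
import Vale.Agent.P333.E.AlgDefs

set_option linter.all false

/-!
P333, ratio below `7/3`, ALG2: the loop of a class.
-/

namespace Vale.Agent.P333.E

open Vale.Agent.P333 Vale.Agent.P333.U Vale.Agent.Lib.PolyTime

theorem linW_append (a : List (List ℕ)) (y : List ℕ) (b : List (List ℕ)) :
    linW (a ++ y :: b) = linW (a ++ [y]) + linW (y :: b) := by
  induction a with
  | nil => simp [linW]
  | cons x a ih =>
    cases a with
    | nil => simp [linW]
    | cons z a =>
      simp only [List.cons_append] at ih ⊢
      rw [linW, linW, ih]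
      omega

theorem linW_snoc (x h : List ℕ) (r : List (List ℕ)) :
    linW (x :: r ++ [h]) =
      linW (x :: r) + (((x :: r).getLastD []).length - ov ((x :: r).getLastD []) h) := by
  induction r generalizing x with
  | nil => simp [linW]
  | cons y r ih =>
    have h3 : (x :: y :: r).getLastD [] = (y :: r).getLastD [] := by simp [List.getLastD]
    have := ih y
    simp only [List.cons_append] at this ⊢
    rw [h3, linW, linW, this]
    omega

theorem cycW_eq_linW (x : List ℕ) (r : List (List ℕ)) : cycW (x :: r) = linW (x :: r ++ [x]) := by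
  rw [linW_snoc]
  rfl

/-- Rotation of a cycle. -/
theorem linW_rot (a : List (List ℕ)) (y : List ℕ) (b : List (List ℕ)) :
    linW (y :: b ++ a ++ [y]) = cycW (a ++ y :: b) := by
  cases a with
  | nil => simp [cycW_eq_linW]
  | cons x a =>
    have e1 : cycW (x :: a ++ y :: b) = linW ((x :: a) ++ y :: (b ++ [x])) := by
      rw [List.cons_append, cycW_eq_linW]
      simp
    have e2 : y :: b ++ (x :: a) ++ [y] = (y :: b) ++ x :: (a ++ [y]) := by simp
    rw [e1, e2, linW_append (x :: a) y (b ++ [x]), linW_append (y :: b) x (a ++ [y])]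
    simp only [List.cons_append]
    omega

theorem getLastD_snoc (l : List (List ℕ)) (y : List ℕ) : (l ++ [y]).getLastD [] = y := by
  simp

/-- **ALG2.** -/
theorem blkLoop : BlkLoop := by
  intro c G h
  have hsplit : c.takeWhile (fun s => !infB s G) ++ c.dropWhile (fun s => !infB s G) = c :=
    List.takeWhile_append_dropWhile
  have hne : c.dropWhile (fun s => !infB s G) ≠ [] := by
    intro h0
    rw [List.dropWhile_eq_nil_iff] at h0
    rw [tchB, List.any_eq_true] at h
    obtain ⟨s, hs, h1⟩ := h
    have := h0 s hs
    simp [h1] at this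
  obtain ⟨y, b, hb⟩ := List.exists_cons_of_ne_nil hne
  have hy : infB y G = true := by
    have := List.head_dropWhile_not (fun s => !infB s G) hne
    simp only [hb, List.head_cons] at this
    simpa using this
  have hrot : rotC c G = y :: b ++ c.takeWhile (fun s => !infB s G) := by rw [rotC, hb]
  have hhd : (rotC c G).headD [] = y := by rw [hrot]; rfl
  have hlp : loopC c G = mergeL (y :: b ++ c.takeWhile (fun s => !infB s G) ++ [y]) := by
    rw [loopC, hhd, hrot]
  rw [hb] at hsplit
  have hyc : y ∈ c := by
    rw [← hsplit]
    simp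
  rw [hhd]
  refine ⟨hyc, (infB_iff _ _).1 hy, ?_, ?_, ?_, ?_⟩
  · rw [hlp]
    have := headD_prefix_mergeL (y :: b ++ c.takeWhile (fun s => !infB s G) ++ [y])
    simpa using this
  · rw [hlp]
    have := getLastD_suffix_mergeL (y :: b ++ c.takeWhile (fun s => !infB s G) ++ [y])
    rw [getLastD_snoc] at this
    exact this
  · intro t ht
    rw [hlp]
    refine infix_mergeL ?_
    rw [← hsplit] at ht
    simp only [List.mem_append, List.mem_cons] at ht ⊢
    tauto
  · rw [hlp, length_mergeL, linW_rot, hsplit]
    rw [getLastD_snoc]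
    omega

end Vale.Agent.P333.E
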