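import Mathlib
import Vale.Agent.P333.E.AlgDefs

set_option linter.all false

namespace Vale.Agent.P333.E

open Vale.Agent.P333 Vale.Agent.P333.U Vale.Agent.Lib.PolyTime

variable {A : Set Word} {α β γ : Type*} [Enc α] [Enc β] [Enc γ]

/-- A fold whose steps increase the size by a bounded amount. -/
theorem PT_foldl_add {l : α → List γ} {init : α → β} {f : α → β → γ → β} (hl : PT A l)
    (hi : PT A init) (hf : PT A (fun p : α × β × γ => f p.1 p.2.1 p.2.2)) {b : α → ℕ} (hb : PBd b)
    (h : ∀ a, ∀ x ∈ l a, ∀ s, esize (f a s x) ≤ esize s + b a) :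
    PT A (fun a => (l a).foldl (f a) (init a)) := by
  have hB : PBd (fun a => esize (init a) + esize (l a) * b a) :=
    hi.pbd.add (hl.pbd.mul hb)
  refine PT.foldl hl hi hf hB fun a i => ?_
  have key : ∀ (m : List γ), (∀ x ∈ m, x ∈ l a) → ∀ s : β,
      esize (m.foldl (f a) s) ≤ esize s + m.length * b a := by
    intro m
    induction m with
    | nil => intro _ s; simp
    | cons x m ih =>
      intro hm s
      rw [List.foldl_cons]
      have h1 := ih (fun y hy => hm y (List.mem_cons_of_mem _ hy)) (f a s x)
      have h2 := h a x (hm x (by simp)) s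
      rw [List.length_cons, Nat.add_mul, Nat.one_mul]
      omega
  have h1 := key ((l a).take i) (fun x hx => List.mem_of_mem_take hx) (init a)
  refine h1.trans (Nat.add_le_add_left (Nat.mul_le_mul_right _ ?_) _)
  exact (List.length_take_le' _ _).trans (length_le_esize _)

theorem PT_extC {S Gs : α → List (List ℕ)} (hS : PT A S) (hG : PT A Gs) :
    PT A (fun a => extC (S a) (Gs a)) := by
  unfold extC
  refine PT.append hG (PT.flatMap (f := fun a G => (S a).flatMap (fun s =>
    (List.range (s.length + 1)).map (fun k => G ++ s.drop k))) hG ?_)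
  refine PT.flatMap (f := fun (p : α × List ℕ) s =>
    (List.range (s.length + 1)).map (fun k => p.2 ++ s.drop k)) (hS.comp PT.fst') ?_
  have h1 : PT A (fun q : (α × List ℕ) × List ℕ => q.2) := PT.snd'
  refine PT.map (f := fun (q : (α × List ℕ) × List ℕ) k => q.1.2 ++ q.2.drop k)
    (PT.range (PT.add h1.length (PT.const 1)) ((PBd.length h1).add (PBd.const 1))) ?_
  exact PT.append (PT.snd'.comp (PT.fst'.comp PT.fst')) (PT.drop (PT.snd'.comp PT.fst') PT.snd')

theorem PT_cands (m : ℕ) : PT A (fun S : List (List ℕ) => cands S m) := by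
  induction m with
  | zero => exact PT.const [[]]
  | succ m ih => exact PT_extC PT.id ih

theorem PT_tchB {c : α → List (List ℕ)} {G : α → List ℕ} (hc : PT A c) (hG : PT A G) :
    PT A (fun a => tchB (c a) (G a)) :=
  PT.any (f := fun a s => infB s (G a)) hc (PT_infB PT.snd' (hG.comp PT.fst'))

theorem PT_contB {c : α → List (List ℕ)} {G : α → List ℕ} (hc : PT A c) (hG : PT A G) :
    PT A (fun a => contB (c a) (G a)) :=
  PT.all (f := fun a s => infB s (G a)) hc (PT_infB PT.snd' (hG.comp PT.fst'))

theorem PT_cycO {c : α → List (List ℕ)} (hc : PT A c) : PT A (fun a => cycO (c a)) :=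
  PT_ov (PT_getLastD hc (PT.const [])) (PT.headD hc (PT.const []))

theorem PT_cycW {c : α → List (List ℕ)} (hc : PT A c) : PT A (fun a => cycW (c a)) := by
  refine (PT.sub (PT_mergeL hc).length (PT_cycO hc)).congr fun a => ?_
  rw [length_mergeL']
  omega

theorem PT_gainB (N D : ℕ) {rem : α → List (List (List ℕ))} {G : α → List ℕ} (hr : PT A rem)
    (hG : PT A G) : PT A (fun a => gainB N D (rem a) (G a)) := by
  unfold gainB
  refine PT.sum (PT.map (f := fun a c => (if contB c (G a) then D * cycW c else 0) +
    (if tchB c (G a) then N * cycO c else 0)) hr ?_)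
  have h1 : PT A (fun p : α × List (List ℕ) => G p.1) := hG.comp PT.fst'
  refine PT.add ?_ ?_
  · refine PT.ite (p := fun p : α × List (List ℕ) => contB p.2 (G p.1) = true)
      ((PT_contB PT.snd' h1).congr fun p => by simp) (PT.mul (PT.const D) (PT_cycW PT.snd'))
      (PT.const 0)
  · refine PT.ite (p := fun p : α × List (List ℕ) => tchB p.2 (G p.1) = true)
      ((PT_tchB PT.snd' h1).congr fun p => by simp) (PT.mul (PT.const N) (PT_cycO PT.snd'))
      (PT.const 0)

theorem PT_rotC {c : α → List (List ℕ)} {G : α → List ℕ} (hc : PT A c) (hG : PT A G) :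
    PT A (fun a => rotC (c a) (G a)) := by
  unfold rotC
  have h1 : PT A (fun p : α × List ℕ => !infB p.2 (G p.1)) :=
    (PT_infB PT.snd' (hG.comp PT.fst')).not
  exact PT.append (PT.dropWhile (f := fun a s => !infB s (G a)) hc h1)
    (PT.takeWhile (f := fun a s => !infB s (G a)) hc h1)

theorem PT_rotH {c : α → List (List ℕ)} {G : α → List ℕ} (hc : PT A c) (hG : PT A G) :
    PT A (fun a => (rotC (c a) (G a)).headD []) := PT.headD (PT_rotC hc hG) (PT.const [])

theorem PT_loopC {c : α → List (List ℕ)} {G : α → List ℕ} (hc : PT A c) (hG : PT A G) :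
    PT A (fun a => loopC (c a) (G a)) :=
  PT_mergeL (PT.append (PT_rotC hc hG) (PT.cons (PT_rotH hc hG) PT.nil))

theorem PT_occP {X s : α → List ℕ} (hX : PT A X) (hs : PT A s) :
    PT A (fun a => occP (X a) (s a)) := by
  unfold occP
  refine PT.optGetD (PT.find? (l := fun a => List.range ((X a).length + 1))
    (f := fun a i => decide (((X a).drop i).take (s a).length = s a))
    (PT.range (PT.add hX.length (PT.const 1)) ((PBd.length hX).add (PBd.const 1))) ?_) (PT.const 0)
  have h1 : PT A (fun p : α × ℕ => X p.1) := hX.comp PT.fst'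
  have h2 : PT A (fun p : α × ℕ => s p.1) := hs.comp PT.fst'
  exact PT_eqStr (PT.take (PT.drop h1 PT.snd') h2.length) h2

theorem PT_insW {X s R : α → List ℕ} (hX : PT A X) (hs : PT A s) (hR : PT A R) :
    PT A (fun a => insW (X a) (s a) (R a)) :=
  PT.append (PT.append (PT.take hX (PT_occP hX hs)) hR)
    (PT.drop hX (PT.add (PT_occP hX hs) hs.length))

theorem esize_insW (X s R : List ℕ) : esize (insW X s R) ≤ esize X + esize R := by
  unfold insW
  rw [esize_append, esize_append]
  have h1 := esize_append (X.take (occP X s)) (X.drop (occP X s))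
  rw [List.take_append_drop] at h1
  have h2 : esize (X.drop (occP X s + s.length)) ≤ esize (X.drop (occP X s)) := by
    rw [← List.drop_drop]
    exact esize_drop_le _ _
  omega

theorem PT_loopIn {G X : α → List ℕ} {c : α → List (List ℕ)} (hG : PT A G) (hX : PT A X)
    (hc : PT A c) : PT A (fun a => loopIn (G a) (X a) (c a)) := by
  unfold loopIn
  refine PT.ite (p := fun a => (tchB (c a) (G a) && !contB (c a) (G a)) = true)
    (((PT_tchB hc hG).and (PT_contB hc hG).not).congr fun a => by simp)
    (PT_insW hX (PT_rotH hc hG) (PT_loopC hc hG)) hX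

theorem esize_loopIn (G X : List ℕ) (c : List (List ℕ)) :
    esize (loopIn G X c) ≤ esize X + esize (loopC c G) := by
  unfold loopIn
  split
  · exact esize_insW _ _ _
  · omega

theorem PT_expand {rem : α → List (List (List ℕ))} {G : α → List ℕ} (hr : PT A rem)
    (hG : PT A G) : PT A (fun a => expand (rem a) (G a)) := by
  unfold expand
  obtain ⟨b, hb, hb'⟩ := PT.bound_mem (f := fun a c => loopC c (G a)) hr
    (PT_loopC PT.snd' (hG.comp PT.fst'))
  refine PT_foldl_add (f := fun a X c => loopIn (G a) X c) hr hG
    (PT_loopIn (hG.comp PT.fst') PT.snd'.fst PT.snd'.snd) hb fun a x hx s => ?_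
  exact (esize_loopIn _ _ _).trans (Nat.add_le_add_left (hb' a x hx) _)

/-- The size of the expanded text of a part of the classes is bounded. -/
theorem esize_expand_le (rem : List (List (List ℕ))) (G : List ℕ) :
    esize (expand rem G) ≤ esize G + (rem.map (fun c => esize (loopC c G))).sum := by
  unfold expand
  have key : ∀ (r : List (List (List ℕ))) (X : List ℕ),
      esize (r.foldl (loopIn G) X) ≤ esize X + (r.map (fun c => esize (loopC c G))).sum := by
    intro r
    induction r with
    | nil => intro X; simp
    | cons c r ih =>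
      intro X
      rw [List.foldl_cons, List.map_cons, List.sum_cons]
      have h1 := ih (loopIn G X c)
      have h2 := esize_loopIn G X c
      omega
  exact key rem G

theorem sum_sublist_le {δ : Type*} (f : δ → ℕ) {l l' : List δ} (h : l.Sublist l') :
    (l.map f).sum ≤ (l'.map f).sum := by
  induction h with
  | slnil => simp
  | cons a h ih => rw [List.map_cons, List.sum_cons]; omega
  | cons_cons a h ih => rw [List.map_cons, List.sum_cons, List.map_cons, List.sum_cons]; omega

theorem PT_remOf {rem : α → List (List (List ℕ))} {G : α → List ℕ} (hr : PT A rem)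
    (hG : PT A G) : PT A (fun a => remOf (rem a) (G a)) := by
  unfold remOf
  exact PT.filter (f := fun a c => !tchB c (G a)) hr (PT_tchB PT.snd' (hG.comp PT.fst')).not

theorem PT_stepP (N D : ℕ) {st : α → List ℕ × List (List (List ℕ))} {G : α → List ℕ}
    (hst : PT A st) (hG : PT A G) : PT A (fun a => stepP N D (st a) (G a)) := by
  unfold stepP
  refine PT.ite (p := fun a => D * (G a).length < gainB N D (st a).2 (G a)) ?_ ?_ hst
  · exact PT.lt (PT.mul (PT.const D) hG.length) (PT_gainB N D hst.snd hG)
  · exact (PT.append hst.fst (PT_expand hst.snd hG)).pair (PT_remOf hst.snd hG)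

/-- The states of the fold. -/
theorem peel_state (N D : ℕ) (L : List (List (List ℕ))) (b : ℕ) :
    ∀ (Gs : List (List ℕ)), (∀ G ∈ Gs, esize G + (L.map (fun c => esize (loopC c G))).sum ≤ b) →
    ∀ (out : List ℕ) (rem : List (List (List ℕ))), rem.Sublist L →
      (Gs.foldl (stepP N D) (out, rem)).2.Sublist L ∧
      esize (Gs.foldl (stepP N D) (out, rem)).1 ≤ esize out + Gs.length * b := by
  intro Gs
  induction Gs with
  | nil => intro _ out rem h; exact ⟨h, by simp⟩
  | cons G Gs ih =>
    intro hb out rem h
    rw [List.foldl_cons]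
    have hb' : ∀ G ∈ Gs, esize G + (L.map (fun c => esize (loopC c G))).sum ≤ b :=
      fun G' hG' => hb G' (List.mem_cons_of_mem _ hG')
    unfold stepP
    rw [List.length_cons, Nat.add_mul, Nat.one_mul]
    split
    · have h1 := ih hb' (out ++ expand rem G) (remOf rem G) (List.filter_sublist.trans h)
      refine ⟨h1.1, h1.2.trans ?_⟩
      rw [esize_append]
      have h2 := esize_expand_le rem G
      have h3 := sum_sublist_le (fun c => esize (loopC c G)) h
      have h4 := hb G (by simp)
      omega
    · have h1 := ih hb' out rem h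
      exact ⟨h1.1, h1.2.trans (by omega)⟩

theorem PT_peelP (N D : ℕ) {L : α → List (List (List ℕ))} {Gs : α → List (List ℕ)}
    (hL : PT A L) (hG : PT A Gs) : PT A (fun a => peelP N D (L a) (Gs a)) := by
  unfold peelP
  -- a bound for the sizes
  have hm : PT A (fun p : α × List ℕ => (L p.1).map (fun c => loopC c p.2)) :=
    PT.map (f := fun (p : α × List ℕ) c => loopC c p.2) (hL.comp PT.fst')
      (PT_loopC PT.snd' (PT.snd'.comp PT.fst'))
  obtain ⟨b, hb, hb'⟩ := PT.bound_mem (f := fun a G => (L a).map (fun c => loopC c G)) hG hm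
  have hB : PBd (fun a => 2 * (esize (Gs a) * (esize (Gs a) + b a)) + esize (L a) + 1) := by
    have h1 := hG.pbd
    have h2 := hL.pbd
    exact (((PBd.const 2).mul (h1.mul (h1.add hb))).add h2).add (PBd.const 1)
  refine PT.foldl (init := fun a => (([] : List ℕ), L a)) (f := fun _ st G => stepP N D st G) hG
    ((PT.const []).pair hL) (PT_stepP N D PT.snd'.fst PT.snd'.snd) hB fun a i => ?_
  have h3 := peel_state N D (L a) (esize (Gs a) + b a) ((Gs a).take i) (fun G hGm => by
    have hGm' := List.mem_of_mem_take hGm
    have h4 := hb' a G hGm'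
    have h5 : ((L a).map (fun c => esize (loopC c G))).sum ≤
        esize ((L a).map (fun c => loopC c G)) := by
      rw [esize_list, List.map_map]
      clear h4 hGm hGm'
      induction L a with
      | nil => simp
      | cons c r ih =>
        simp only [List.map_cons, List.sum_cons, Function.comp] at ih ⊢
        omega
    have h6 := esize_le_of_mem hGm'
    omega) [] (L a) (List.Sublist.refl _)
  generalize hst : ((Gs a).take i).foldl (stepP N D) ([], L a) = st at h3 ⊢
  rcases st with ⟨o, r⟩
  rw [esize_pair]
  have h7 := esize_le_of_sublist h3.1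
  have h8 := h3.2
  have h9 : ((Gs a).take i).length ≤ esize (Gs a) :=
    (List.length_take_le' _ _).trans (length_le_esize _)
  have h10 := Nat.mul_le_mul_right (esize (Gs a) + b a) h9
  have h11 : esize ([] : List ℕ) = 0 := rfl
  simp only at h7 h8
  omega

theorem PT_stage {atsp : List Unit × List (List ℕ) → List ℕ} (ha : PT A atsp)
    {rem : α → List (List (List ℕ))} (hr : PT A rem) : PT A (fun a => stage atsp (rem a)) := by
  unfold stage
  have h1 : PT A (fun a => (rem a).map mergeL) :=
    PT.map (f := fun _ c => mergeL c) hr (PT_mergeL PT.snd')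
  have h2 : PT A (fun a => ovMat ((rem a).map mergeL)) := by
    unfold ovMat
    refine PT.map (f := fun a s => ((rem a).map mergeL).map fun r => ov s r) h1 ?_
    refine PT.map (f := fun (p : α × List ℕ) r => ov p.2 r) (h1.comp PT.fst') ?_
    exact PT_ov (PT.snd'.comp PT.fst') PT.snd'
  have h3 : PT A (fun a => List.replicate ((rem a).map mergeL).flatten.length ()) :=
    PT.replicate (PT.length (PT.flatten h1)) (PBd.length (PT.flatten h1)) (PT.const ())
  refine PT_mergeL ?_
  unfold order
  exact PT.map (f := fun a i => ((rem a).map mergeL).getD i []) (ha.comp (h3.pair h2))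
    (PT.getD (h1.comp PT.fst') PT.snd' (PT.const []))

theorem blkPT : BlkPT := by
  intro N D M cover atsp hc ha
  unfold algE
  have h1 := PT_peelP N D hc (PT_cands (A := ∅) M)
  exact PT.append h1.fst (PT_stage ha h1.snd)

end Vale.Agent.P333.E
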