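import Mathlib
import Vale.Agent.P333.E.AlgDefs

/-!
P333, ratio below `7/3`, algorithm side (ALG5): the tests.
-/

namespace Vale.Agent.P333.E

open Vale.Agent.P333 Vale.Agent.P333.U Vale.Agent.Lib.PolyTime

theorem tchB_iff (c : List (List ℕ)) (G : List ℕ) : tchB c G = true ↔ Tch c G := by
  rw [tchB, List.any_eq_true, Tch]
  simp only [infB_iff]

theorem contB_iff (c : List (List ℕ)) (G : List ℕ) : contB c G = true ↔ Cont c G := by
  rw [contB, List.all_eq_true, Cont]
  simp only [infB_iff]

theorem gain_eq (N D : ℕ) (rem : List (List (List ℕ))) (G : List ℕ) :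
    gain N D rem G = gainB N D rem G := by
  rw [gain, gainB]
  congr 1
  refine List.map_congr_left fun c _ => ?_
  simp only [← tchB_iff, ← contB_iff]

theorem tchB_of_contB {c : List (List ℕ)} (hc : c ≠ []) {G : List ℕ} (h : contB c G = true) :
    tchB c G = true := by
  obtain ⟨s, c', rfl⟩ := List.exists_cons_of_ne_nil hc
  rw [contB, List.all_eq_true] at h
  rw [tchB, List.any_eq_true]
  exact ⟨s, by simp, h s (by simp)⟩

theorem gainB_mono (N D : ℕ) {rem rem' : List (List (List ℕ))} (h : rem'.Sublist rem)
    (G : List ℕ) : gainB N D rem' G ≤ gainB N D rem G :=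
  (h.map _).sum_le_sum fun _ _ => Nat.zero_le _

theorem gainB_remOf (N D : ℕ) {rem : List (List (List ℕ))} (hne : ∀ c ∈ rem, c ≠ [])
    (G : List ℕ) : gainB N D (remOf rem G) G = 0 := by
  rw [gainB, List.sum_eq_zero_iff]
  intro x hx
  obtain ⟨c, hc, rfl⟩ := List.mem_map.1 hx
  rw [remOf, List.mem_filter] at hc
  have h1 : tchB c G = false := by simpa using hc.2
  have h2 : contB c G = false := by
    by_contra h
    have := tchB_of_contB (hne c hc.1) (by simpa using h)
    rw [h1] at this
    simp at this
  rw [h1, h2]
  simp

/-- Accounting of one step. -/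
theorem step_account (N D : ℕ) (rem : List (List (List ℕ))) (hne : ∀ c ∈ rem, c ≠ [])
    (G : List ℕ) :
    gainB N D rem G + D * (rem.map (fun c => if tchB c G && !contB c G then cycW c else 0)).sum +
      D * sW (remOf rem G) + N * sO (remOf rem G) = D * sW rem + N * sO rem := by
  induction rem with
  | nil => simp [gainB, remOf, sW, sO]
  | cons c rem ih =>
    have ih := ih fun d hd => hne d (List.mem_cons_of_mem _ hd)
    have hc := hne c List.mem_cons_self
    simp only [gainB, sW, sO, remOf, List.map_cons, List.sum_cons] at ih ⊢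
    by_cases ht : tchB c G = true
    · have h0 : (!tchB c G) = false := by rw [ht]; rfl
      rw [List.filter_cons_of_neg (by simp [ht])]
      by_cases hk : contB c G = true
      · rw [ht, hk]
        simp only [Bool.not_true, Bool.and_false, if_true]
        simp only [Bool.false_eq_true, if_false, zero_add, mul_add]
        omega
      · have hk' : contB c G = false := by simpa using hk
        rw [ht, hk']
        simp only [Bool.not_false, Bool.and_self, if_true]
        simp only [Bool.false_eq_true, if_false, zero_add, mul_add]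
        omega
    · have ht' : tchB c G = false := by simpa using ht
      have hk' : contB c G = false := by
        by_contra h
        exact ht (tchB_of_contB hc (by simpa using h))
      rw [List.filter_cons_of_pos (by simp [ht']), ht', hk']
      simp only [List.map_cons, List.sum_cons, Bool.false_eq_true, if_false, Bool.false_and, zero_add, mul_add]
      omega

theorem remOf_sublist (rem : List (List (List ℕ))) (G : List ℕ) : (remOf rem G).Sublist rem :=
  List.filter_sublist

theorem peel_aux (h4 : BlkExpand) (N D : ℕ) {S : List (List ℕ)} {L : List (List (List ℕ))}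
    (hS : Sfree S) (hL : MinCover S L) (Gs : List (List ℕ)) (st : List ℕ × List (List (List ℕ)))
    (hst : st.2.Sublist L) :
    (Gs.foldl (stepP N D) st).2.Sublist st.2 ∧
    (∀ G ∈ Gs, gainB N D (Gs.foldl (stepP N D) st).2 G ≤ D * G.length) ∧
    (∃ u, (Gs.foldl (stepP N D) st).1 = st.1 ++ u) ∧
    (∀ c ∈ st.2, c ∈ (Gs.foldl (stepP N D) st).2 ∨
      ∀ s ∈ c, s <:+: (Gs.foldl (stepP N D) st).1) ∧
    D * (Gs.foldl (stepP N D) st).1.length + D * sW (Gs.foldl (stepP N D) st).2 +
      N * sO (Gs.foldl (stepP N D) st).2 ≤ D * st.1.length + D * sW st.2 + N * sO st.2 := by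
  induction Gs generalizing st with
  | nil => exact ⟨List.Sublist.refl _, fun G hG => by simp at hG, ⟨[], by simp⟩,
      fun c hc => Or.inl hc, le_rfl⟩
  | cons G Gs ih =>
    rw [List.foldl_cons]
    by_cases h : D * G.length < gainB N D st.2 G
    · have hs : stepP N D st G = (st.1 ++ expand st.2 G, remOf st.2 G) := by
        rw [stepP, if_pos h]
      rw [hs]
      have hne : ∀ c ∈ st.2, c ≠ [] := fun c hc => hL.ne c (hst.subset hc)
      obtain ⟨b1, b2, ⟨u, b3⟩, b4, b5⟩ := ih (st.1 ++ expand st.2 G, remOf st.2 G)
        ((remOf_sublist _ _).trans hst)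
      simp only at b1 b2 b3 b4 b5
      obtain ⟨e1, e2, e3⟩ := h4 S L st.2 G hS hL hst
      refine ⟨b1.trans (remOf_sublist _ _), fun G' hG' => ?_, ⟨expand st.2 G ++ u, ?_⟩,
        fun c hc => ?_, ?_⟩
      · rcases List.mem_cons.1 hG' with rfl | hG'
        · refine (gainB_mono N D b1 G').trans ?_
          rw [gainB_remOf N D hne]
          exact Nat.zero_le _
        · exact b2 G' hG'
      · rw [b3, List.append_assoc]
      · by_cases ht : tchB c G = true
        · refine Or.inr fun s hs' => ?_
          rw [b3]
          refine (e2 c hc ht s hs').trans ?_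
          exact ⟨st.1, u, rfl⟩
        · refine b4 c ?_
          rw [remOf, List.mem_filter]
          exact ⟨hc, by simpa using ht⟩
      · refine b5.trans ?_
        have hacc := step_account N D st.2 hne G
        rw [List.length_append, e3, mul_add, mul_add]
        omega
    · have hs : stepP N D st G = st := by
        rw [stepP, if_neg h]
      rw [hs]
      obtain ⟨b1, b2, b3, b4, b5⟩ := ih st hst
      refine ⟨b1, fun G' hG' => ?_, b3, b4, b5⟩
      rcases List.mem_cons.1 hG' with rfl | hG'
      · exact (gainB_mono N D b1 G').trans (by omega)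
      · exact b2 G' hG'

theorem blkPeel (h4 : BlkExpand) : BlkPeel := by
  intro N D S L Gs hS hL
  obtain ⟨b1, b2, -, b4, b5⟩ := peel_aux h4 N D hS hL Gs ([], L) (List.Sublist.refl _)
  refine ⟨b1, fun G hG => ?_, b4, ?_⟩
  · rw [gain_eq]
    exact b2 G hG
  · simp only [List.length_nil, mul_zero, zero_add] at b5
    exact b5

end Vale.Agent.P333.E
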