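import Mathlib
import Vale.Agent.P333.E.AlgDefs

set_option linter.all false

/-!
P333, ratio below `7/3`: the last stage of the algorithm.
-/

namespace Vale.Agent.P333.E

open Vale.Agent.P333 Vale.Agent.P333.U Vale.Agent.Lib.PolyTime

theorem sfree_perm {S S' : List (List ℕ)} (h : Sfree S) (hp : S'.Perm S) : Sfree S' := by
  refine ⟨fun s hs => h.1 s (hp.mem_iff.1 hs), ?_⟩
  have hs : ∀ {x y : List ℕ}, (¬ x <:+: y ∧ ¬ y <:+: x) → (¬ y <:+: x ∧ ¬ x <:+: y) :=
    fun h => ⟨h.2, h.1⟩
  exact (hp.pairwise_iff (R := fun s t : List ℕ => ¬ s <:+: t ∧ ¬ t <:+: s) hs).2 h.2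

theorem sfree_sublist {S S' : List (List ℕ)} (h : Sfree S) (hp : S'.Sublist S) : Sfree S' :=
  ⟨fun s hs => h.1 s (hp.subset hs), h.2.sublist hp⟩

theorem sublist_flatten {L rem : List (List (List ℕ))} (h : rem.Sublist L) :
    rem.flatten.Sublist L.flatten := by
  induction h with
  | slnil => exact List.Sublist.refl _
  | cons a _ ih =>
    rw [List.flatten_cons]
    exact ih.trans (List.sublist_append_right _ _)
  | cons_cons a _ ih =>
    rw [List.flatten_cons, List.flatten_cons]
    exact (List.Sublist.refl a).append ih

theorem sfree_rem {S : List (List ℕ)} {L rem : List (List (List ℕ))} (hS : Sfree S)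
    (hL : MinCover S L) (hr : rem.Sublist L) : Sfree rem.flatten :=
  sfree_sublist (sfree_perm hS hL.perm) (sublist_flatten hr)

theorem minCover_rem {S : List (List ℕ)} {L rem : List (List (List ℕ))}
    (hL : MinCover S L) (hr : rem.Sublist L) : MinCover rem.flatten rem := by
  obtain ⟨R, hR⟩ := hr.exists_perm_append
  refine ⟨List.Perm.refl _, fun c hc => hL.ne c (hr.subset hc), fun c hc => hL.opn c (hr.subset hc),
    fun L' hL' hne => ?_⟩
  have h1 : (L' ++ R).flatten.Perm S := by
    rw [List.flatten_append]
    refine (hL'.append_right _).trans ?_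
    rw [← List.flatten_append]
    exact (hR.symm.flatten).trans hL.perm
  have h2 := hL.min (L' ++ R) h1 (fun c hc => by
    rcases List.mem_append.1 hc with h | h
    · exact hne c h
    · exact hL.ne c (hR.mem_iff.2 (List.mem_append_right _ h)))
  rw [(hR.map cycW).sum_eq] at h2
  simp only [List.map_append, List.sum_append] at h2
  omega

theorem superstring_rem {S T : List (List ℕ)} {U : List ℕ} (h : IsSuperstring S U)
    (hs : ∀ s ∈ T, s ∈ S) : IsSuperstring T U := fun s hs' => h s (hs s hs')

theorem blkStage : BlkStage := by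
  intro atsp hatsp S L rem T hS hL hr hT
  have hS' := sfree_rem hS hL hr
  have hL' := minCover_rem hL hr
  have hT' : IsSuperstring rem.flatten T := superstring_rem hT fun s hs =>
    hL.perm.mem_iff.1 ((sublist_flatten hr).subset hs)
  obtain ⟨Q, hQ, w3⟩ := wordsB _ _ _ hS' hL' hT'
  unfold stage
  set t := rem.map mergeL with ht
  obtain ⟨a1, a2⟩ := hatsp (List.replicate t.flatten.length ()) (ovMat t) (by
    rw [List.length_replicate]; exact sqMat_ovMat t)
  rw [length_ovMat] at a1 a2
  obtain ⟨P, hPr, rfl⟩ := exists_order t hQ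
  have a3 := a2 P hPr
  have e1 := length_order t P
  have e2 := length_order t (atsp (List.replicate t.flatten.length (), ovMat t))
  rw [((order_perm t hPr).map _).sum_eq] at e1
  rw [((order_perm t a1).map _).sum_eq] at e2
  have hlen : (t.map List.length).sum = sW rem + sO rem := by
    have h1 : ∀ L' : List (List (List ℕ)), (∀ c ∈ L', c ≠ []) →
        ((L'.map mergeL).map List.length).sum = (L'.map cycW).sum + (L'.map cycO).sum := by
      intro L' hne
      induction L' with
      | nil => simp
      | cons c L' ih =>
        have := ih fun c hc => hne c (List.mem_cons_of_mem _ hc)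
        simp only [List.map_cons, List.sum_cons]
        rw [length_mergeLF c (hne c List.mem_cons_self), this]
        omega
    exact h1 rem hL'.ne
  refine ⟨fun c hc s hs => ?_, ?_⟩
  · refine (infix_mergeLF hs).trans (infix_mergeLF ?_)
    exact (order_perm t a1).mem_iff.2 (List.mem_map_of_mem hc)
  · unfold sW sO at *
    omega

end Vale.Agent.P333.E
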