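import Mathlib

/-!
P333, ratio below `7/3`: the structure `Dat` (strings of the classes of a minimum cycle cover, placed
in a text), and the statements of the parts of Lemma E.

`Dat`: the text is `T 0, …, T (n - 1)`; the string `s` occupies `[a s, b s)`, its class is `cl s`; the
class `c` has the periodic word `X c` of least period `w c` and the smallest overlap `o c`.
-/

set_option autoImplicit false

namespace Vale.Agent.P333.E

/-- `p` is the least period of the infinite word `X`. -/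
structure LPer (X : ℕ → ℕ) (p : ℕ) : Prop where
  pos : 0 < p
  per : ∀ k, X (k + p) = X k
  min : ∀ q, 0 < q → q < p → ¬ ∀ k, X (k + q) = X k

/-- Strings of several classes, placed in a text. -/
structure Dat (ι σ : Type) where
  n : ℕ
  T : ℕ → ℕ
  cl : σ → ι
  a : σ → ℕ
  b : σ → ℕ
  X : ι → ℕ → ℕ
  w : ι → ℕ
  o : ι → ℕ

namespace Dat

variable {ι σ : Type}

/-- `k` is the length of a proper overlap of the strings `s` and `t`. -/
def Ov (D : Dat ι σ) (s t : σ) (k : ℕ) : Prop :=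
  D.a s + k < D.b s ∧ D.a t + k < D.b t ∧ ∀ j < k, D.T (D.b s - k + j) = D.T (D.a t + j)

/-- `s` and `t` are consecutive strings of the classes in `H`. -/
def Cons (D : Dat ι σ) (H : Finset ι) (s t : σ) : Prop :=
  D.cl s ∈ H ∧ D.cl t ∈ H ∧ D.a s < D.a t ∧ ∀ r, D.cl r ∈ H → D.a r ≤ D.a s ∨ D.a t ≤ D.a r

/-- Positions covered by the strings of the classes in `H`. -/
def cover [Fintype σ] [DecidableEq ι] (D : Dat ι σ) (H : Finset ι) : Finset ℕ :=
  (Finset.univ.filter fun s => D.cl s ∈ H).biUnion fun s => Finset.Ico (D.a s) (D.b s)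

/-- The interval `[x, y)` of the text is a piece of the periodic word of `F`, with phase `q`. -/
def Mat (D : Dat ι σ) (F : ι) (q x y : ℕ) : Prop :=
  x ≤ y ∧ y ≤ D.n ∧ ∀ i, x ≤ i → i < y → D.T i = D.X F (q + i)

/-- The properties of the data (all of them are proved from a minimum cover of a family in which no
string contains another one, and a superstring of it). -/
structure Ok [Fintype σ] [DecidableEq ι] (D : Dat ι σ) : Prop where
  per : ∀ c, LPer (D.X c) (D.w c)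
  bn : ∀ s, D.b s ≤ D.n
  occ : ∀ s, ∃ q, D.Mat (D.cl s) q (D.a s) (D.b s)
  len1 : ∀ s, D.a s + D.o (D.cl s) < D.b s
  len2 : ∀ s, D.b s ≤ D.a s + (D.w (D.cl s) + D.o (D.cl s))
  nn : ∀ s t, s ≠ t → D.a s ≤ D.a t → D.a s < D.a t ∧ D.b s < D.b t
  dist : ∀ c d, c ≠ d → ¬ ∃ r, ∀ k, D.X c k = D.X d (k + r)
  noinf : ∀ t F q, D.cl t ≠ F → D.Mat F q (D.a t) (D.b t) → D.a t + (D.o F + 1) < D.b t
  win : ∀ c k, ∃ s d, D.cl s = c ∧ D.a s + d + (D.o c + 1) ≤ D.b s ∧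
    ∀ j, j ≤ D.o c → D.T (D.a s + d + j) = D.X c (k + j)
  cov1 : ∀ (H : Finset ι) (P : Finset (σ × σ)) (k : σ × σ → ℕ),
    (∀ p ∈ P, D.Cons H p.1 p.2 ∧ D.Ov p.1 p.2 (k p)) →
    (∑ c ∈ H, (D.w c : ℤ)) + ∑ p ∈ P, ((D.a p.2 : ℤ) + k p - D.b p.1) ≤ D.n
  cov2 : ∀ H : Finset ι, ∑ c ∈ H, D.w c ≤ (D.cover H).card

/-- The classes of very small weight. -/
def sm [Fintype ι] (D : Dat ι σ) : Finset ι := Finset.univ.filter fun c => 10 ^ 7 * D.w c ≤ D.o c

/-- The other classes, with `0.99 w ≤ o ≤ 2 w`. -/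
def gd [Fintype ι] (D : Dat ι σ) : Finset ι :=
  Finset.univ.filter fun c => D.o c < 10 ^ 7 * D.w c ∧ 99 * D.w c ≤ 100 * D.o c ∧
    D.o c ≤ 2 * D.w c

end Dat

/-- Length of the intersection of `[x, y)` and `[x', y')`. -/
def ilen (x y x' y' : ℕ) : ℕ := min y y' - max x x'

/-- A maximal matched interval for every class, which contains a string of the class. -/
structure Us {ι σ : Type} (D : Dat ι σ) where
  q : ι → ℕ
  x : ι → ℕ
  y : ι → ℕ
  mat : ∀ F, D.Mat F (q F) (x F) (y F)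
  str : ∀ F, ∃ f, D.cl f = F ∧ x F ≤ D.a f ∧ D.b f ≤ y F
  mx : ∀ F x' y', x' ≤ x F → y F ≤ y' → D.Mat F (q F) x' y' → x' = x F ∧ y' = y F

namespace Us

variable {ι σ : Type} {D : Dat ι σ}

/-- Length of the interval of `F`. -/
def u (U : Us D) (F : ι) : ℕ := U.y F - U.x F

/-- Positions covered by the intervals of the small classes. -/
def cov [Fintype ι] (U : Us D) : Finset ℕ := D.sm.biUnion fun F => Finset.Ico (U.x F) (U.y F)

/-- Length of the intersection with the string `s`. -/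
def si (U : Us D) (F : ι) (s : σ) : ℕ := ilen (D.a s) (D.b s) (U.x F) (U.y F)

/-- The largest intersection with a string of a class in `gd`. -/
def xm [Fintype ι] [Fintype σ] [DecidableEq ι] (U : Us D) (F : ι) : ℕ :=
  (Finset.univ.filter fun s => D.cl s ∈ D.gd).sup fun s => U.si F s

end Us

/-! ### The blocks -/

/-- E1a. Theorem of Fine and Wilf for two periodic words. -/
def BlkFW : Prop := ∀ (X Y : ℕ → ℕ) (p q : ℕ), LPer X p → LPer Y q →
  (¬ ∃ r, ∀ k, X k = Y (k + r)) → ∀ x y L, (∀ j < L, X (x + j) = Y (y + j)) → L < p + q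

/-- E1b. Existence of the maximal intervals. -/
def BlkUex : Prop := ∀ (ι σ : Type) [Fintype ι] [Fintype σ] [DecidableEq ι] (D : Dat ι σ), D.Ok →
  Nonempty (Us D)

/-- E2. The union of a chain of intervals with small intersections. -/
def BlkChain : Prop := ∀ (ι : Type) [DecidableEq ι] (A : Finset ι) (x y w : ι → ℕ),
  (∀ i ∈ A, x i < y i) →
  (∀ i ∈ A, ∀ j ∈ A, i ≠ j → x i ≤ x j → x i < x j ∧ y i < y j ∧ y i ≤ x j + (w i + w j)) →
  ∑ i ∈ A, (y i - x i) ≤ (A.biUnion fun i => Finset.Ico (x i) (y i)).card + 2 * ∑ i ∈ A, w i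

/-- E3a. Intersections of matched intervals. -/
def BlkInt : Prop := ∀ (ι σ : Type) [Fintype ι] [Fintype σ] [DecidableEq ι] (D : Dat ι σ), D.Ok →
  (∀ c d q q' x y x' y', c ≠ d → D.Mat c q x y → D.Mat d q' x' y' →
    ilen x y x' y' < D.w c + D.w d) ∧
  (∀ c q q' x y x' y', D.Mat c q x y → D.Mat c q' x' y' → D.w c ≤ ilen x y x' y' →
    ∀ k, D.X c (q + k) = D.X c (q' + k))

/-- E3b. The intervals of the small classes are not nested; no string of another class contains such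
an interval; a string of another class inside it is long. -/
def BlkNest : Prop := ∀ (ι σ : Type) [Fintype ι] [Fintype σ] [DecidableEq ι] (D : Dat ι σ), D.Ok →
  ∀ U : Us D,
  (∀ F, D.o F < U.u F) ∧
  (∀ F ∈ D.sm, ∀ G ∈ D.sm, F ≠ G → U.x F ≤ U.x G → U.x F < U.x G ∧ U.y F < U.y G ∧
    U.y F ≤ U.x G + (D.w F + D.w G)) ∧
  (∀ F s, D.cl s ≠ F → ¬ (D.a s ≤ U.x F ∧ U.y F ≤ D.b s)) ∧
  (∀ F s, D.cl s ≠ F → U.x F ≤ D.a s → D.b s ≤ U.y F → D.o F < D.b s - D.a s)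

/-- E4. Every small class has a good server, up to a small loss. -/
def BlkServ : Prop := ∀ (ι σ : Type) [Fintype ι] [Fintype σ] [DecidableEq ι] (D : Dat ι σ), D.Ok →
  ∀ U : Us D,
  ∑ F ∈ D.sm, (U.u F - U.xm F) + 2 * ∑ c ∈ D.gd, D.w c ≤
    ∑ F ∈ D.sm, (U.u F - D.o F) + 2 * D.n + 7 * ∑ F ∈ D.sm, D.w F

/-- E5. Far servers. -/
def BlkFar : Prop := ∀ (ι σ : Type) [Fintype ι] [Fintype σ] [DecidableEq ι] (D : Dat ι σ), D.Ok →
  ∀ (U : Us D) (A : Finset ι) (s : ι → σ), A ⊆ D.sm →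
  (∀ F ∈ A, D.cl (s F) ∈ D.gd ∧ 99 * U.u F ≤ 100 * U.si F (s F) ∧
    100 * U.u F < D.w (D.cl (s F))) →
  50 * ∑ F ∈ A, U.u F + 2 * U.cov.card ≤ 2 * ∑ F ∈ D.sm, U.u F + 2 * D.n

/-- E6. Local servers: there is another piece of the word of `F` inside of a string of the class of
the server. -/
def BlkLoc : Prop := ∀ (ι σ : Type) [Fintype ι] [Fintype σ] [DecidableEq ι] (D : Dat ι σ), D.Ok →
  ∀ (U : Us D) (F : ι) (s : σ), F ∈ D.sm → D.cl s ∈ D.gd → 99 * U.u F ≤ 100 * U.si F s →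
  ∃ s' q x y, D.cl s' = D.cl s ∧ D.Mat F q x y ∧ D.a s' ≤ x ∧ y ≤ D.b s' ∧
    U.u F ≤ 3 * (y - x) ∧ ilen x y (U.x F) (U.y F) < D.w F

/-- E7. The pieces found in E6 are essentially disjoint, and outside of the intervals of the small
classes. -/
def BlkCore : Prop := ∀ (ι σ : Type) [Fintype ι] [Fintype σ] [DecidableEq ι] (D : Dat ι σ), D.Ok →
  ∀ (U : Us D) (A : Finset ι) (s : ι → σ) (q x y : ι → ℕ), A ⊆ D.sm →
  (∀ F ∈ A, D.cl (s F) ∈ D.gd ∧ D.w (D.cl (s F)) ≤ 100 * U.u F ∧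
    D.Mat F (q F) (x F) (y F) ∧ D.a (s F) ≤ x F ∧ y F ≤ D.b (s F) ∧
    U.u F ≤ 3 * (y F - x F) ∧ ilen (x F) (y F) (U.x F) (U.y F) < D.w F) →
  8 * ∑ F ∈ A, U.u F + 30 * U.cov.card ≤
    30 * D.n + ∑ F ∈ D.sm, U.u F + 60 * ∑ F ∈ D.sm, (U.u F - D.o F)

/-- Lemma E. -/
def LemmaE : Prop := ∀ (ι σ : Type) [Fintype ι] [Fintype σ] [DecidableEq ι] (D : Dat ι σ), D.Ok →
  0 < D.n →
  10 ^ 6 * ∑ F ∈ D.sm, D.w F ≤ D.n →
  10 ^ 6 * D.n ≤ 10 ^ 6 * ∑ F ∈ D.sm, D.o F + D.n →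
  10 ^ 6 * D.n ≤ 10 ^ 6 * ∑ c ∈ D.smᶜ, D.w c + D.n →
  10 ^ 6 * ∑ c ∈ D.smᶜ, (D.o c - D.w c) ≤ D.n →
  10 ^ 6 * ∑ c ∈ D.smᶜ, (D.w c - D.o c) ≤ D.n → False

end Vale.Agent.P333.E
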