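import Vale.Agent.P333.Bdl.B1
import Vale.Agent.P333.E.Defs

/-!
P333, ratio below `7/3`: a minimum cycle cover `L` of a family `S` in which no string contains another
one, and a superstring `T` of `S`, give data `D : Dat` with `D.Ok`.
-/

set_option autoImplicit false
set_option linter.all false

namespace Vale.Agent.P333.E

open Vale.Agent.P333 Vale.Agent.P333.U

/-- Indices of the strings of a cover. -/
abbrev SI (L : List (List (List ℕ))) : Type := (i : Fin L.length) × Fin (L.get i).length

/-- The string with a given index. -/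
def strOf (L : List (List (List ℕ))) (s : SI L) : List ℕ := (L.get s.1).get s.2

theorem strOf_mem (L : List (List (List ℕ))) (s : SI L) : strOf L s ∈ L.get s.1 :=
  List.get_mem _ _

theorem exists_strOf {L : List (List (List ℕ))} {c : Fin L.length} {s : List ℕ}
    (h : s ∈ L.get c) : ∃ i : SI L, i.1 = c ∧ strOf L i = s := by
  obtain ⟨j, hj⟩ := List.get_of_mem h
  exact ⟨⟨c, j⟩, rfl, hj⟩

theorem strOf_noinf {S : List (List ℕ)} {L : List (List (List ℕ))} (hS : Sfree S)
    (hL : MinCover S L) {s t : SI L} (h : s ≠ t) : ¬ strOf L s <:+: strOf L t := by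
  have hpw : L.flatten.Pairwise (fun s t => ¬ s <:+: t ∧ ¬ t <:+: s) :=
    (hL.perm.pairwise_iff (fun {a b} hab => ⟨hab.2, hab.1⟩)).2 hS.2
  rw [List.pairwise_flatten] at hpw
  obtain ⟨i, x⟩ := s
  obtain ⟨j, y⟩ := t
  rcases lt_trichotomy i j with hij | hij | hij
  · have := List.pairwise_iff_get.1 hpw.2 i j hij
    exact (this _ (List.get_mem _ x) _ (List.get_mem _ y)).1
  · subst hij
    have hxy : x ≠ y := fun hh => h (by rw [hh])
    have h1 := List.pairwise_iff_get.1 (hpw.1 _ (List.get_mem L i))
    rcases lt_or_gt_of_ne hxy with hlt | hlt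
    · exact (h1 x y hlt).1
    · exact (h1 y x hlt).2
  · have := List.pairwise_iff_get.1 hpw.2 j i hij
    exact (this _ (List.get_mem _ y) _ (List.get_mem _ x)).2

/-- Letters of the text. -/
def tx (T : List ℕ) (i : ℕ) : ℕ := T.getD i 0

theorem exists_occ {T s : List ℕ} (h : s <:+: T) :
    ∃ a, a + s.length ≤ T.length ∧ OccAt (tx T) s a := by
  obtain ⟨u, v, huv⟩ := h
  refine ⟨u.length, ?_, fun i hi => ?_⟩
  · rw [← huv]; simp only [List.length_append]; omega
  · show s[i] = T.getD (u.length + i) 0
    conv_rhs => rw [← huv]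
    rw [List.append_assoc, List.getD_append_right _ _ _ _ (by omega), Nat.add_sub_cancel_left,
      List.getD_append _ _ _ _ hi, List.getD_eq_getElem _ _ hi]

/-- An occurrence inside of another one. -/
theorem infix_of_occ {Z : ℕ → ℕ} {s t : List ℕ} {a b : ℕ} (hs : OccAt Z s a) (ht : OccAt Z t b)
    (h1 : a ≤ b) (h2 : b + t.length ≤ a + s.length) : t <:+: s := by
  have hpre : t = (s.drop (b - a)).take t.length := by
    apply List.ext_getElem
    · simp only [List.length_take, List.length_drop, left_eq_inf]; omega
    · intro i h3 h4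
      rw [List.getElem_take, List.getElem_drop, ht i h3, hs (b - a + i) (by omega)]
      congr 1
      omega
  rw [hpre]
  exact ((List.take_prefix _ _).isInfix).trans (List.drop_suffix _ _).isInfix

/-- The data of a cover and a text. -/
def datOf (L : List (List (List ℕ))) (T : List ℕ) (a : SI L → ℕ) : Dat (Fin L.length) (SI L) where
  n := T.length
  T := tx T
  cl := Sigma.fst
  a := a
  b := fun s => a s + (strOf L s).length
  X := fun c => cycWord (L.get c)
  w := fun c => cycW (L.get c)
  o := fun c => cycO (L.get c)

theorem cycO_lt_length {c : List (List ℕ)} (hne : ∀ s ∈ c, s ≠ [])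
    (hop : List.IsChain (fun s t => cycO c ≤ ov s t) c) {s : List ℕ} (hs : s ∈ c) :
    cycO c < s.length := by
  have key : ∀ (o : ℕ) (c : List (List ℕ)), (∀ s ∈ c, s ≠ []) →
      List.IsChain (fun s t => o ≤ ov s t) c → o < (c.getLastD []).length →
      ∀ s ∈ c, o < s.length := by
    intro o c
    induction c with
    | nil => intro _ _ _ s hs; simp at hs
    | cons x r ih =>
      intro hne hch hl s hs
      cases r with
      | nil =>
        rw [List.mem_singleton] at hs
        subst hs
        simpa using hl
      | cons y r =>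
        have hch' := List.isChain_cons_cons.1 hch
        rcases List.mem_cons.1 hs with rfl | hs
        · exact lt_of_le_of_lt hch'.1 (ov_lt_left _ (hne _ (by simp)))
        · exact ih (fun s hs => hne s (List.mem_cons_of_mem _ hs)) hch'.2 (by simpa using hl) s hs
  have hc : c ≠ [] := by rintro rfl; simp at hs
  have hlm : c.getLastD [] ∈ c := by
    rw [List.getLastD_eq_getLast?, List.getLast?_eq_some_getLast hc]
    exact List.getLast_mem hc
  exact key _ c hne hop (ov_lt_left _ (hne _ hlm)) s hs

section

variable {S : List (List ℕ)} {L : List (List (List ℕ))} {T : List ℕ}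

theorem strOf_ne (hS : Sfree S) (hL : MinCover S L) (c : Fin L.length) :
    ∀ s ∈ L.get c, s ≠ [] := fun s hs =>
  hS.1 s (hL.perm.mem_iff.1 (List.mem_flatten.2 ⟨_, List.get_mem _ _, hs⟩))

theorem cycW_pos' (hS : Sfree S) (hL : MinCover S L) (c : Fin L.length) : 0 < cycW (L.get c) :=
  cycW_pos (hL.ne _ (List.get_mem _ _)) (strOf_ne hS hL c)

theorem lper (hS : Sfree S) (hL : MinCover S L) (c : Fin L.length) :
    LPer (cycWord (L.get c)) (cycW (L.get c)) where
  pos := cycW_pos' hS hL c
  per := fun k => cycWord_add _ _
  min := by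
    intro q hq hqw hper
    have hperm : L.Perm ([L.get c] ++ L.erase (L.get c)) :=
      List.perm_cons_erase (List.get_mem _ _)
    have := placeLemma S L _ _ hS hL hperm (cycWord (L.get c)) q hq hper (by
      intro c' hc' s hs
      rw [List.mem_singleton] at hc'
      subst hc'
      exact occurs (cycW_pos' hS hL c) hs)
    simp only [List.map_cons, List.map_nil, List.sum_cons, List.sum_nil, add_zero] at this
    omega

theorem subperm_map_get {α : Type*} (L : List α) {l : List (Fin L.length)} (h : l.Nodup) :
    List.Subperm (l.map L.get) L := by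
  have h1 : List.Subperm l (List.finRange L.length) :=
    h.subperm fun x _ => List.mem_finRange x
  obtain ⟨l', hl1, hl2⟩ := h1
  exact ⟨l'.map L.get, hl1.map L.get, by simpa using hl2.map L.get⟩

theorem exists_rest {α : Type*} (L : List α) {l : List (Fin L.length)} (h : l.Nodup) :
    ∃ R, L.Perm (l.map L.get ++ R) := by
  obtain ⟨l', hl1, hl2⟩ := subperm_map_get L h
  obtain ⟨r, hr⟩ := hl2.exists_perm_append
  exact ⟨r, hr.trans (hl1.append_right r)⟩

theorem dist_cyc (hS : Sfree S) (hL : MinCover S L) {c c' : Fin L.length} (hcc : c ≠ c') :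
    ¬ ∃ r, ∀ k, cycWord (L.get c) k = cycWord (L.get c') (k + r) := by
  rintro ⟨s, hs⟩
  obtain ⟨R, hR'⟩ := exists_rest L (l := [c, c']) (by simpa using hcc)
  have := placeLemma S L _ _ hS hL hR' (cycWord (L.get c')) (cycW (L.get c'))
    (cycW_pos' hS hL _) (cycWord_add _) (by
    intro d hd t ht
    simp only [List.map_cons, List.map_nil, List.mem_cons, List.not_mem_nil, or_false] at hd
    rcases hd with rfl | rfl
    · obtain ⟨a, ha⟩ := occurs (cycW_pos' hS hL _) ht
      refine ⟨a + s, fun i hi => ?_⟩
      rw [ha i hi, hs, Nat.add_right_comm]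
    · exact occurs (cycW_pos' hS hL _) ht)
  have hp := cycW_pos' hS hL c
  simp only [List.map_cons, List.map_nil, List.sum_cons, List.sum_nil, add_zero] at this
  omega

/-- A valid overlap is at most the longest one. -/
theorem le_ov_of_occ {Z : ℕ → ℕ} {s t : List ℕ} {a b k : ℕ} (hs : OccAt Z s a) (ht : OccAt Z t b)
    (h1 : k < s.length) (h2 : k < t.length)
    (h : ∀ j < k, Z (a + s.length - k + j) = Z (b + j)) : k ≤ ov s t := by
  refine place_le_ov ?_ h1 h2
  apply List.ext_getElem
  · simp only [List.length_drop, List.length_take]; omega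
  · intro i h3 h4
    simp only [List.length_drop] at h3
    rw [List.getElem_drop, List.getElem_take, hs _ (by omega), ht i (by omega), ← h i (by omega)]
    congr 1
    omega

/-- The sum of the gaps of a sorted list of strings, with a finite set `P` of pairs of consecutive
strings, for which an overlap is given. -/
theorem lin_cov1 {σ : Type} [DecidableEq σ] {Z : ℕ → ℕ} {a : σ → ℕ} {str : σ → List ℕ}
    (hocc : ∀ t, OccAt Z (str t) (a t)) (hni : ∀ s t, s ≠ t → ¬ str s <:+: str t)
    (k : σ × σ → ℕ) : ∀ (F : List σ) (s : σ) (P : Finset (σ × σ)),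
      (s :: F).Pairwise (fun s t => a s < a t) →
      (∀ p ∈ P, p.1 ∈ s :: F ∧ p.2 ∈ s :: F ∧ a p.1 < a p.2 ∧
        (∀ r ∈ s :: F, a r ≤ a p.1 ∨ a p.2 ≤ a r) ∧ k p ≤ ov (str p.1) (str p.2)) →
      (linW ((s :: F).map str) : ℤ) + a s +
        ∑ p ∈ P, ((a p.2 : ℤ) + k p - (a p.1 + (str p.1).length)) ≤ a ((s :: F).getLastD s) := by
  intro F
  induction F with
  | nil =>
    intro s P _ hP
    have : P = ∅ := by
      rw [Finset.eq_empty_iff_forall_notMem]
      intro p hp
      obtain ⟨h1, h2, h3, -⟩ := hP p hp
      rw [List.mem_singleton] at h1 h2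
      rw [h1, h2] at h3
      exact lt_irrefl _ h3
    subst this
    simp [linW]
  | cons t F ih =>
    intro s P hpw hP
    have hst : a s < a t := (List.pairwise_cons.1 hpw).1 t (by simp)
    have hne : s ≠ t := by rintro rfl; exact lt_irrefl _ hst
    have hpw' := (List.pairwise_cons.1 hpw).2
    have hmem : ∀ p ∈ P, p.1 = s → p = (s, t) := by
      intro p hp h
      obtain ⟨h1, h2, h3, h4, -⟩ := hP p hp
      have h5 := h4 t (by simp)
      rcases List.mem_cons.1 h2 with h6 | h6
      · rw [h, h6] at h3; exact absurd h3 (lt_irrefl _)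
      · rcases List.mem_cons.1 h6 with h7 | h7
        · ext <;> simp [h, h7]
        · have := (List.pairwise_cons.1 hpw').1 _ h7
          rw [h] at h5
          omega
    have hgap := (hocc s).gap_le (hocc t) hst (Or.inr (hni t s (Ne.symm hne)))
    have hovl := ov_le_left (str s) (str t)
    have hih := ih t (P.filter fun p => p.1 ≠ s) hpw' (by
      intro p hp
      rw [Finset.mem_filter] at hp
      obtain ⟨h1, h2, h3, h4, h5⟩ := hP p hp.1
      refine ⟨?_, ?_, h3, fun r hr => h4 r (List.mem_cons_of_mem _ hr), h5⟩
      · rcases List.mem_cons.1 h1 with h | h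
        · exact absurd h hp.2
        · exact h
      · rcases List.mem_cons.1 h2 with h | h
        · exfalso
          rcases List.mem_cons.1 h1 with h' | h'
          · exact hp.2 h'
          · have := (List.pairwise_cons.1 hpw).1 _ h'
            rw [h] at h3
            omega
        · exact h)
    have hlast : (s :: t :: F).getLastD s = (t :: F).getLastD t := by
      simp only [List.getLastD_cons]
    have hlin : linW ((s :: t :: F).map str) = ((str s).length - ov (str s) (str t)) +
        linW ((t :: F).map str) := rfl
    rw [hlast, hlin]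
    have hsum : ∑ p ∈ P, ((a p.2 : ℤ) + k p - (a p.1 + (str p.1).length)) =
        ∑ p ∈ P.filter (fun p => p.1 ≠ s), ((a p.2 : ℤ) + k p - (a p.1 + (str p.1).length)) +
        ∑ p ∈ P.filter (fun p => ¬ p.1 ≠ s), ((a p.2 : ℤ) + k p - (a p.1 + (str p.1).length)) :=
      (Finset.sum_filter_add_sum_filter_not _ _ _).symm
    have hle : (((str s).length - ov (str s) (str t) : ℕ) : ℤ) +
        ∑ p ∈ P.filter (fun p => ¬ p.1 ≠ s), ((a p.2 : ℤ) + k p - (a p.1 + (str p.1).length)) ≤
        (a t : ℤ) - a s := by
      by_cases hp : (s, t) ∈ P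
      · have : P.filter (fun p => ¬ p.1 ≠ s) = {(s, t)} := by
          ext p
          simp only [ne_eq, not_not, Finset.mem_filter, Finset.mem_singleton]
          constructor
          · rintro ⟨h1, h2⟩; exact hmem p h1 h2
          · rintro rfl; exact ⟨hp, rfl⟩
        rw [this, Finset.sum_singleton]
        have h5 := (hP _ hp).2.2.2.2
        beta_reduce at h5
        simp only at h5 ⊢
        omega
      · have : P.filter (fun p => ¬ p.1 ≠ s) = ∅ := by
          rw [Finset.eq_empty_iff_forall_notMem]
          intro p h
          rw [Finset.mem_filter] at h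
          have h2 := hmem p h.1 (by simpa using h.2)
          rw [h2] at h
          exact hp h.1
        rw [this, Finset.sum_empty]
        omega
    push_cast at hih hle ⊢
    rw [hsum]
    linarith

/-- The positions covered by a sorted list of strings. -/
theorem lin_cov2 {σ : Type} [DecidableEq σ] {Z : ℕ → ℕ} {a : σ → ℕ} {str : σ → List ℕ}
    (hocc : ∀ t, OccAt Z (str t) (a t)) (hni : ∀ s t, s ≠ t → ¬ str s <:+: str t) :
    ∀ (F : List σ) (s : σ), (s :: F).Pairwise (fun s t => a s < a t) →
      linW ((s :: F).map str) + (((s :: F).map str).getLastD []).length ≤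
        ((s :: F).toFinset.biUnion fun t => Finset.Ico (a t) (a t + (str t).length)).card := by
  intro F
  induction F with
  | nil =>
    intro s _
    simp [linW]
  | cons t F ih =>
    intro s hpw
    have hst : a s < a t := (List.pairwise_cons.1 hpw).1 t (by simp)
    have hne : s ≠ t := by rintro rfl; exact lt_irrefl _ hst
    have hpw' := (List.pairwise_cons.1 hpw).2
    have hgap := (hocc s).gap_le (hocc t) hst (Or.inr (hni t s (Ne.symm hne)))
    have hih := ih t hpw'
    have hlast : ((s :: t :: F).map str).getLastD [] = ((t :: F).map str).getLastD [] := by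
      simp
    have hlin : linW ((s :: t :: F).map str) = ((str s).length - ov (str s) (str t)) +
        linW ((t :: F).map str) := rfl
    rw [hlast, hlin]
    have hd : Disjoint (Finset.Ico (a s) (min (a s + (str s).length) (a t)))
        ((t :: F).toFinset.biUnion fun t => Finset.Ico (a t) (a t + (str t).length)) := by
      rw [Finset.disjoint_left]
      intro x hx hx'
      rw [Finset.mem_biUnion] at hx'
      obtain ⟨r, hr, hxr⟩ := hx'
      rw [Finset.mem_Ico] at hx hxr
      have : a t ≤ a r := by
        rw [List.mem_toFinset] at hr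
        rcases List.mem_cons.1 hr with rfl | hr
        · exact le_rfl
        · exact ((List.pairwise_cons.1 hpw').1 _ hr).le
      omega
    have hsub : Finset.Ico (a s) (min (a s + (str s).length) (a t)) ∪
        ((t :: F).toFinset.biUnion fun t => Finset.Ico (a t) (a t + (str t).length)) ⊆
        ((s :: t :: F).toFinset.biUnion fun t => Finset.Ico (a t) (a t + (str t).length)) := by
      intro x hx
      rw [Finset.mem_union] at hx
      rw [Finset.mem_biUnion]
      rcases hx with hx | hx
      · refine ⟨s, by simp, ?_⟩
        rw [Finset.mem_Ico] at hx ⊢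
        omega
      · rw [Finset.mem_biUnion] at hx
        obtain ⟨r, hr, hxr⟩ := hx
        refine ⟨r, ?_, hxr⟩
        rw [List.mem_toFinset] at hr ⊢
        exact List.mem_cons_of_mem _ hr
    have hcard := Finset.card_le_card hsub
    rw [Finset.card_union_of_disjoint hd, Nat.card_Ico] at hcard
    omega

/-- Sorted list of the strings of some classes. -/
theorem exists_sorted (hS : Sfree S) (hL : MinCover S L) {a : SI L → ℕ}
    (hocc : ∀ s, OccAt (tx T) (strOf L s) (a s)) (H : Finset (Fin L.length)) :
    ∃ l : List (SI L), (∀ s, s ∈ l ↔ s.1 ∈ H) ∧ l.Pairwise (fun s t => a s < a t) ∧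
      (l.map (strOf L)).Perm (H.toList.map L.get).flatten := by
  classical
  set l0 : List (SI L) := H.toList.sigma fun c => List.finRange (L.get c).length with hl0
  set l := l0.mergeSort (fun s t => decide (a s ≤ a t)) with hl
  have hp : l.Perm l0 := List.mergeSort_perm _ _
  have hnd0 : l0.Nodup := List.Nodup.sigma H.nodup_toList fun c => List.nodup_finRange _
  have hm : ∀ s, s ∈ l ↔ s.1 ∈ H := by
    intro s
    rw [hp.mem_iff, hl0, List.mem_sigma]
    simp
  have hsort : l.Pairwise (fun s t => a s ≤ a t) := by
    have := List.pairwise_mergeSort (le := fun s t : SI L => decide (a s ≤ a t))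
      (by intro a b c; simp only [decide_eq_true_eq]; omega) (by intro a b; simp; omega) l0
    simpa using this
  have hnd : l.Nodup := hp.nodup_iff.2 hnd0
  refine ⟨l, hm, ?_, ?_⟩
  · refine List.Pairwise.imp_of_mem ?_ (hsort.and hnd)
    intro s t _ _ hst
    rcases Nat.lt_or_ge (a s) (a t) with h | h
    · exact h
    · exfalso
      have he : a s = a t := le_antisymm hst.1 h
      have hs := hocc s
      have ht := hocc t
      rw [he] at hs
      rcases Nat.le_total (strOf L s).length (strOf L t).length with h2 | h2
      · exact strOf_noinf hS hL hst.2 (hs.prefix_of_le ht h2).isInfix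
      · exact strOf_noinf hS hL (Ne.symm hst.2) (ht.prefix_of_le hs h2).isInfix
  · refine (hp.map _).trans (List.Perm.of_eq ?_)
    rw [hl0, List.sigma, List.map_flatMap, List.flatMap_def]
    congr 1
    apply List.map_congr_left
    intro c _
    rw [List.map_map]
    apply List.ext_getElem
    · simp
    · intro i h1 h2
      simp [strOf]

/-- Minimality of the cover: a cyclic order of the strings of `H`. -/
theorem sum_le_cycW (hL : MinCover S L) (H : Finset (Fin L.length)) {F : List (List ℕ)}
    (hF : F.Perm (H.toList.map L.get).flatten) (hne : F ≠ []) :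
    ∑ c ∈ H, cycW (L.get c) ≤ cycW F := by
  obtain ⟨R, hR⟩ := exists_rest L H.nodup_toList
  have hmin := hL.min (F :: R) (by
    rw [List.flatten_cons]
    refine (List.Perm.append_right _ hF).trans ?_
    rw [← List.flatten_append]
    exact (hR.symm.flatten).trans hL.perm) (by
    intro c hc
    rcases List.mem_cons.1 hc with rfl | hc
    · exact hne
    · exact hL.ne c (hR.symm.mem_iff.1 (by simp [hc])))
  have hsum : (L.map cycW).sum = ∑ c ∈ H, cycW (L.get c) + (R.map cycW).sum := by
    rw [(hR.map cycW).sum_eq, List.map_append, List.sum_append, List.map_map,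
      Finset.sum_map_toList]
    rfl
  rw [hsum, List.map_cons, List.sum_cons] at hmin
  omega

theorem cycW_le_linW (c : List (List ℕ)) : cycW c ≤ linW c + (c.getLastD []).length := by
  unfold cycW
  omega

/-- The data of a minimum cycle cover and a superstring are in order. -/
theorem datOf_ok (hS : Sfree S) (hL : MinCover S L) {a : SI L → ℕ}
    (hT : ∀ s, a s + (strOf L s).length ≤ T.length ∧ OccAt (tx T) (strOf L s) (a s)) :
    (datOf L T a).Ok := by
  have hocc : ∀ s, OccAt (tx T) (strOf L s) (a s) := fun s => (hT s).2
  have hlen1 : ∀ s : SI L, cycO (L.get s.1) < (strOf L s).length := fun s =>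
    cycO_lt_length (strOf_ne hS hL s.1) (hL.opn _ (List.get_mem _ _)) (strOf_mem L s)
  have hwin : ∀ (c : Fin L.length) (k : ℕ), ∃ i : SI L, i.1 = c ∧
      (List.range (cycO (L.get c) + 1)).map (fun j => cycWord (L.get c) (k + j)) <:+:
        strOf L i := by
    intro c k
    obtain ⟨s, hs, hin⟩ := window_cycWord (hL.ne _ (List.get_mem L c)) (cycW_pos' hS hL c)
      (hL.opn _ (List.get_mem L c)) k
    obtain ⟨i, hi, rfl⟩ := exists_strOf hs
    exact ⟨i, hi, hin⟩
  have hnn : ∀ s t : SI L, s ≠ t → a s ≤ a t →
      a s < a t ∧ a s + (strOf L s).length < a t + (strOf L t).length := by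
    intro s t hst h
    have h2 : a s + (strOf L s).length < a t + (strOf L t).length := by
      by_contra hcon
      exact strOf_noinf hS hL (Ne.symm hst) (infix_of_occ (hocc s) (hocc t) h (by omega))
    refine ⟨?_, h2⟩
    by_contra hcon
    exact strOf_noinf hS hL hst (infix_of_occ (hocc t) (hocc s) (by omega) (by omega))
  refine ⟨lper hS hL, fun s => (hT s).1, ?_, ?_, ?_, ?_, ?_, ?_, ?_, ?_, ?_⟩
  · -- occ
    intro s
    obtain ⟨p, hp⟩ := occurs (cycW_pos' hS hL s.1) (strOf_mem L s)
    have hw := cycW_pos' hS hL s.1
    have hmul : a s ≤ a s * cycW (L.get s.1) := Nat.le_mul_of_pos_right _ hw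
    refine ⟨p + (a s * cycW (L.get s.1) - a s), ?_, (hT s).1, ?_⟩
    · show a s ≤ a s + (strOf L s).length
      omega
    · intro i h1 h2
      replace h1 : a s ≤ i := h1
      replace h2 : i < a s + (strOf L s).length := h2
      obtain ⟨j, rfl⟩ : ∃ j, i = a s + j := ⟨i - a s, by omega⟩
      show tx T (a s + j) = cycWord (L.get s.1) (p + (a s * cycW (L.get s.1) - a s) + (a s + j))
      have e : p + (a s * cycW (L.get s.1) - a s) + (a s + j) =
          p + j + a s * cycW (L.get s.1) := by omega
      rw [e, cycWord_add_mul, ← hocc s j (by omega)]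
      exact hp j (by have : j < (strOf L s).length := by omega
                     exact this)
  · -- len1
    intro s
    show a s + cycO (L.get s.1) < a s + (strOf L s).length
    have := hlen1 s
    omega
  · -- len2
    intro s
    show a s + (strOf L s).length ≤ a s + (cycW (L.get s.1) + cycO (L.get s.1))
    have h1 := (infix_mergeL (strOf_mem L s)).length_le
    rw [length_mergeL'] at h1
    omega
  · -- nn
    intro s t hst h
    exact hnn s t hst h
  · -- dist
    intro c d hcd
    exact dist_cyc hS hL hcd
  · -- noinf
    intro t F q htF hm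
    show a t + (cycO (L.get F) + 1) < a t + (strOf L t).length
    by_contra hcon
    obtain ⟨i, hi, hin⟩ := hwin F (q + a t)
    have hti : t ≠ i := by
      rintro rfl
      exact htF hi
    refine strOf_noinf hS hL hti (List.IsInfix.trans ?_ hin)
    have : strOf L t = ((List.range (cycO (L.get F) + 1)).map
        (fun j => cycWord (L.get F) (q + a t + j))).take (strOf L t).length := by
      apply List.ext_getElem
      · simp only [List.length_take, List.length_map, List.length_range]; omega
      · intro j h1 h2
        rw [List.getElem_take, List.getElem_map, List.getElem_range, hocc t j h1]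
        have h3 : tx T (a t + j) = cycWord (L.get F) (q + (a t + j)) :=
          hm.2.2 (a t + j) (Nat.le_add_right _ _) (by
            show a t + j < a t + (strOf L t).length
            omega)
        rw [h3, Nat.add_assoc]
    rw [this]
    exact (List.take_prefix _ _).isInfix
  · -- win
    intro c k
    obtain ⟨i, hi, u, v, huv⟩ := hwin c k
    have hl := congrArg List.length huv
    simp only [List.length_append, List.length_map, List.length_range] at hl
    refine ⟨i, u.length, hi, ?_, ?_⟩
    · show a i + u.length + (cycO (L.get c) + 1) ≤ a i + (strOf L i).length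
      omega
    · intro j hj
      replace hj : j ≤ cycO (L.get c) := hj
      show tx T (a i + u.length + j) = cycWord (L.get c) (k + j)
      have h1 := hocc i (u.length + j) (by omega)
      rw [Nat.add_assoc, ← h1]
      rw [← List.getD_eq_getElem _ 0, ← huv, List.append_assoc,
        List.getD_append_right _ _ _ _ (by omega), Nat.add_sub_cancel_left,
        List.getD_append _ _ _ _ (by simp only [List.length_map, List.length_range]; omega),
        List.getD_eq_getElem _ _ (by simp only [List.length_map, List.length_range]; omega),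
        List.getElem_map, List.getElem_range]
  · -- cov1
    intro H P k hP
    obtain ⟨l, hm, hpw, hperm⟩ := exists_sorted hS hL hocc H
    show (∑ c ∈ H, (cycW (L.get c) : ℤ)) + ∑ p ∈ P, ((a p.2 : ℤ) + k p -
      ((a p.1 + (strOf L p.1).length : ℕ) : ℤ)) ≤ (T.length : ℤ)
    rcases H.eq_empty_or_nonempty with rfl | ⟨c0, hc0⟩
    · have : P = ∅ := by
        rw [Finset.eq_empty_iff_forall_notMem]
        intro p hp
        exact absurd (hP p hp).1.1 (Finset.notMem_empty _)
      simp [this]
    have hne : l ≠ [] := by
      obtain ⟨s, hs⟩ := List.exists_mem_of_ne_nil _ (hL.ne _ (List.get_mem L c0))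
      obtain ⟨i, hi, -⟩ := exists_strOf hs
      have : i ∈ l := (hm i).2 (by rw [hi]; exact hc0)
      exact List.ne_nil_of_mem this
    obtain ⟨s, F, rfl⟩ := List.exists_cons_of_ne_nil hne
    have h1 := sum_le_cycW hL H hperm (by simp)
    have h2 := cycW_le_linW ((s :: F).map (strOf L))
    have h3 := lin_cov1 hocc (fun s t h => strOf_noinf hS hL h) k F s P hpw (by
      intro p hp
      obtain ⟨⟨c1, c2, c3, c4⟩, o1, o2, o3⟩ := hP p hp
      replace o1 : a p.1 + k p < a p.1 + (strOf L p.1).length := o1
      replace o2 : a p.2 + k p < a p.2 + (strOf L p.2).length := o2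
      refine ⟨(hm _).2 c1, (hm _).2 c2, c3, fun r hr => c4 r ((hm _).1 hr), ?_⟩
      exact le_ov_of_occ (hocc p.1) (hocc p.2) (by omega) (by omega) o3)
    have h4 : (((s :: F).map (strOf L)).getLastD []).length =
        (strOf L ((s :: F).getLastD s)).length := by
      rw [List.getLastD_eq_getLast?, List.getLastD_eq_getLast?, List.getLast?_map,
        List.getLast?_eq_some_getLast (by simp)]
      rfl
    have h5 := (hT ((s :: F).getLastD s)).1
    have h6 : ∑ p ∈ P, ((a p.2 : ℤ) + k p - ((a p.1 + (strOf L p.1).length : ℕ) : ℤ)) =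
        ∑ p ∈ P, ((a p.2 : ℤ) + k p - (a p.1 + (strOf L p.1).length)) := by
      refine Finset.sum_congr rfl fun p _ => ?_
      push_cast
      rfl
    rw [h6]
    have h1' : (∑ c ∈ H, (cycW (L.get c) : ℤ)) ≤ cycW ((s :: F).map (strOf L)) := by
      exact_mod_cast h1
    omega
  · -- cov2
    intro H
    obtain ⟨l, hm, hpw, hperm⟩ := exists_sorted hS hL hocc H
    show ∑ c ∈ H, cycW (L.get c) ≤ ((Finset.univ.filter fun s : SI L => s.1 ∈ H).biUnion
      fun s => Finset.Ico (a s) (a s + (strOf L s).length)).card
    rcases H.eq_empty_or_nonempty with rfl | ⟨c0, hc0⟩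
    · simp
    have hne : l ≠ [] := by
      obtain ⟨s, hs⟩ := List.exists_mem_of_ne_nil _ (hL.ne _ (List.get_mem L c0))
      obtain ⟨i, hi, -⟩ := exists_strOf hs
      have : i ∈ l := (hm i).2 (by rw [hi]; exact hc0)
      exact List.ne_nil_of_mem this
    obtain ⟨s, F, rfl⟩ := List.exists_cons_of_ne_nil hne
    have h1 := sum_le_cycW hL H hperm (by simp)
    have h2 := cycW_le_linW ((s :: F).map (strOf L))
    have h3 := lin_cov2 hocc (fun s t h => strOf_noinf hS hL h) F s hpw
    have h4 : (s :: F).toFinset = Finset.univ.filter fun s : SI L => s.1 ∈ H := by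
      ext r
      rw [List.mem_toFinset, hm]
      simp
    rw [h4] at h3
    omega

end

/-- The bridge: a minimum cycle cover of a family in which no string contains another one, and a
superstring of the family, give data for Lemma E. -/
theorem exists_dat {S : List (List ℕ)} {L : List (List (List ℕ))} {T : List ℕ} (hS : Sfree S)
    (hL : MinCover S L) (hT : IsSuperstring S T) :
    ∃ D : Dat (Fin L.length) (SI L), D.Ok ∧ D.n = T.length ∧ (∀ c, D.w c = cycW (L.get c)) ∧
      ∀ c, D.o c = cycO (L.get c) := by
  have h : ∀ s : SI L, ∃ a, a + (strOf L s).length ≤ T.length ∧ OccAt (tx T) (strOf L s) a := by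
    intro s
    exact exists_occ (hT _ (hL.perm.mem_iff.1
      (List.mem_flatten.2 ⟨_, List.get_mem L s.1, strOf_mem L s⟩)))
  choose a ha using h
  exact ⟨datOf L T a, datOf_ok hS hL ha, rfl, fun _ => rfl, fun _ => rfl⟩

/-- Sums over the classes. -/
theorem sum_get_eq (L : List (List (List ℕ))) (f : List (List ℕ) → ℕ) :
    ∑ c : Fin L.length, f (L.get c) = (L.map f).sum := by
  rw [← List.sum_ofFn]
  congr 1
  apply List.ext_getElem <;> simp

end Vale.Agent.P333.E
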