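import Mathlib
import Vale.Agent.P333.E.Defs

/-!
P333, Lemma E, block E2: chains of non-nested intervals with small intersections.
-/

set_option autoImplicit false

namespace Vale.Agent.P333.E

open Finset

/-- Non-nested intervals with small intersections, intersected with a set `D`; version with the weight
of the last interval saved. -/
theorem chain_inter_aux {ι : Type*} [DecidableEq ι] (a b w : ι → ℕ) (D : Finset ℕ) :
    ∀ (S : Finset ι),
      (∀ i ∈ S, ∀ j ∈ S, i ≠ j → a i ≤ a j → b i ≤ b j ∧ b i ≤ a j + (w i + w j)) →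
      ∀ j ∈ S, (∀ i ∈ S, a i ≤ a j) →
      ∑ i ∈ S, (Ico (a i) (b i) ∩ D).card + w j ≤
        ((S.biUnion fun i => Ico (a i) (b i)) ∩ D).card + 2 * ∑ i ∈ S, w i := by
  intro S
  induction S using Finset.strongInduction with
  | H S ih =>
    intro hov j hj hmax
    have hSe : S = insert j (S.erase j) := (Finset.insert_erase hj).symm
    have hnot : j ∉ S.erase j := Finset.notMem_erase j S
    rw [hSe, Finset.sum_insert hnot, Finset.sum_insert hnot, Finset.biUnion_insert]
    rcases (S.erase j).eq_empty_or_nonempty with he | hne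
    · rw [he]
      simp only [Finset.sum_empty, Finset.biUnion_empty, Finset.union_empty]
      omega
    · obtain ⟨p, hp, hpm⟩ := Finset.exists_max_image (S.erase j) a hne
      have hpS : p ∈ S := Finset.mem_of_mem_erase hp
      have hpj : p ≠ j := Finset.ne_of_mem_erase hp
      have h1 := ih (S.erase j) (Finset.erase_ssubset hj)
        (fun i hi k hk => hov i (Finset.mem_of_mem_erase hi) k (Finset.mem_of_mem_erase hk))
        p hp hpm
      obtain ⟨hbpj, hovp⟩ := hov p hpS j hj hpj (hmax p hpS)
      have hsub : (Ico (max (a j) (b p)) (b j) ∩ D) ∪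
          (((S.erase j).biUnion fun i => Ico (a i) (b i)) ∩ D) ⊆
          (Ico (a j) (b j) ∪ ((S.erase j).biUnion fun i => Ico (a i) (b i))) ∩ D := by
        intro x hx
        rw [Finset.mem_union, Finset.mem_inter, Finset.mem_inter, Finset.mem_Ico] at hx
        rw [Finset.mem_inter, Finset.mem_union, Finset.mem_Ico]
        rcases hx with ⟨⟨h2, h3⟩, h4⟩ | ⟨h2, h3⟩
        · exact ⟨Or.inl ⟨le_trans (le_max_left _ _) h2, h3⟩, h4⟩
        · exact ⟨Or.inr h2, h3⟩
      have hdis : Disjoint (Ico (max (a j) (b p)) (b j) ∩ D)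
          (((S.erase j).biUnion fun i => Ico (a i) (b i)) ∩ D) := by
        rw [Finset.disjoint_left]
        intro x hx hx2
        rw [Finset.mem_inter, Finset.mem_biUnion] at hx2
        obtain ⟨⟨i, hi, hxi⟩, _⟩ := hx2
        rw [Finset.mem_inter, Finset.mem_Ico] at hx
        rw [Finset.mem_Ico] at hxi
        have hbi : b i ≤ b p := by
          by_cases hip : i = p
          · rw [hip]
          · exact (hov i (Finset.mem_of_mem_erase hi) p hpS hip (hpm i hi)).1
        have := le_trans (le_max_right (a j) (b p)) hx.1.1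
        omega
      have hcard := Finset.card_le_card hsub
      rw [Finset.card_union_of_disjoint hdis] at hcard
      have hsplit : (Ico (a j) (b j) ∩ D).card ≤
          (Ico (max (a j) (b p)) (b j) ∩ D).card + (Ico (a j) (max (a j) (b p))).card := by
        refine le_trans (Finset.card_le_card ?_) (Finset.card_union_le _ _)
        intro x hx
        rw [Finset.mem_inter, Finset.mem_Ico] at hx
        rw [Finset.mem_union, Finset.mem_inter, Finset.mem_Ico, Finset.mem_Ico]
        by_cases hxm : x < max (a j) (b p)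
        · exact Or.inr ⟨hx.1.1, hxm⟩
        · exact Or.inl ⟨⟨not_lt.mp hxm, hx.1.2⟩, hx.2⟩
      rw [Nat.card_Ico] at hsplit
      have hmx : max (a j) (b p) ≤ a j + (w p + w j) := by
        rw [max_le_iff]; constructor <;> omega
      omega

/-- General form of E2 (block (H) of note 12241): `∑ |I_i ∩ D| ≤ |⋃ I_i ∩ D| + 2 ∑ w`. -/
theorem chain_inter {ι : Type*} [DecidableEq ι] (a b w : ι → ℕ) (S : Finset ι) (D : Finset ℕ)
    (hov : ∀ i ∈ S, ∀ j ∈ S, i ≠ j → a i ≤ a j → b i ≤ b j ∧ b i ≤ a j + (w i + w j)) :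
    ∑ i ∈ S, (Ico (a i) (b i) ∩ D).card ≤
      ((S.biUnion fun i => Ico (a i) (b i)) ∩ D).card + 2 * ∑ i ∈ S, w i := by
  rcases S.eq_empty_or_nonempty with he | hne
  · subst he; simp
  · obtain ⟨j, hj, hm⟩ := Finset.exists_max_image S a hne
    have := chain_inter_aux a b w D S hov j hj hm
    omega

/-- The version without the set `D`. -/
theorem chain_sum {ι : Type*} [DecidableEq ι] (a b w : ι → ℕ) (S : Finset ι)
    (hov : ∀ i ∈ S, ∀ j ∈ S, i ≠ j → a i ≤ a j → b i ≤ b j ∧ b i ≤ a j + (w i + w j)) :
    ∑ i ∈ S, (b i - a i) ≤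
      (S.biUnion fun i => Ico (a i) (b i)).card + 2 * ∑ i ∈ S, w i := by
  have h := chain_inter a b w S (S.biUnion fun i => Ico (a i) (b i)) hov
  rw [Finset.inter_self] at h
  refine le_trans (le_of_eq ?_) h
  refine Finset.sum_congr rfl fun i hi => ?_
  rw [Finset.inter_eq_left.mpr (Finset.subset_biUnion_of_mem (fun i => Ico (a i) (b i)) hi),
    Nat.card_Ico]

/-- Block E2. -/
theorem blkChain : BlkChain := by
  intro ι _ A x y w h1 h2
  exact chain_sum x y w A fun i hi j hj hij hx =>
    ⟨(h2 i hi j hj hij hx).2.1.le, (h2 i hi j hj hij hx).2.2⟩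

end Vale.Agent.P333.E
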