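import Mathlib

/-!
# P333, `7/3 - η`, Lemma E, step (e): the cores are disjoint and in the zone `Z`
-/

set_option linter.all false

namespace Vale.Agent.P333.E

open Finset

/-- the hypotheses on the intervals `U F = [α F, β F)`, `P F = [p F, q F)`, `I F = [i F, j F)` -/
structure CoreHyp {ι : Type} (n : ℕ) (L G : Finset ι) (w o α β p q i j : ι → ℕ) : Prop where
  sub : G ⊆ L
  βn : ∀ F ∈ L, β F ≤ n
  wpos : ∀ F ∈ L, 0 < w F
  wo : ∀ F ∈ L, 10 ^ 7 * w F ≤ o F
  ou : ∀ F ∈ L, o F ≤ β F - α F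
  PI : ∀ F ∈ G, i F ≤ p F ∧ q F ≤ j F ∧ j F ≤ n
  Pu : ∀ F ∈ G, β F - α F ≤ 3 * (q F - p F)
  Iu : ∀ F ∈ G, j F - i F ≤ 300 * (β F - α F)
  PU : ∀ F ∈ G, min (q F) (β F) - max (p F) (α F) ≤ w F
  PU' : ∀ F ∈ G, ∀ F' ∈ L, F' ≠ F → min (q F) (β F') - max (p F) (α F') ≤ w F + w F'
  UI : ∀ F ∈ G, ∀ F' ∈ L, ¬ (i F ≤ α F' ∧ β F' ≤ j F)
  IU : ∀ F ∈ G, ∀ F' ∈ L, j F - i F ≤ o F' → ¬ (α F' ≤ i F ∧ j F ≤ β F')
  PP : ∀ F ∈ G, ∀ F' ∈ G, F ≠ F' → min (q F) (q F') - max (p F) (p F') ≤ w F + w F'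
  II : ∀ F ∈ G, ∀ F' ∈ G, i F' ≤ i F → j F ≤ j F' → i F = i F' ∧ j F = j F'

variable {ι : Type} {n : ℕ} {L G : Finset ι} {w o α β p q i j : ι → ℕ}

/-- the core of `P F` -/
def core (p q : ι → ℕ) (F : ι) : Finset ℕ :=
  Ico (p F + ((q F - p F) / 20 + 1)) (q F - ((q F - p F) / 20 + 1))

/-- the end zones of `U F` -/
def zone (α β : ι → ℕ) (F : ι) : Finset ℕ :=
  Ico (α F) (α F + (β F - α F) / 100) ∪ Ico (β F - (β F - α F) / 100) (β F)

/-- the positions outside all `U F` -/
def unc (n : ℕ) (L : Finset ι) (α β : ι → ℕ) : Finset ℕ :=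
  (range n).filter fun x => ∀ F ∈ L, ¬ (α F ≤ x ∧ x < β F)

theorem core_sub_aux (h : CoreHyp n L G w o α β p q i j) {F F' : ι} (hF : F ∈ G) (hF' : F' ∈ L)
    {x : ℕ} (hx : x ∈ core p q F) (h1 : α F' ≤ x) (h2 : x < β F') : x ∈ zone α β F' := by
  unfold core at hx
  rw [mem_Ico] at hx
  obtain ⟨hx1, hx2⟩ := hx
  obtain ⟨a1, a2, a3⟩ := h.PI F hF
  have a4 := h.Pu F hF
  have a5 := h.Iu F hF
  have a6 := h.UI F hF F' hF'
  have a7 := h.wo F (h.sub hF)
  have a8 := h.ou F (h.sub hF)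
  have a9 := h.wo F' hF'
  have a10 := h.ou F' hF'
  by_cases hc : F' = F ∨ 100 * w F' ≤ q F - p F
  · exfalso
    have hm : min (q F) (β F') - max (p F) (α F') ≤ (q F - p F) / 20 := by
      rcases hc with hc | hc
      · subst hc
        have := h.PU F' hF
        omega
      · by_cases hne : F' = F
        · subst hne
          have := h.PU F' hF
          omega
        · have := h.PU' F hF F' hF' hne
          omega
    by_cases h3 : α F' < i F
    · omega
    · have h4 : j F < β F' := by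
        by_contra h4
        exact a6 ⟨by omega, by omega⟩
      omega
  · push Not at hc
    obtain ⟨hne, hc⟩ := hc
    have h3 : j F - i F ≤ (β F' - α F') / 100 := by omega
    have h4 := h.IU F hF F' hF' (by omega)
    unfold zone
    rw [mem_union, mem_Ico, mem_Ico]
    by_cases h5 : i F < α F'
    · left; omega
    · right
      have h6 : β F' < j F := by
        by_contra h6
        exact h4 ⟨by omega, by omega⟩
      omega

theorem core_sub (h : CoreHyp n L G w o α β p q i j) {F : ι} (hF : F ∈ G) :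
    core p q F ⊆ unc n L α β ∪ L.biUnion (zone α β) := by
  intro x hx
  rw [mem_union]
  by_cases hu : x ∈ unc n L α β
  · exact Or.inl hu
  · right
    have hxn : x < n := by
      have := h.PI F hF
      unfold core at hx
      rw [mem_Ico] at hx
      omega
    unfold unc at hu
    rw [mem_filter, mem_range] at hu
    push Not at hu
    obtain ⟨F', hF', h1, h2⟩ := hu hxn
    rw [mem_biUnion]
    exact ⟨F', hF', core_sub_aux h hF hF' hx h1 h2⟩

theorem core_disj_aux (h : CoreHyp n L G w o α β p q i j) {F F' : ι} (hF : F ∈ G) (hF' : F' ∈ G)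
    (hne : F ≠ F') (hle : q F - p F ≤ q F' - p F') {x : ℕ} (hx : x ∈ core p q F)
    (hx' : x ∈ core p q F') : False := by
  unfold core at hx hx'
  rw [mem_Ico] at hx hx'
  obtain ⟨hx1, hx2⟩ := hx
  obtain ⟨hx3, hx4⟩ := hx'
  obtain ⟨a1, a2, a3⟩ := h.PI F hF
  obtain ⟨b1, b2, b3⟩ := h.PI F' hF'
  have a4 := h.Pu F hF
  have b4 := h.Pu F' hF'
  have a5 := h.Iu F hF
  have a7 := h.wo F (h.sub hF)
  have a8 := h.ou F (h.sub hF)
  have a9 := h.wo F' (h.sub hF')
  have a10 := h.ou F' (h.sub hF')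
  by_cases hc : 100 * w F' ≤ q F - p F
  · have hm := h.PP F hF F' hF' hne
    omega
  · by_cases h3 : i F < i F'
    · omega
    · by_cases h4 : j F' < j F
      · omega
      · have := h.II F hF F' hF' (by omega) (by omega)
        omega

theorem core_disj (h : CoreHyp n L G w o α β p q i j) {F F' : ι} (hF : F ∈ G) (hF' : F' ∈ G)
    (hne : F ≠ F') : Disjoint (core p q F) (core p q F') := by
  rw [Finset.disjoint_left]
  intro x hx hx'
  rcases le_total (q F - p F) (q F' - p F') with hle | hle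
  · exact core_disj_aux h hF hF' hne hle hx hx'
  · exact core_disj_aux h hF' hF hne.symm hle hx' hx

/-- **Step (e).** -/
theorem cores (h : CoreHyp n L G w o α β p q i j) :
    50 * ∑ F ∈ G, (β F - α F) ≤ 170 * ((Finset.range n).filter fun x => ∀ F ∈ L,
      ¬ (α F ≤ x ∧ x < β F)).card + 4 * ∑ F ∈ L, (β F - α F) := by
  have h1 : ∑ F ∈ G, (core p q F).card ≤ (unc n L α β).card + ∑ F ∈ L, (zone α β F).card := by
    have h2 : (G.biUnion (core p q)).card = ∑ F ∈ G, (core p q F).card :=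
      card_biUnion fun F hF F' hF' hne => core_disj h hF hF' hne
    rw [← h2]
    refine (card_le_card (biUnion_subset.2 fun F hF => core_sub h hF)).trans ?_
    refine (card_union_le _ _).trans ?_
    exact Nat.add_le_add_left card_biUnion_le _
  have h3 : ∀ F ∈ L, (zone α β F).card ≤ 2 * ((β F - α F) / 100) := by
    intro F hF
    unfold zone
    refine (card_union_le _ _).trans ?_
    rw [Nat.card_Ico, Nat.card_Ico]
    omega
  have h4 : ∀ F ∈ G, 50 * (β F - α F) ≤ 168 * (core p q F).card := by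
    intro F hF
    have a4 := h.Pu F hF
    have a7 := h.wo F (h.sub hF)
    have a8 := h.ou F (h.sub hF)
    have a9 := h.wpos F (h.sub hF)
    unfold core
    rw [Nat.card_Ico]
    omega
  have h5 : ∑ F ∈ L, (zone α β F).card ≤ ∑ F ∈ L, 2 * ((β F - α F) / 100) := sum_le_sum h3
  have h6 : ∑ F ∈ L, 100 * ((β F - α F) / 100) ≤ ∑ F ∈ L, (β F - α F) :=
    sum_le_sum fun F _ => by omega
  have h7 : ∑ F ∈ G, 50 * (β F - α F) ≤ ∑ F ∈ G, 168 * (core p q F).card := sum_le_sum h4
  rw [← mul_sum] at h5 h6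
  rw [← mul_sum, ← mul_sum] at h7
  have h8 : (unc n L α β).card = ((Finset.range n).filter fun x => ∀ F ∈ L,
      ¬ (α F ≤ x ∧ x < β F)).card := rfl
  omega

end Vale.Agent.P333.E
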