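import Mathlib
import Vale.Agent.P333.E.Defs
import Vale.Agent.P333.E.Cores

/-!
# P333, `7/3 - η`, Lemma E, block E7
-/

set_option linter.all false

namespace Vale.Agent.P333.E

open Finset

theorem coreHyp_of (hI : BlkInt) (hN : BlkNest) {ι σ : Type} [Fintype ι] [Fintype σ]
    [DecidableEq ι] (D : Dat ι σ) (hD : D.Ok) (U : Us D) (A : Finset ι) (s : ι → σ)
    (q x y : ι → ℕ) (hA : A ⊆ D.sm)
    (h : ∀ F ∈ A, D.cl (s F) ∈ D.gd ∧ D.w (D.cl (s F)) ≤ 100 * U.u F ∧
      D.Mat F (q F) (x F) (y F) ∧ D.a (s F) ≤ x F ∧ y F ≤ D.b (s F) ∧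
      U.u F ≤ 3 * (y F - x F) ∧ ilen (x F) (y F) (U.x F) (U.y F) < D.w F) :
    CoreHyp D.n D.sm A D.w D.o U.x U.y x y (fun F => D.a (s F)) (fun F => D.b (s F)) := by
  obtain ⟨hI1, -⟩ := hI ι σ D hD
  obtain ⟨hN1, hN2, hN3, hN4⟩ := hN ι σ D hD U
  have hgs : ∀ c d, c ∈ D.gd → d ∈ D.sm → c ≠ d := by
    intro c d hc hd hcd
    subst hcd
    unfold Dat.gd at hc
    unfold Dat.sm at hd
    rw [mem_filter] at hc hd
    omega
  refine ⟨hA, ?_, ?_, ?_, ?_, ?_, ?_, ?_, ?_, ?_, ?_, ?_, ?_, ?_⟩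
  · intro F hF
    exact (U.mat F).2.1
  · intro F hF
    exact (hD.per F).pos
  · intro F hF
    unfold Dat.sm at hF
    rw [mem_filter] at hF
    exact hF.2
  · intro F hF
    have := hN1 F
    unfold Us.u at this
    omega
  · intro F hF
    have h1 := h F hF
    exact ⟨h1.2.2.2.1, h1.2.2.2.2.1, hD.bn _⟩
  · intro F hF
    exact (h F hF).2.2.2.2.2.1
  · intro F hF
    have h1 := h F hF
    have h2 := hD.len2 (s F)
    have h3 := h1.1
    unfold Dat.gd at h3
    rw [mem_filter] at h3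
    have h4 := h1.2.1
    unfold Us.u at h4
    omega
  · intro F hF
    have := (h F hF).2.2.2.2.2.2
    unfold ilen at this
    omega
  · intro F hF F' hF' hne
    have := hI1 F F' _ _ _ _ _ _ hne.symm (h F hF).2.2.1 (U.mat F')
    unfold ilen at this
    omega
  · intro F hF F' hF' hh
    exact hN3 F' (s F) (hgs _ _ (h F hF).1 hF') hh
  · intro F hF F' hF' hle hh
    have := hN4 F' (s F) (hgs _ _ (h F hF).1 hF') hh.1 hh.2
    omega
  · intro F hF F' hF' hne
    have := hI1 F F' _ _ _ _ _ _ hne (h F hF).2.2.1 (h F' hF').2.2.1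
    unfold ilen at this
    omega
  · intro F hF F' hF' h1 h2
    by_cases hs : s F = s F'
    · rw [hs]
      exact ⟨rfl, rfl⟩
    · have := hD.nn (s F') (s F) (fun e => hs e.symm) h1
      omega

theorem mem_unc {ι : Type} {n : ℕ} {L : Finset ι} {α β : ι → ℕ} {t : ℕ} :
    t ∈ unc n L α β ↔ t < n ∧ ∀ F ∈ L, ¬ (α F ≤ t ∧ t < β F) := by
  unfold unc
  rw [mem_filter, mem_range]

/-- **Block E7.** -/
theorem blkCore (hI : BlkInt) (hN : BlkNest) : BlkCore := by
  intro ι σ _ _ _ D hD U A s q x y hA h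
  have h1 := cores (coreHyp_of hI hN D hD U A s q x y hA h)
  change 50 * _ ≤ 170 * (unc D.n D.sm U.x U.y).card + _ at h1
  have h2 : unc D.n D.sm U.x U.y = Finset.range D.n \ U.cov := by
    ext t
    unfold Us.cov
    rw [mem_unc, mem_sdiff, mem_range, mem_biUnion]
    push Not
    constructor
    · rintro ⟨h3, h4⟩
      exact ⟨h3, fun F hF => by rw [mem_Ico]; have := h4 F hF; omega⟩
    · rintro ⟨h3, h4⟩
      refine ⟨h3, fun F hF => ?_⟩
      have := h4 F hF
      rw [mem_Ico] at this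
      omega
  have h3 : U.cov ⊆ Finset.range D.n := by
    intro t ht
    unfold Us.cov at ht
    rw [mem_biUnion] at ht
    obtain ⟨F, hF, ht⟩ := ht
    rw [mem_Ico] at ht
    rw [mem_range]
    have := (U.mat F).2.1
    omega
  rw [h2] at h1
  have h4 := card_sdiff_add_card_eq_card h3
  rw [card_range] at h4
  unfold Us.u
  omega

end Vale.Agent.P333.E
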