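import Vale.Agent.P333.E.Defs
import Vale.Agent.P333.H14.Far

set_option autoImplicit false

namespace Vale.Agent.P333.E

open Finset

/-- E5. Far servers. -/
theorem blkFar (hN : BlkNest) : BlkFar := by
  intro ι σ _ _ _ D hD U A s hA hs
  obtain ⟨hN1, hN2, hN3, _⟩ := hN ι σ D hD U
  have hxy : ∀ F, U.x F ≤ U.y F := fun F => (U.mat F).1
  have hyn : ∀ F, U.y F ≤ D.n := fun F => (U.mat F).2.1
  have hN1' : ∀ F, D.o F < U.y F - U.x F := fun F => hN1 F
  have hsm : ∀ F ∈ D.sm, 10 ^ 7 * D.w F ≤ D.o F := by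
    intro F hF
    exact (Finset.mem_filter.1 hF).2
  have key := Vale.Agent.P333.H14.far_total D.sm U.x U.y D.w D.o D.n
    (fun i _ => hxy i) (fun i _ => hyn i)
    (fun i hi j hj hij hle => ⟨(hN2 i hi j hj hij hle).1, (hN2 i hi j hj hij hle).2.1⟩)
    (fun i hi j hj hij hle => (hN2 i hi j hj hij hle).2.2)
    hsm (fun i _ => (hN1' i).le) A hA (fun F => D.a (s F)) (fun F => D.b (s F))
    (fun i _ => by have := hN1' i; omega)
    (fun i _ => hD.bn (s i))
    (fun i hi => by
      obtain ⟨h1, _, h3⟩ := hs i hi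
      have h4 := (Finset.mem_filter.1 h1).2
      have h5 := hD.len1 (s i)
      have h6 : U.u i = U.y i - U.x i := rfl
      show 99 * (U.y i - U.x i) ≤ D.b (s i) - D.a (s i)
      omega)
    (fun i hi => by
      obtain ⟨_, h2, _⟩ := hs i hi
      exact h2)
    (fun i hi j hj => by
      obtain ⟨h1, _, _⟩ := hs i hi
      have h4 := (Finset.mem_filter.1 h1).2
      have h5 := hsm j hj
      have hne : D.cl (s i) ≠ j := by
        rintro rfl
        omega
      exact hN3 j (s i) hne)
  have hcov : U.cov.card + (range D.n \ U.cov).card = D.n := by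
    have hsub : U.cov ⊆ range D.n := by
      intro x hx
      obtain ⟨F, _, hxF⟩ := Finset.mem_biUnion.1 hx
      rw [Finset.mem_Ico] at hxF
      exact Finset.mem_range.2 (lt_of_lt_of_le hxF.2 (hyn F))
    rw [Finset.card_sdiff_of_subset hsub, Finset.card_range]
    have := Finset.card_le_card hsub
    rw [Finset.card_range] at this
    omega
  have key' : 25 * ∑ F ∈ A, U.u F ≤ ∑ F ∈ D.sm, U.u F + (range D.n \ U.cov).card := key
  omega

end Vale.Agent.P333.E
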