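import Mathlib

/-!
# P333, `7/3 - η`: the packing lemma (K) and the sum-of-intervals lemma (H)
-/

set_option linter.all false

namespace Vale.Agent.P333.E

open Finset

/-- the middle part of the interval `[x i, y i)` -/
def mid {ι : Type} (x y : ι → ℕ) (i : ι) : Finset ℕ :=
  Ico (x i + (y i - x i) / 100) (y i - (y i - x i) / 100)

/-- **Packing (K).** Intervals `P i = [x i, y i) ⊆ H i = [hx i, hy i) ⊆ [0, n)`. -/
theorem packing {ι : Type} (n : ℕ) (A : Finset ι) (w x y hx hy : ι → ℕ)
    (sub : ∀ i ∈ A, hx i ≤ x i ∧ y i ≤ hy i ∧ hy i ≤ n)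
    (hw : ∀ i ∈ A, 30000000 * w i ≤ y i - x i)
    (hH : ∀ i ∈ A, hy i - hx i ≤ 900 * (y i - x i))
    (hP : ∀ i ∈ A, ∀ j ∈ A, i ≠ j → min (y i) (y j) - max (x i) (x j) ≤ w i + w j)
    (hN : ∀ i ∈ A, ∀ j ∈ A, i ≠ j → 100 * (hy i - hx i) ≤ y j - x j →
      ¬ (x j ≤ hx i ∧ hy i ≤ y j)) :
    98 * ∑ i ∈ A, (y i - x i) ≤ 100 * n := by
  have key : ∀ i ∈ A, ∀ j ∈ A, i ≠ j → y i - x i ≤ y j - x j → ∀ t,
      t ∈ mid x y i → t ∈ mid x y j → False := by
    intro i hi j hj hne hle t h1 h2
    unfold mid at h1 h2
    rw [mem_Ico] at h1 h2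
    have a1 := sub i hi
    have a2 := sub j hj
    have a3 := hw i hi
    have a4 := hw j hj
    have a5 := hH i hi
    have a6 := hP i hi j hj hne
    have a7 := hN i hi j hj hne
    by_cases hc : 200 * w j ≤ y i - x i
    · omega
    · have a8 := a7 (by omega)
      by_cases h3 : hx i < x j
      · omega
      · have h4 : y j < hy i := by
          by_contra h4
          exact a8 ⟨by omega, by omega⟩
        omega
  have hd : ∀ i ∈ A, ∀ j ∈ A, i ≠ j → Disjoint (mid x y i) (mid x y j) := by
    intro i hi j hj hne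
    rw [Finset.disjoint_left]
    intro t h1 h2
    rcases le_total (y i - x i) (y j - x j) with hle | hle
    · exact key i hi j hj hne hle t h1 h2
    · exact key j hj i hi hne.symm hle t h2 h1
  have h1 : ∑ i ∈ A, (mid x y i).card ≤ n := by
    classical
    rw [← card_biUnion hd]
    refine (card_le_card (t := range n) ?_).trans (by rw [card_range])
    rw [biUnion_subset]
    intro i hi t ht
    have a1 := sub i hi
    unfold mid at ht
    rw [mem_Ico] at ht
    rw [mem_range]
    omega
  have h2 : ∑ i ∈ A, 98 * (y i - x i) ≤ ∑ i ∈ A, 100 * (mid x y i).card := by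
    refine sum_le_sum fun i _ => ?_
    unfold mid
    rw [Nat.card_Ico]
    omega
  rw [← mul_sum, ← mul_sum] at h2
  omega

/-- **Union-sum (H).** Pairwise strictly non-nested intervals whose pairwise intersections have
at most `w i + w j` points: `Σ |I i ∩ D| ≤ |⋃ I i ∩ D| + 2 Σ w`. -/
theorem union_sum {ι : Type} [DecidableEq ι] (w α β : ι → ℕ) (D : Finset ℕ) (A : Finset ι)
    (nest : ∀ i ∈ A, ∀ j ∈ A, i ≠ j → (α i < α j ∧ β i < β j) ∨ (α j < α i ∧ β j < β i))
    (hI : ∀ i ∈ A, ∀ j ∈ A, i ≠ j → min (β i) (β j) - max (α i) (α j) ≤ w i + w j) :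
    ∑ i ∈ A, ((Ico (α i) (β i)) ∩ D).card
      ≤ ((A.biUnion fun i => Ico (α i) (β i)) ∩ D).card + 2 * ∑ i ∈ A, w i := by
  -- stronger: keep the weight of the last one on the left
  have key : ∀ B : Finset ι, B ⊆ A → ∀ m ∈ B, (∀ i ∈ B, α i ≤ α m) →
      ∑ i ∈ B, ((Ico (α i) (β i)) ∩ D).card + w m
        ≤ ((B.biUnion fun i => Ico (α i) (β i)) ∩ D).card + 2 * ∑ i ∈ B, w i := by
    intro B
    induction B using Finset.strongInduction with
    | H B ih =>
      intro hB m hm hmax
      have e1 : ∑ i ∈ B, ((Ico (α i) (β i)) ∩ D).card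
          = ∑ i ∈ B.erase m, ((Ico (α i) (β i)) ∩ D).card + ((Ico (α m) (β m)) ∩ D).card :=
        (sum_erase_add _ _ hm).symm
      have e2 : ∑ i ∈ B, w i = ∑ i ∈ B.erase m, w i + w m := (sum_erase_add _ _ hm).symm
      have e3 : B = insert m (B.erase m) := (insert_erase hm).symm
      rcases (B.erase m).eq_empty_or_nonempty with h0 | hne
      · rw [h0] at e1 e2 e3
        rw [e1, e2, e3]
        simp
        omega
      · obtain ⟨l, hl, hlm⟩ := exists_max_image (B.erase m) α hne
        have hlB : l ∈ B := mem_of_mem_erase hl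
        have hlne : l ≠ m := ne_of_mem_erase hl
        have h1 := ih (B.erase m) (erase_ssubset hm) ((erase_subset _ _).trans hB) l hl hlm
        have h2 := hI l (hB hlB) m (hB hm) hlne
        have h3 : α l < α m ∧ β l < β m := by
          rcases nest l (hB hlB) m (hB hm) hlne with h | h
          · exact h
          · have := hmax l hlB
            omega
        -- the part of `I m` already covered lies in `[α m, β l)`
        have h4 : ((B.biUnion fun i => Ico (α i) (β i)) ∩ D).card + (w l + w m)
            ≥ (((B.erase m).biUnion fun i => Ico (α i) (β i)) ∩ D).card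
              + ((Ico (α m) (β m)) ∩ D).card := by
          have h5 : ((B.biUnion fun i => Ico (α i) (β i)) ∩ D)
              = (((B.erase m).biUnion fun i => Ico (α i) (β i)) ∩ D)
                ∪ ((Ico (α m) (β m)) ∩ D) := by
            conv_lhs => rw [e3]
            rw [biUnion_insert, union_inter_distrib_right, union_comm]
          have h6 : ((((B.erase m).biUnion fun i => Ico (α i) (β i)) ∩ D)
              ∩ ((Ico (α m) (β m)) ∩ D)).card ≤ w l + w m := by
            refine (card_le_card (t := Ico (α m) (β l)) ?_).trans ?_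
            · intro t ht
              rw [mem_inter, mem_inter, mem_inter, mem_biUnion] at ht
              obtain ⟨⟨⟨i, hi, ht1⟩, _⟩, ht2, _⟩ := ht
              rw [mem_Ico] at ht1 ht2
              rw [mem_Ico]
              refine ⟨ht2.1, ?_⟩
              by_cases hil : i = l
              · subst hil; exact ht1.2
              · have h7 := hlm i hi
                have h8 := nest i (hB (mem_of_mem_erase hi)) l (hB hlB) hil
                omega
            · rw [Nat.card_Ico]
              omega
          rw [h5]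
          have h9 := card_union_add_card_inter
            (((B.erase m).biUnion fun i => Ico (α i) (β i)) ∩ D) ((Ico (α m) (β m)) ∩ D)
          omega
        rw [e1, e2]
        omega
  rcases A.eq_empty_or_nonempty with h0 | hne
  · subst h0; simp
  · obtain ⟨m, hm, hmax⟩ := exists_max_image A α hne
    have := key A subset_rfl m hm hmax
    omega

end Vale.Agent.P333.E
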