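import Mathlib
import Vale.Agent.P333.E.Defs
import Vale.Agent.P333.E.Pack

set_option linter.all false
set_option autoImplicit false

/-!
P333, ratio below `7/3`: block E4, the servers of the small classes.
-/

namespace Vale.Agent.P333.E

open Finset

theorem LPer.modX {X : ℕ → ℕ} {p : ℕ} (h : LPer X p) (k : ℕ) : X (k % p) = X k := by
  conv_rhs => rw [← Nat.mod_add_div k p]
  generalize k / p = m
  induction m with
  | zero => simp
  | succ m ih => rw [Nat.mul_succ, ← Nat.add_assoc, h.per, ih]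

theorem LPer.congrX {X : ℕ → ℕ} {p : ℕ} (h : LPer X p) {i j : ℕ} (hij : i ≡ j [MOD p]) :
    X i = X j := by
  rw [← h.modX i, ← h.modX j, hij]

section

variable {ι σ : Type} [Fintype ι] [Fintype σ] [DecidableEq ι] {D : Dat ι σ}

/-- Two strings on both sides of a matched interval have a long overlap. -/
theorem exists_ov (hD : D.Ok) {F : ι} {q x y : ℕ} (hM : D.Mat F q x y) {s t : σ}
    (h1 : D.a s < x) (h2 : D.b s < y) (h3 : x ≤ D.a t) (h4 : y < D.b t) :
    ∃ k, D.Ov s t k ∧ min (D.b s - x) (y - D.a t) ≤ k + D.w F := by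
  have hs := hD.len1 s
  have ht := hD.len1 t
  obtain ⟨hxy, hyn, hT⟩ := hM
  by_cases hm : min (D.b s - x) (y - D.a t) < D.w F
  · refine ⟨0, ⟨by omega, by omega, fun j hj => absurd hj (Nat.not_lt_zero _)⟩, by omega⟩
  · obtain ⟨m, hmdef⟩ : ∃ m, m = min (D.b s - x) (y - D.a t) := ⟨_, rfl⟩
    rw [← hmdef] at hm ⊢
    have hw := (hD.per F).pos
    have hm1 : m ≤ D.b s - x := by omega
    have hm2 : m ≤ y - D.a t := by omega
    obtain ⟨A, hA⟩ : ∃ A, A = q + (D.b s - m) := ⟨_, rfl⟩
    obtain ⟨B, hB⟩ : ∃ B, B = q + D.a t := ⟨_, rfl⟩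
    obtain ⟨r, hr⟩ : ∃ r, r = (B + (D.w F - 1) * A) % D.w F := ⟨_, rfl⟩
    have hrw : r < D.w F := by rw [hr]; exact Nat.mod_lt _ hw
    have hcong : A + r ≡ B [MOD D.w F] := by
      have e1 : r ≡ B + (D.w F - 1) * A [MOD D.w F] := by rw [hr]; exact Nat.mod_modEq _ _
      have e2 : A + r ≡ A + (B + (D.w F - 1) * A) [MOD D.w F] := e1.add_left A
      have e3 : A + (B + (D.w F - 1) * A) = B + D.w F * A := by
        obtain ⟨v, hv⟩ : ∃ v, D.w F = v + 1 := ⟨D.w F - 1, by omega⟩
        rw [hv]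
        simp only [Nat.add_sub_cancel]
        ring
      rw [e3] at e2
      refine e2.trans ?_
      unfold Nat.ModEq
      rw [Nat.add_mul_mod_self_left]
    refine ⟨m - r, ⟨by omega, by omega, fun j hj => ?_⟩, by omega⟩
    rw [hT _ (by omega) (by omega), hT (D.a t + j) (by omega) (by omega)]
    have e4 : q + (D.b s - (m - r) + j) = A + r + j := by omega
    have e5 : q + (D.a t + j) = B + j := by omega
    rw [e4, e5]
    exact (hD.per F).congrX (hcong.add_right j)

/-- The strings next to the interval of `F`. -/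
def Gap (U : Us D) (F : ι) (p : σ × σ) : Prop :=
  D.Cons D.gd p.1 p.2 ∧ D.a p.1 < U.x F ∧ D.b p.1 < U.y F ∧ U.x F ≤ D.a p.2 ∧ U.y F < D.b p.2

theorem xm_le (U : Us D) (F : ι) : U.xm F ≤ U.u F := by
  unfold Us.xm
  refine Finset.sup_le fun s _ => ?_
  unfold Us.si Us.u ilen
  omega

theorem si_le_xm (U : Us D) (F : ι) {s : σ} (hs : D.cl s ∈ D.gd) : U.si F s ≤ U.xm F := by
  unfold Us.xm
  exact Finset.le_sup (f := fun s => U.si F s) (by simp [hs])

theorem cl_ne {F : ι} {s : σ} (hF : F ∈ D.sm) (hs : D.cl s ∈ D.gd) : D.cl s ≠ F := by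
  rintro rfl
  simp only [Dat.sm, Dat.gd, Finset.mem_filter, Finset.mem_univ, true_and] at hF hs
  omega

/-- The uncovered part of an interval. -/
theorem uncov (U : Us D) (F : ι) (l r : ℕ)
    (hl : ∀ s, D.cl s ∈ D.gd → D.a s < U.x F → D.b s - U.x F ≤ l)
    (hr : ∀ s, D.cl s ∈ D.gd → U.x F ≤ D.a s → U.y F - D.a s ≤ r) :
    U.u F ≤ (Ico (U.x F) (U.y F) \ D.cover D.gd).card + l + r := by
  have hsub : Ico (U.x F) (U.y F) ⊆ (Ico (U.x F) (U.y F) \ D.cover D.gd) ∪
      (Ico (U.x F) (U.x F + l) ∪ Ico (U.y F - r) (U.y F)) := by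
    intro i hi
    by_cases hc : i ∈ D.cover D.gd
    · refine mem_union_right _ ?_
      simp only [Dat.cover, mem_biUnion, mem_filter, mem_univ, true_and, mem_Ico] at hc
      obtain ⟨s, hs, hs1, hs2⟩ := hc
      rw [mem_Ico] at hi
      rcases Nat.lt_or_ge (D.a s) (U.x F) with h | h
      · have := hl s hs h
        refine mem_union_left _ (mem_Ico.2 ⟨hi.1, by omega⟩)
      · have := hr s hs h
        refine mem_union_right _ (mem_Ico.2 ⟨by omega, hi.2⟩)
    · exact mem_union_left _ (mem_sdiff.2 ⟨hi, hc⟩)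
  have h1 := card_le_card hsub
  have h2 := card_union_le (Ico (U.x F) (U.y F) \ D.cover D.gd)
    (Ico (U.x F) (U.x F + l) ∪ Ico (U.y F - r) (U.y F))
  have h3 := card_union_le (Ico (U.x F) (U.x F + l)) (Ico (U.y F - r) (U.y F))
  rw [Nat.card_Ico, Nat.card_Ico] at h3
  rw [Nat.card_Ico] at h1
  unfold Us.u
  omega

/-- The three cases. -/
theorem trich (hD : D.Ok) (U : Us D) {F : ι} (hF : F ∈ D.sm) :
    U.u F - U.xm F ≤ U.u F - D.o F ∨
    U.u F - U.xm F ≤ (Ico (U.x F) (U.y F) \ D.cover D.gd).card ∨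
    ∃ p, Gap U F p ∧
      U.u F ≤ (Ico (U.x F) (U.y F) \ D.cover D.gd).card + (D.b p.1 - U.x F) + (U.y F - D.a p.2) ∧
      D.b p.1 - U.x F ≤ U.xm F ∧ U.y F - D.a p.2 ≤ U.xm F := by
  classical
  by_cases hin : ∃ s, D.cl s ∈ D.gd ∧ U.x F ≤ D.a s ∧ D.b s ≤ U.y F
  · left
    obtain ⟨s, hs, h1, h2⟩ := hin
    have h3 := hD.noinf s F (U.q F) (cl_ne hF hs) ⟨(hD.len1 s).le.trans' (Nat.le_add_right _ _),
      h2.trans (U.mat F).2.1, fun i hi hi' => (U.mat F).2.2 i (by omega) (by omega)⟩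
    have h4 := si_le_xm U F hs
    unfold Us.si ilen at h4
    omega
  · right
    push Not at hin
    have hout : ∀ s, D.cl s ∈ D.gd → D.a s ≤ U.x F → D.b s < U.y F := by
      intro s hs h1
      by_contra h2
      obtain ⟨f, hf1, hf2, hf3⟩ := U.str F
      have hne : s ≠ f := by
        rintro rfl
        exact cl_ne hF hs hf1
      have := hD.nn s f hne (by omega)
      omega
    have hleft : ∀ s, D.cl s ∈ D.gd → D.a s < U.x F →
        D.b s < U.y F ∧ D.b s - U.x F ≤ U.xm F := by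
      intro s hs h1
      have h2 := hout s hs h1.le
      have h3 := si_le_xm U F hs
      unfold Us.si ilen at h3
      omega
    have hright : ∀ s, D.cl s ∈ D.gd → U.x F ≤ D.a s →
        U.y F < D.b s ∧ U.y F - D.a s ≤ U.xm F := by
      intro s hs h1
      have h2 := hin s hs h1
      have h3 := si_le_xm U F hs
      unfold Us.si ilen at h3
      omega
    by_cases hL : (univ.filter fun s => D.cl s ∈ D.gd ∧ D.a s < U.x F).Nonempty
    · obtain ⟨s, hs, hsmax⟩ := exists_max_image _ (fun s => D.a s) hL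
      simp only [mem_filter, mem_univ, true_and] at hs hsmax
      have hsb : ∀ r, D.cl r ∈ D.gd → D.a r < U.x F → D.b r ≤ D.b s := by
        intro r hr h1
        have h2 := hsmax r ⟨hr, h1⟩
        by_cases hrs : r = s
        · rw [hrs]
        · exact (hD.nn r s hrs h2).2.le
      by_cases hR : (univ.filter fun s => D.cl s ∈ D.gd ∧ U.x F ≤ D.a s).Nonempty
      · obtain ⟨t, ht, htmin⟩ := exists_min_image _ (fun s => D.a s) hR
        simp only [mem_filter, mem_univ, true_and] at ht htmin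
        right
        have e1 := hleft s hs.1 hs.2
        have e2 := hright t ht.1 ht.2
        refine ⟨(s, t), ⟨⟨hs.1, ht.1, by simp only; omega, ?_⟩, hs.2, e1.1, ht.2, e2.1⟩, ?_, e1.2, e2.2⟩
        · intro r hr
          rcases Nat.lt_or_ge (D.a r) (U.x F) with h | h
          · exact Or.inl (hsmax r ⟨hr, h⟩)
          · exact Or.inr (htmin r ⟨hr, h⟩)
        · refine uncov U F _ _ ?_ ?_
          · intro r hr h
            have := hsb r hr h
            simp only
            omega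
          · intro r hr h
            have := htmin r ⟨hr, h⟩
            simp only
            omega
      · left
        have h5 := uncov U F (D.b s - U.x F) 0 (by
          intro r hr h
          have := hsb r hr h
          omega) (by
          intro r hr h
          exact absurd ⟨r, by simp [hr, h]⟩ hR)
        have h6 := (hleft s hs.1 hs.2).2
        omega
    · left
      by_cases hR : (univ.filter fun s => D.cl s ∈ D.gd ∧ U.x F ≤ D.a s).Nonempty
      · obtain ⟨t, ht, htmin⟩ := exists_min_image _ (fun s => D.a s) hR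
        simp only [mem_filter, mem_univ, true_and] at ht htmin
        have h5 := uncov U F 0 (U.y F - D.a t) (by
          intro r hr h
          exact absurd ⟨r, by simp [hr, h]⟩ hL) (by
          intro r hr h
          have := htmin r ⟨hr, h⟩
          omega)
        have h6 := (hright t ht.1 ht.2).2
        omega
      · have h5 := uncov U F 0 0 (by
          intro r hr h
          exact absurd ⟨r, by simp [hr, h]⟩ hL) (by
          intro r hr h
          exact absurd ⟨r, by simp [hr, h]⟩ hR)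
        omega

end

/-- E4. -/
theorem blkServ (hN : BlkNest) : BlkServ := by
  intro ι σ _ _ _ D hD U
  classical
  rcases isEmpty_or_nonempty ι with hι | hι
  · have h0 : D.sm = ∅ := Finset.eq_empty_of_isEmpty _
    have h1 : D.gd = ∅ := Finset.eq_empty_of_isEmpty _
    rw [h0, h1]
    simp
  obtain ⟨F00⟩ := id hι
  obtain ⟨s00, -⟩ := U.str F00
  haveI : Nonempty σ := ⟨s00⟩
  obtain ⟨-, hnest, -, -⟩ := hN ι σ D hD U
  -- the number of uncovered positions
  set c : ι → ℕ := fun F => (Ico (U.x F) (U.y F) \ D.cover D.gd).card with hc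
  set A3 : Finset ι := D.sm.filter fun F => ∃ p, Gap U F p ∧
      U.u F ≤ c F + (D.b p.1 - U.x F) + (U.y F - D.a p.2) ∧
      D.b p.1 - U.x F ≤ U.xm F ∧ U.y F - D.a p.2 ≤ U.xm F with hA3
  have hchoice : ∀ F ∈ A3, ∃ p, Gap U F p ∧
      U.u F ≤ c F + (D.b p.1 - U.x F) + (U.y F - D.a p.2) ∧
      D.b p.1 - U.x F ≤ U.xm F ∧ U.y F - D.a p.2 ≤ U.xm F := fun F hF => (mem_filter.1 hF).2
  choose! pr hpr using hchoice
  set P : Finset (σ × σ) := A3.image pr with hP
  -- representatives
  have hrep : ∀ p ∈ P, ∃ g ∈ A3, pr g = p ∧ ∀ F ∈ A3, pr F = p → D.w g ≤ D.w F := by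
    intro p hp
    obtain ⟨F0, hF0, hF0p⟩ := mem_image.1 hp
    obtain ⟨g, hg, hgmin⟩ := exists_min_image (A3.filter fun F => pr F = p) D.w
      ⟨F0, mem_filter.2 ⟨hF0, hF0p⟩⟩
    rw [mem_filter] at hg
    exact ⟨g, hg.1, hg.2, fun F hF hFp => hgmin F (mem_filter.2 ⟨hF, hFp⟩)⟩
  choose! g hg1 hg2 hg3 using hrep
  have hk : ∀ p ∈ P, ∃ k, D.Ov p.1 p.2 k ∧
      min (D.b p.1 - U.x (g p)) (U.y (g p) - D.a p.2) ≤ k + D.w (g p) := by
    intro p hp
    have h1 := (hpr (g p) (hg1 p hp)).1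
    rw [hg2 p hp] at h1
    exact exists_ov hD (U.mat (g p)) h1.2.1 h1.2.2.1 h1.2.2.2.1 h1.2.2.2.2
  choose! k hk1 hk2 using hk
  have hcov1 := hD.cov1 D.gd P k (by
    intro p hp
    have h1 := (hpr (g p) (hg1 p hp)).1
    rw [hg2 p hp] at h1
    exact ⟨h1.1, hk1 p hp⟩)
  have hcov2 := hD.cov2 D.gd
  -- the sum over the gaps
  have hfib : (∑ F ∈ A3, ((U.u F - U.xm F : ℕ) : ℤ)) ≤
      ∑ F ∈ A3, ((c F + 2 * D.w F : ℕ) : ℤ) + ∑ p ∈ P, ((D.a p.2 : ℤ) + k p - D.b p.1) := by
    rw [← sum_fiberwise_of_maps_to (s := A3) (t := P) (g := pr)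
      (fun F hF => mem_image_of_mem _ hF) (fun F => ((U.u F - U.xm F : ℕ) : ℤ)),
      ← sum_fiberwise_of_maps_to (s := A3) (t := P) (g := pr)
      (fun F hF => mem_image_of_mem _ hF) (fun F => ((c F + 2 * D.w F : ℕ) : ℤ)),
      ← sum_add_distrib]
    refine sum_le_sum fun p hp => ?_
    have hgm : g p ∈ A3.filter fun F => pr F = p := mem_filter.2 ⟨hg1 p hp, hg2 p hp⟩
    rw [← add_sum_erase _ _ hgm, ← add_sum_erase _ _ hgm]
    have h1 : ∑ F ∈ (A3.filter fun F => pr F = p).erase (g p), ((U.u F - U.xm F : ℕ) : ℤ) ≤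
        ∑ F ∈ (A3.filter fun F => pr F = p).erase (g p), ((c F + 2 * D.w F : ℕ) : ℤ) := by
      refine sum_le_sum fun F hF => ?_
      rw [mem_erase, mem_filter] at hF
      obtain ⟨hFg, hFA, hFp⟩ := hF
      have e1 := hpr F hFA
      have e2 := hpr (g p) (hg1 p hp)
      rw [hFp] at e1
      rw [hg2 p hp] at e2
      have e3 := hg3 p hp F hFA hFp
      have m1 : F ∈ D.sm := (mem_filter.1 hFA).1
      have m2 : g p ∈ D.sm := (mem_filter.1 (hg1 p hp)).1
      obtain ⟨⟨-, f1, f2, f3, f4⟩, f5, f6, f7⟩ := e1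
      obtain ⟨⟨-, g1', g2', g3', g4'⟩, -⟩ := e2
      have : U.u F - U.xm F ≤ c F + 2 * D.w F := by
        rcases Nat.le_total (U.x F) (U.x (g p)) with h | h
        · have := hnest F m1 (g p) m2 hFg h
          omega
        · have := hnest (g p) m2 F m1 (Ne.symm hFg) h
          omega
      exact_mod_cast this
    have h2 : ((U.u (g p) - U.xm (g p) : ℕ) : ℤ) ≤
        ((c (g p) + 2 * D.w (g p) : ℕ) : ℤ) + ((D.a p.2 : ℤ) + k p - D.b p.1) := by
      have e2 := hpr (g p) (hg1 p hp)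
      rw [hg2 p hp] at e2
      obtain ⟨⟨-, g1', g2', g3', g4'⟩, g5, g6, g7⟩ := e2
      have e4 := hk2 p hp
      have e5 := xm_le U (g p)
      have e6 : U.u (g p) = U.y (g p) - U.x (g p) := rfl
      have e7 := (U.mat (g p)).1
      omega
    linarith
  -- the union bound
  have hcU : ∀ F, c F = (Ico (U.x F) (U.y F) ∩ (range D.n \ D.cover D.gd)).card := by
    intro F
    show (Ico (U.x F) (U.y F) \ D.cover D.gd).card = _
    congr 1
    ext i
    have := (U.mat F).2.1
    simp only [mem_sdiff, mem_Ico, mem_inter, mem_range]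
    constructor
    · rintro ⟨h1, h2⟩
      exact ⟨h1, by omega, h2⟩
    · rintro ⟨h1, -, h2⟩
      exact ⟨h1, h2⟩
  have hun : ∑ F ∈ D.sm, c F ≤ (range D.n \ D.cover D.gd).card + 2 * ∑ F ∈ D.sm, D.w F := by
    have := union_sum D.w U.x U.y (range D.n \ D.cover D.gd) D.sm (by
      intro F hF G hG hne
      rcases Nat.le_total (U.x F) (U.x G) with h | h
      · exact Or.inl ⟨(hnest F hF G hG hne h).1, (hnest F hF G hG hne h).2.1⟩
      · exact Or.inr ⟨(hnest G hG F hF (Ne.symm hne) h).1, (hnest G hG F hF (Ne.symm hne) h).2.1⟩)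
      (by
      intro F hF G hG hne
      rcases Nat.le_total (U.x F) (U.x G) with h | h
      · have := hnest F hF G hG hne h
        omega
      · have := hnest G hG F hF (Ne.symm hne) h
        omega)
    simp only [hcU]
    refine this.trans ?_
    have := card_le_card (inter_subset_right (s₁ := D.sm.biUnion fun i => Ico (U.x i) (U.y i))
      (s₂ := range D.n \ D.cover D.gd))
    omega
  have hcard : (range D.n \ D.cover D.gd).card + (D.cover D.gd).card ≤ D.n := by
    have hsub : D.cover D.gd ⊆ range D.n := by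
      intro i hi
      simp only [Dat.cover, mem_biUnion, mem_filter, mem_univ, true_and, mem_Ico] at hi
      obtain ⟨s, hs, hs1, hs2⟩ := hi
      have := hD.bn s
      rw [mem_range]
      omega
    rw [card_sdiff_of_subset hsub, card_range]
    have := card_le_card hsub
    rw [card_range] at this
    omega
  -- the rest
  have hrest : ∑ F ∈ D.sm.filter (fun F => F ∉ A3), (U.u F - U.xm F) ≤
      ∑ F ∈ D.sm.filter (fun F => F ∉ A3), ((U.u F - D.o F) + c F) := by
    refine sum_le_sum fun F hF => ?_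
    rw [mem_filter] at hF
    rcases trich hD U hF.1 with h | h | h
    · omega
    · have : U.u F - U.xm F ≤ c F := h
      omega
    · exact absurd (mem_filter.2 ⟨hF.1, h⟩) hF.2
  have hsplit : ∀ f : ι → ℕ, ∑ F ∈ D.sm, f F = ∑ F ∈ A3, f F +
      ∑ F ∈ D.sm.filter (fun F => F ∉ A3), f F := by
    intro f
    rw [← sum_filter_add_sum_filter_not D.sm (fun F => F ∈ A3)]
    congr 1
    refine sum_congr ?_ fun _ _ => rfl
    ext F
    simp only [mem_filter]
    constructor
    · exact fun h => h.2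
    · exact fun h => ⟨(mem_filter.1 h).1, h⟩
  have hA : (∑ F ∈ A3, (U.u F - U.xm F) : ℕ) + (∑ c ∈ D.gd, D.w c) ≤
      ∑ F ∈ A3, (c F + 2 * D.w F) + D.n := by
    have : ((∑ F ∈ A3, (U.u F - U.xm F) : ℕ) : ℤ) + ((∑ c ∈ D.gd, D.w c : ℕ) : ℤ) ≤
        ((∑ F ∈ A3, (c F + 2 * D.w F) : ℕ) : ℤ) + D.n := by
      push_cast at hfib ⊢
      linarith
    exact_mod_cast this
  rw [hsplit (fun F => U.u F - U.xm F)]
  have s1 := hsplit (fun F => c F)
  have s2 := hsplit (fun F => D.w F)
  have s3 := hsplit (fun F => U.u F - D.o F)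
  rw [sum_add_distrib] at hrest
  rw [sum_add_distrib, ← mul_sum] at hA
  omega

end Vale.Agent.P333.E
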