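import Mathlib

/-!
P333, ratio below 7/3, Lemma E, step (d): a server of the long periodic stretch `U` gives a string
of its class which contains another long stretch of the same period.
-/

namespace Vale.Agent.P333.E

/-- Periodicity by multiples. -/
theorem pmul {X : ℕ → ℕ} {p : ℕ} (h : ∀ k, X (k + p) = X k) (k m : ℕ) : X (k + p * m) = X k := by
  induction m with
  | zero => simp
  | succ m ih => rw [Nat.mul_succ, ← Nat.add_assoc, h, ih]

/-- Two periodic words which agree on an interval of length at least the sum of the periods are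
shifts of each other. -/
theorem conj_of_long {X Y : ℕ → ℕ} {p q : ℕ} (hp : 0 < p) (hX : ∀ k, X (k + p) = X k)
    (hq : 0 < q) (hY : ∀ k, Y (k + q) = Y k) {i j l : ℕ} (hl : p + q ≤ l)
    (he : ∀ t < l, X (i + t) = Y (j + t)) : ∃ s, ∀ k, X k = Y (k + s) := by
  -- `X` has period `q`
  have hXq : ∀ k, X (k + q) = X k := by
    intro k
    -- move `k` into the interval
    obtain ⟨m, t, ht, hk⟩ : ∃ m t, t < p ∧ k + p * (i + 1) = i + t + p * m := by
      have hi : i ≤ k + p * (i + 1) := by
        have := Nat.le_mul_of_pos_left (i + 1) hp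
        omega
      refine ⟨(k + p * (i + 1) - i) / p, (k + p * (i + 1) - i) % p, Nat.mod_lt _ hp, ?_⟩
      have := Nat.mod_add_div (k + p * (i + 1) - i) p
      omega
    have e1 : X k = X (i + t) := by
      rw [← pmul hX k (i + 1), hk, pmul hX]
    have e2 : X (k + q) = X (i + (t + q)) := by
      rw [← pmul hX (k + q) (i + 1)]
      have : k + q + p * (i + 1) = i + (t + q) + p * m := by omega
      rw [this, pmul hX]
    rw [e1, e2, he t (by omega), he (t + q) (by omega), ← Nat.add_assoc, hY]
  -- compare
  refine ⟨q * (i + 1) - i + j, fun k => ?_⟩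
  obtain ⟨m, t, ht, hk⟩ : ∃ m t, t < q ∧ k + q * (i + 1) = i + t + q * m := by
    have hi : i ≤ k + q * (i + 1) := by
      have := Nat.le_mul_of_pos_left (i + 1) hq
      omega
    refine ⟨(k + q * (i + 1) - i) / q, (k + q * (i + 1) - i) % q, Nat.mod_lt _ hq, ?_⟩
    have := Nat.mod_add_div (k + q * (i + 1) - i) q
    omega
  have hi : i ≤ q * (i + 1) := by
    have := Nat.le_mul_of_pos_left (i + 1) hq
    omega
  rw [← pmul hXq k (i + 1), hk, pmul hXq, he t (by omega)]
  have : k + (q * (i + 1) - i + j) = j + t + q * m := by omega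
  rw [this, pmul hY]

/-- Maximal extension to the right of a stretch of period `q`: there is `B ≥ b` such that the word
has period `q` on `[a, B)` and not on `[a, B + 1)`, provided that it is not of period `q` on
arbitrarily long intervals. -/
theorem exists_right {X : ℕ → ℕ} {q a b N : ℕ}
    (h : ∀ k, a ≤ k → k + q < b → X (k + q) = X k)
    (hN : ∀ B, b ≤ B → (∀ k, a ≤ k → k + q < B → X (k + q) = X k) → B < N) :
    ∃ B, b ≤ B ∧ (∀ k, a ≤ k → k + q < B → X (k + q) = X k) ∧ X B ≠ X (B - q) := by
  classical
  let P : ℕ → Prop := fun B => b ≤ B ∧ (∀ k, a ≤ k → k + q < B → X (k + q) = X k)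
  have hb : P b := ⟨le_rfl, h⟩
  have hbN : b ≤ N := (hN b le_rfl h).le
  have hg := Nat.findGreatest_spec (P := P) hbN hb
  refine ⟨Nat.findGreatest P N, hg.1, hg.2, fun hX => ?_⟩
  set B := Nat.findGreatest P N with hB
  have hP : P (B + 1) := by
    refine ⟨by have := hg.1; omega, fun k h1 h2 => ?_⟩
    by_cases h3 : k + q < B
    · exact hg.2 k h1 h3
    · have h4 : k + q = B := by omega
      have h5 : k = B - q := by omega
      rw [h4, h5]
      exact hX
  have h1 : B + 1 < N := hN (B + 1) hP.1 hP.2
  have h2 := Nat.le_findGreatest (P := P) h1.le hP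
  omega

/-- Maximal extension to the left. -/
theorem exists_left {X : ℕ → ℕ} {q a b : ℕ}
    (h : ∀ k, a ≤ k → k + q < b → X (k + q) = X k)
    (hN : ∀ A, A ≤ a → (∀ k, A ≤ k → k + q < b → X (k + q) = X k) → 0 < A) :
    ∃ A, A ≤ a ∧ 0 < A ∧ (∀ k, A ≤ k → k + q < b → X (k + q) = X k) ∧
      (A - 1 + q < b → X (A - 1 + q) ≠ X (A - 1)) := by
  classical
  let P : ℕ → Prop := fun A => A ≤ a ∧ (∀ k, A ≤ k → k + q < b → X (k + q) = X k)
  have ha : P a := ⟨le_rfl, h⟩
  have hex : ∃ A, P A := ⟨a, ha⟩
  have hs := Nat.find_spec hex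
  have h0 : 0 < Nat.find hex := hN _ hs.1 hs.2
  refine ⟨Nat.find hex, hs.1, h0, hs.2, fun hlt hX => ?_⟩
  refine Nat.find_min hex (m := Nat.find hex - 1) (by omega) ⟨by have := hs.1; omega, ?_⟩
  intro k h1 h2
  by_cases h3 : Nat.find hex ≤ k
  · exact hs.2 k h3 h2
  · have h4 : k = Nat.find hex - 1 := by omega
    rw [h4]
    exact hX

/-- A word with period `q` on `[a, b)` which agrees with the `q`-periodic word `Y` on a
subinterval of length at least `q`, agrees with it on the whole interval. -/
theorem match_extend {X Y : ℕ → ℕ} {q a b x y s : ℕ} (hY : ∀ k, Y (k + q) = Y k)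
    (h : ∀ k, a ≤ k → k + q < b → X (k + q) = X k) (hax : a ≤ x) (hyb : y ≤ b) (hxy : x + q ≤ y)
    (he : ∀ k, x ≤ k → k < y → X k = Y (s + k)) (hq : 0 < q) :
    ∀ k, a ≤ k → k < b → X k = Y (s + k) := by
  -- to the right
  have hr : ∀ k, x ≤ k → k < b → X k = Y (s + k) := by
    intro k
    induction k using Nat.strong_induction_on with
    | _ k ih =>
      intro h1 h2
      by_cases h3 : k < y
      · exact he k h1 h3
      · have h4 := h (k - q) (by omega) (by omega)
        have h5 := ih (k - q) (by omega) (by omega) (by omega)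
        have h6 : k - q + q = k := by omega
        rw [h6] at h4
        rw [h4, h5, ← hY]
        congr 1
        omega
  -- to the left
  have hl : ∀ m k, k + m = x → a ≤ k → X k = Y (s + k) := by
    intro m
    induction m using Nat.strong_induction_on with
    | _ m ih =>
      intro k h1 h2
      rcases Nat.eq_zero_or_pos m with rfl | hm
      · exact hr k (by omega) (by omega)
      · have h3 := h k h2 (by omega)
        have h4 : X (k + q) = Y (s + (k + q)) := by
          by_cases h5 : x ≤ k + q
          · exact hr _ h5 (by omega)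
          · exact ih (x - (k + q)) (by omega) (k + q) (by omega) (by omega)
        rw [← h3, h4, ← Nat.add_assoc, hY]
  intro k h1 h2
  by_cases h3 : x ≤ k
  · exact hr k h3 h2
  · exact hl (x - k) k (by omega) h1

/-- **Step (d)**. `U = [L, R)` matches the periodic word `XF`; a piece `[x0, y0)` of `U` of length
at least `(9/10)|U|` matches the periodic word `XC`, which is not a shift of `XF`; the windows of
length `oC + 1` of `XC` occur in the intervals `[a, b)` of the family `Q`, and no interval of the
family contains `U`. Then some interval of the family contains an interval `[x, y)` of length at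
least `|U|/3` which matches `XF` and meets `U` in less than `wF` positions. -/
theorem exists_PF {XC XF T : ℕ → ℕ} {wC wF oC L R qU q x0 y0 : ℕ} {Q : ℕ → ℕ → Prop}
    (hwC : 0 < wC) (hC : ∀ k, XC (k + wC) = XC k) (hwF : 0 < wF) (hF : ∀ k, XF (k + wF) = XF k)
    (hne : ¬ ∃ s, ∀ k, XC k = XF (k + s))
    (hU : ∀ i, L ≤ i → i < R → T i = XF (qU + i))
    (hLx : L ≤ x0) (hxy : x0 ≤ y0) (hyR : y0 ≤ R)
    (hs : ∀ i, x0 ≤ i → i < y0 → T i = XC (q + i))
    (h9 : 9 * (R - L) ≤ 10 * (y0 - x0)) (hsmall : 10000 * wF ≤ R - L)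
    (hoC : 9 * wC ≤ 10 * oC)
    (hwin : ∀ k, ∃ a b d, Q a b ∧ a + d + (oC + 1) ≤ b ∧
      ∀ j, j ≤ oC → T (a + d + j) = XC (k + j))
    (hcont : ∀ a b, Q a b → ¬ (a ≤ L ∧ R ≤ b)) :
    ∃ a b x y r, Q a b ∧ a ≤ x ∧ x ≤ y ∧ y ≤ b ∧ R - L ≤ 3 * (y - x) ∧
      (∀ i, x ≤ i → i < y → T i = XF (r + i)) ∧ min y R - max x L < wF := by
  classical
  -- the piece as an interval of `XC`
  obtain ⟨p, hp⟩ : ∃ p, p = q + wC * (wC + wF + 1) := ⟨_, rfl⟩
  have hpbig : wC + wF + 1 ≤ p := by
    have := Nat.le_mul_of_pos_left (wC + wF + 1) hwC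
    omega
  obtain ⟨s, hsdef⟩ : ∃ s, s = qU + (wF * p - p) := ⟨_, rfl⟩
  have hwFp : p ≤ wF * p := Nat.le_mul_of_pos_left p hwF
  have he : ∀ k, p + x0 ≤ k → k < p + y0 → XC k = XF (s + k) := by
    intro k h1 h2
    obtain ⟨i, rfl⟩ : ∃ i, k = p + i := ⟨k - p, by omega⟩
    have e1 : XC (p + i) = XC (q + i) := by
      have : p + i = (q + i) + wC * (wC + wF + 1) := by omega
      rw [this, pmul hC]
    have e2 : XF (s + (p + i)) = XF (qU + i) := by
      have : s + (p + i) = (qU + i) + wF * p := by omega
      rw [this, pmul hF]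
    rw [e1, e2, ← hs i (by omega) (by omega), hU i (by omega) (by omega)]
  have hlen0 : wF + 1 ≤ y0 - x0 := by omega
  -- an interval of period `wF` containing the piece is short
  have hbound : ∀ A B, A ≤ p + x0 → p + y0 ≤ B →
      (∀ k, A ≤ k → k + wF < B → XC (k + wF) = XC k) → B < A + (wC + wF) := by
    intro A B hA hB hper
    by_contra hcon
    have hm := match_extend hF hper hA hB (by omega) he hwF
    refine hne (conj_of_long hwC hC hwF hF (i := A) (j := s + A) (l := B - A) (by omega) ?_)
    intro t ht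
    rw [hm (A + t) (by omega) (by omega), Nat.add_assoc]
  have hper0 : ∀ k, p + x0 ≤ k → k + wF < p + y0 → XC (k + wF) = XC k := by
    intro k h1 h2
    rw [he k h1 (by omega), he (k + wF) (by omega) h2, ← Nat.add_assoc, hF]
  obtain ⟨A, hAle, hA0, hperA, hbrL⟩ := exists_left (X := XC) (q := wF) hper0 (by
    intro A hA hper
    have := hbound A (p + y0) hA le_rfl hper
    omega)
  obtain ⟨B, hBle, hperB, hbrR⟩ := exists_right (X := XC) (q := wF) (a := A) (b := p + y0)
    (N := A + (wC + wF)) hperA (fun B hB hper => hbound A B hAle hB hper)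
  have hbrL' := hbrL (by omega)
  have hfw := hbound A B hAle hBle hperB
  have hm : ∀ k, A ≤ k → k < B → XC k = XF (s + k) :=
    match_extend hF hperB hAle hBle (by omega) he hwF
  obtain ⟨f, hf⟩ : ∃ f, B = A + f := ⟨B - A, by omega⟩
  subst hf
  have hf1 : y0 - x0 ≤ f := by omega
  -- transport of a match to `T`
  have htr : ∀ c k m : ℕ, (∀ j, j < m → T (c + j) = XC (k + j)) → A ≤ k → k + m ≤ A + f →
      ∃ r, ∀ i, c ≤ i → i < c + m → T i = XF (r + i) := by
    intro c k m h1 h2 h3
    have hc : c ≤ wF * c := Nat.le_mul_of_pos_left c hwF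
    refine ⟨s + k + (wF * c - c), fun i hi1 hi2 => ?_⟩
    obtain ⟨j, rfl⟩ : ∃ j, i = c + j := ⟨i - c, by omega⟩
    rw [h1 j (by omega), hm (k + j) (by omega) (by omega)]
    have : s + k + (wF * c - c) + (c + j) = (s + (k + j)) + wF * c := by omega
    rw [this, pmul hF]
  by_cases hcase : f + 1 ≤ oC
  · -- Case 1
    obtain ⟨a, b, d, hQ, hb, hT⟩ := hwin (A - 1)
    obtain ⟨r, hr⟩ := htr (a + d + 1) A f (by
      intro j hj
      have h1 := hT (j + 1) (by omega)
      have e1 : a + d + (j + 1) = a + d + 1 + j := by omega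
      have e2 : A - 1 + (j + 1) = A + j := by omega
      rw [e1, e2] at h1
      exact h1) le_rfl le_rfl
    refine ⟨a, b, a + d + 1, a + d + 1 + f, r, hQ, by omega, by omega, by omega, by omega, hr, ?_⟩
    by_contra hcon
    have hL : a + d + 1 ≤ L := by
      by_contra hlt
      have h1 := hU (a + d) (by omega) (by omega)
      have h2 := hU (a + d + wF) (by omega) (by omega)
      have h3 := hT 0 (by omega)
      have h4 := hT wF (by omega)
      rw [Nat.add_zero, Nat.add_zero] at h3
      refine hbrL' ?_
      rw [← h4, ← h3, h1, h2, ← Nat.add_assoc, hF]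
    have hR : R ≤ a + d + 1 + f := by
      by_contra hlt
      have h1 := hU (a + d + 1 + f) (by omega) (by omega)
      have h2 := hU (a + d + 1 + f - wF) (by omega) (by omega)
      have h3 := hT (1 + f) (by omega)
      have h4 := hT (1 + f - wF) (by omega)
      refine hbrR ?_
      have e1 : A - 1 + (1 + f) = A + f := by omega
      have e2 : A - 1 + (1 + f - wF) = A + f - wF := by omega
      have e3 : a + d + (1 + f) = a + d + 1 + f := by omega
      have e4 : a + d + (1 + f - wF) = a + d + 1 + f - wF := by omega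
      rw [e1, e3] at h3
      rw [e2, e4] at h4
      rw [← h3, ← h4, h1, h2]
      have : qU + (a + d + 1 + f) = qU + (a + d + 1 + f - wF) + wF := by omega
      rw [this, hF]
    exact hcont a b hQ ⟨by omega, by omega⟩
  · -- Case 2
    obtain ⟨h, hh⟩ : ∃ h, h = 4 * wC / 10 := ⟨_, rfl⟩
    have hwh : wF ≤ h := by omega
    have hhf : h ≤ f := by omega
    obtain ⟨e, hee⟩ : ∃ e, e + f = wC + h := ⟨wC + h - f, by omega⟩
    have he1 : 1 ≤ e := by omega
    have heoC : e + h ≤ oC + 1 := by omega
    obtain ⟨a, b, d, hQ, hb, hT⟩ := hwin (A + f - h)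
    obtain ⟨r1, hr1⟩ := htr (a + d) (A + f - h) h (fun j hj => hT j (by omega)) (by omega)
      (by omega)
    obtain ⟨r2, hr2⟩ := htr (a + d + e) A h (by
      intro j hj
      have h1 := hT (e + j) (by omega)
      have e1 : a + d + (e + j) = a + d + e + j := by omega
      have e2 : A + f - h + (e + j) = (A + j) + wC := by omega
      rw [e1, e2, hC] at h1
      exact h1) le_rfl (by omega)
    by_cases hone : min (a + d + h) R - max (a + d) L < wF
    · exact ⟨a, b, a + d, a + d + h, r1, hQ, by omega, by omega, by omega, by omega, hr1, hone⟩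
    · refine ⟨a, b, a + d + e, a + d + e + h, r2, hQ, by omega, by omega, by omega, by omega, hr2,
        ?_⟩
      by_contra hcon
      have hR : R ≤ a + d + h := by
        by_contra hlt
        have h1 := hU (a + d + h) (by omega) (by omega)
        have h2 := hU (a + d + h - wF) (by omega) (by omega)
        have h3 := hT h (by omega)
        have h4 := hT (h - wF) (by omega)
        refine hbrR ?_
        have e1 : A + f - h + h = A + f := by omega
        have e2 : A + f - h + (h - wF) = A + f - wF := by omega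
        have e4 : a + d + (h - wF) = a + d + h - wF := by omega
        rw [e1] at h3
        rw [e2, e4] at h4
        rw [← h3, ← h4, h1, h2]
        have : qU + (a + d + h) = qU + (a + d + h - wF) + wF := by omega
        rw [this, hF]
      have hL : a + d + e ≤ L := by
        by_contra hlt
        have h1 := hU (a + d + e - 1) (by omega) (by omega)
        have h2 := hU (a + d + e - 1 + wF) (by omega) (by omega)
        have h3 := hT (e - 1) (by omega)
        have h4 := hT (e - 1 + wF) (by omega)
        refine hbrL' ?_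
        have e1 : A + f - h + (e - 1) = (A - 1) + wC := by omega
        have e2 : A + f - h + (e - 1 + wF) = (A - 1 + wF) + wC := by omega
        have e3 : a + d + (e - 1) = a + d + e - 1 := by omega
        have e4 : a + d + (e - 1 + wF) = a + d + e - 1 + wF := by omega
        rw [e1, e3, hC] at h3
        rw [e2, e4, hC] at h4
        rw [← h3, ← h4, h1, h2, ← Nat.add_assoc, hF]
      omega

end Vale.Agent.P333.E
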