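import Vale.Agent.P333.E.Defs
import Vale.Agent.P333.E.PF

/-!
P333, ratio below `7/3`: parts E1a, E1b, E3a, E3b and E6 of Lemma E.
-/

set_option autoImplicit false

namespace Vale.Agent.P333.E

/-- E1a. -/
theorem blkFW : BlkFW := by
  intro X Y p q hX hY hne x y L he
  by_contra hcon
  exact hne (conj_of_long hX.pos hX.per hY.pos hY.per (by omega) he)

/-- A sub-interval of a matched interval. -/
theorem Dat.Mat.mono {ι σ : Type} {D : Dat ι σ} {F : ι} {q x y x' y' : ℕ} (h : D.Mat F q x y)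
    (hx : x ≤ x') (hxy : x' ≤ y') (hy : y' ≤ y) : D.Mat F q x' y' :=
  ⟨hxy, hy.trans h.2.1, fun i h1 h2 => h.2.2 i (hx.trans h1) (lt_of_lt_of_le h2 hy)⟩

/-- A matched interval is contained in a maximal one. -/
theorem exists_max {ι σ : Type} (D : Dat ι σ) (F : ι) (q a b : ℕ) (h : D.Mat F q a b) :
    ∃ x y, x ≤ a ∧ b ≤ y ∧ D.Mat F q x y ∧
      ∀ x' y', x' ≤ x → y ≤ y' → D.Mat F q x' y' → x' = x ∧ y' = y := by
  classical
  have hb : b ≤ D.n := h.2.1
  let P : ℕ → Prop := fun l => ∃ x y, x ≤ a ∧ b ≤ y ∧ D.Mat F q x y ∧ l = y - x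
  have hP : P (b - a) := ⟨a, b, le_rfl, le_rfl, h, rfl⟩
  have hg := Nat.findGreatest_spec (P := P) (n := D.n) (by omega) hP
  obtain ⟨x, y, hx, hy, hm, hl⟩ := hg
  refine ⟨x, y, hx, hy, hm, fun x' y' h1 h2 h3 => ?_⟩
  have h4 := Nat.le_findGreatest (P := P) (n := D.n) (m := y' - x')
    (by have := h3.2.1; omega) ⟨x', y', h1.trans hx, hy.trans h2, h3, rfl⟩
  have h5 := hm.1
  omega

/-- E1b. -/
theorem blkUex : BlkUex := by
  intro ι σ _ _ _ D hD
  have hex : ∀ F : ι, ∃ q x y, D.Mat F q x y ∧ (∃ f, D.cl f = F ∧ x ≤ D.a f ∧ D.b f ≤ y) ∧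
      ∀ x' y', x' ≤ x → y ≤ y' → D.Mat F q x' y' → x' = x ∧ y' = y := by
    intro F
    obtain ⟨f, d, hf, -, -⟩ := hD.win F 0
    obtain ⟨q, hq⟩ := hD.occ f
    rw [hf] at hq
    obtain ⟨x, y, h1, h2, h3, h4⟩ := exists_max D F q (D.a f) (D.b f) hq
    exact ⟨q, x, y, h3, ⟨f, hf, h1, h2⟩, h4⟩
  choose q x y h1 h2 h3 using hex
  exact ⟨⟨q, x, y, h1, h2, h3⟩⟩

/-- E3a. -/
theorem blkInt : BlkInt := by
  intro ι σ _ _ _ D hD
  refine ⟨?_, ?_⟩
  · intro c d q q' x y x' y' hcd h1 h2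
    by_contra hcon
    unfold ilen at hcon
    refine hD.dist c d hcd ?_
    refine conj_of_long (hD.per c).pos (hD.per c).per (hD.per d).pos (hD.per d).per
      (i := q + max x x') (j := q' + max x x') (l := min y y' - max x x') (by omega) ?_
    intro t ht
    have e1 := h1.2.2 (max x x' + t) (by omega) (by omega)
    have e2 := h2.2.2 (max x x' + t) (by omega) (by omega)
    rw [Nat.add_assoc, Nat.add_assoc, ← e1, ← e2]
  · intro c q q' x y x' y' h1 h2 hle k
    unfold ilen at hle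
    have hp := (hD.per c).pos
    have hX := (hD.per c).per
    obtain ⟨M, hM⟩ : ∃ M, M = max x x' := ⟨_, rfl⟩
    obtain ⟨m, t, ht, hk⟩ : ∃ m t, t < D.w c ∧ k + D.w c * (M + 1) = M + t + D.w c * m := by
      have hi : M ≤ k + D.w c * (M + 1) := by
        have := Nat.le_mul_of_pos_left (M + 1) hp
        omega
      refine ⟨(k + D.w c * (M + 1) - M) / D.w c, (k + D.w c * (M + 1) - M) % D.w c,
        Nat.mod_lt _ hp, ?_⟩
      have := Nat.mod_add_div (k + D.w c * (M + 1) - M) (D.w c)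
      omega
    have e1 := h1.2.2 (M + t) (by omega) (by omega)
    have e2 := h2.2.2 (M + t) (by omega) (by omega)
    have f1 : D.X c (q + k) = D.X c (q + (M + t)) := by
      rw [← pmul hX (q + k) (M + 1), Nat.add_assoc, hk, ← Nat.add_assoc, pmul hX]
    have f2 : D.X c (q' + k) = D.X c (q' + (M + t)) := by
      rw [← pmul hX (q' + k) (M + 1), Nat.add_assoc, hk, ← Nat.add_assoc, pmul hX]
    rw [f1, f2, ← e1, ← e2]

/-- E3b. -/
theorem blkNest : BlkNest := by
  intro ι σ _ _ _ D hD U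
  have hlen : ∀ F, D.o F < U.u F := by
    intro F
    obtain ⟨f, hf, h1, h2⟩ := U.str F
    have h3 := hD.len1 f
    rw [hf] at h3
    unfold Us.u
    omega
  -- a string of another class inside of the interval of `F` is long
  have hin : ∀ F s, D.cl s ≠ F → U.x F ≤ D.a s → D.b s ≤ U.y F → D.o F < D.b s - D.a s := by
    intro F s hs h1 h2
    have h3 := hD.len1 s
    have h4 := hD.noinf s F (U.q F) hs ((U.mat F).mono h1 (by omega) h2)
    omega
  -- no nesting for small classes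
  have hnest : ∀ F ∈ D.sm, ∀ G ∈ D.sm, F ≠ G → U.x F ≤ U.x G → U.y G ≤ U.y F → False := by
    intro F hF G hG hFG h1 h2
    obtain ⟨g, hg, h3, h4⟩ := U.str G
    have h5 := hin F g (by rw [hg]; exact fun h => hFG h.symm) (by omega) (by omega)
    have h6 := hD.len1 g
    rw [hg] at h6
    have h7 := (blkInt ι σ D hD).1 F G (U.q F) (U.q G) _ _ _ _ hFG (U.mat F) (U.mat G)
    unfold ilen at h7
    have h8 : 10 ^ 7 * D.w F ≤ D.o F := (Finset.mem_filter.mp hF).2
    have h9 : 10 ^ 7 * D.w G ≤ D.o G := (Finset.mem_filter.mp hG).2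
    have h10 := (hD.per F).pos
    omega
  refine ⟨hlen, ?_, ?_, hin⟩
  · intro F hF G hG hFG h1
    have h2 : U.y F < U.y G := by
      by_contra hcon
      exact hnest F hF G hG hFG h1 (by omega)
    have h3 : U.x F < U.x G := by
      by_contra hcon
      exact hnest G hG F hF (fun h => hFG h.symm) (by omega) (by omega)
    have h7 := (blkInt ι σ D hD).1 F G (U.q F) (U.q G) _ _ _ _ hFG (U.mat F) (U.mat G)
    unfold ilen at h7
    exact ⟨h3, h2, by omega⟩
  · intro F s hs h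
    obtain ⟨f, hf, h3, h4⟩ := U.str F
    have hne : s ≠ f := fun h => hs (by rw [h, hf])
    have := hD.nn s f hne (by omega)
    omega

/-- E6. -/
theorem blkLoc : BlkLoc := by
  intro ι σ _ _ _ D hD U F s hF hs h99
  have hFo : 10 ^ 7 * D.w F ≤ D.o F := (Finset.mem_filter.mp hF).2
  have hso := (Finset.mem_filter.mp hs).2
  have hne : D.cl s ≠ F := by
    intro h
    rw [h] at hso
    omega
  obtain ⟨hN1, -, hN3, -⟩ := blkNest ι σ D hD U
  have hu := hN1 F
  obtain ⟨q, hq⟩ := hD.occ s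
  have hwF := (hD.per F).pos
  unfold Us.si ilen at h99
  unfold Us.u at h99 hu ⊢
  obtain ⟨x0, hx0⟩ : ∃ x0, x0 = max (D.a s) (U.x F) := ⟨_, rfl⟩
  obtain ⟨y0, hy0⟩ : ∃ y0, y0 = min (D.b s) (U.y F) := ⟨_, rfl⟩
  obtain ⟨a, b, x, y, r, hQ, h1, h2, h3, h4, h5, h6⟩ := exists_PF
    (XC := D.X (D.cl s)) (XF := D.X F) (T := D.T) (wC := D.w (D.cl s)) (wF := D.w F)
    (oC := D.o (D.cl s)) (L := U.x F) (R := U.y F) (qU := U.q F) (q := q) (x0 := x0) (y0 := y0)
    (Q := fun a b => ∃ s', D.cl s' = D.cl s ∧ D.a s' = a ∧ D.b s' = b)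
    (hD.per _).pos (hD.per _).per hwF (hD.per _).per
    (fun ⟨r, hr⟩ => hD.dist _ _ hne ⟨r, hr⟩)
    (U.mat F).2.2 (by omega) (by omega) (by omega)
    (fun i hi1 hi2 => hq.2.2 i (by omega) (by omega))
    (by omega) (by omega) (by omega)
    (fun k => by
      obtain ⟨s', d, e1, e2, e3⟩ := hD.win (D.cl s) k
      exact ⟨D.a s', D.b s', d, ⟨s', e1, rfl, rfl⟩, e2, e3⟩)
    (fun a b ⟨s', e1, e2, e3⟩ h => by
      subst e2 e3
      exact hN3 F s' (by rw [e1]; exact hne) h)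
  obtain ⟨s', e1, e2, e3⟩ := hQ
  refine ⟨s', r, x, y, e1, ⟨h2, ?_, h5⟩, by omega, by omega, h4, h6⟩
  have := hD.bn s'
  omega

end Vale.Agent.P333.E
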