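import Vale.Agent.P333.E.LemmaE
import Vale.Agent.P333.E.Words
import Vale.Agent.P333.E.Chain
import Vale.Agent.P333.E.Serv
import Vale.Agent.P333.E.Far
import Vale.Agent.P333.E.Core7

/-!
P333, ratio below `7/3`: Lemma E.
-/

set_option autoImplicit false

namespace Vale.Agent.P333.E

/-- Lemma E. -/
theorem lemmaE : LemmaE :=
  lemmaE_of blkUex blkChain blkNest (blkServ blkNest) (blkFar blkNest) blkLoc
    (blkCore blkInt blkNest)

end Vale.Agent.P333.E
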