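import Mathlib

set_option autoImplicit false
set_option linter.all false

namespace Vale.Agent.P333.E

open Finset

/-- The numbers. Weights `w`, overlaps `o`, positive parts `p = (o - w)^+`, `q = (w - o)^+` of the
classes: outside of `rem` (1), discarded (2), buffers (3), inside a group (4), several groups (5),
very small (s), the others (t). -/
theorem num_real (n : ℝ) (hn : 0 < n)
    (w1 w2 w3 w4 w5 o1 o2 o3 o4 o5 p1 p2 p3 p4 p5 q1 q2 q3 q4 q5 ws os ps qs wt pt qt : ℝ)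
    (hw1 : 0 ≤ w1) (hw2 : 0 ≤ w2) (hw3 : 0 ≤ w3) (hw4 : 0 ≤ w4) (hw5 : 0 ≤ w5)
    (ho1 : 0 ≤ o1) (ho2 : 0 ≤ o2) (ho3 : 0 ≤ o3) (ho4 : 0 ≤ o4) (ho5 : 0 ≤ o5)
    (hp1 : 0 ≤ p1) (hp2 : 0 ≤ p2) (hp3 : 0 ≤ p3) (hp4 : 0 ≤ p4) (hp5 : 0 ≤ p5)
    (hq1 : 0 ≤ q1) (hq2 : 0 ≤ q2) (hq3 : 0 ≤ q3) (hq4 : 0 ≤ q4) (hq5 : 0 ≤ q5)
    (hws : 0 ≤ ws) (hos : 0 ≤ os) (hps : 0 ≤ ps) (hqs : 0 ≤ qs) (hwt : 0 ≤ wt) (hpt : 0 ≤ pt)
    (hqt : 0 ≤ qt)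
    (i1 : o1 + q1 = w1 + p1) (i2 : o2 + q2 = w2 + p2) (i3 : o3 + q3 = w3 + p3)
    (i4 : o4 + q4 = w4 + p4) (i5 : o5 + q5 = w5 + p5) (is : os + qs = ws + ps)
    (sw : ws + wt = w1 + w2 + w3 + w4 + w5) (sp : ps + pt = p1 + p2 + p3 + p4 + p5)
    (sq : qs + qt = q1 + q2 + q3 + q4 + q5)
    (hW : w1 + w2 + w3 + w4 + w5 ≤ n) (hP : p1 + p2 + p3 + p4 + p5 ≤ n)
    (hneg : (5 * 10 ^ 29 - 3) * (3 * 10 ^ 14 * n) +
        10 ^ 29 * (3 * (10 ^ 14 - 1) * (o2 + o3 + o4 + o5)) <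
      10 ^ 29 * (3 * (3 * 10 ^ 14) * (w1 + w2 + w3 + w4 + w5) +
        3 * (10 ^ 14 - 1) * (o1 + o2 + o3 + o4 + o5) + 3 * 10 ^ 14 * (o2 + o3 + o4 + o5)))
    (hx1 : w2 ≤ 2 * q2) (hx2 : o2 ≤ q2)
    (hD : (2 * 10 ^ 16 + 51) * (w3 + o3) ≤ 51 * (w3 + o3 + (w4 + o4) + (w5 + o5)))
    (hstar : 3 * 10 ^ 14 * (3 * 10 ^ 14) * (3 * 10 ^ 14 * w4 + (10 ^ 14 - 1) * o4 +
        2 * (10 ^ 14 - 1) * o5) ≤
      3 * 10 ^ 14 * ((3 * 10 ^ 14 + 1) * (3 * 10 ^ 14 + 1) * n))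
    (hs1 : 10 ^ 7 * ws ≤ os) (hs2 : o4 ≤ os + 10 ^ 7 * w4) :
    10 ^ 6 * ws ≤ n ∧ 10 ^ 6 * n ≤ 10 ^ 6 * os + n ∧ 10 ^ 6 * n ≤ 10 ^ 6 * wt + n ∧
      10 ^ 6 * pt ≤ n ∧ 10 ^ 6 * qt ≤ n := by
  -- first consequences
  have a1 : q1 + q2 + q3 + q4 + q5 ≤ 3 / 10 ^ 29 * n := by linarith
  have a2 : o1 ≤ 3 / 10 ^ 15 * n := by linarith
  have a3 : (1 - 1 / 10 ^ 28) * n ≤ w1 + w2 + w3 + w4 + w5 := by linarith
  have a4 : (2 - 1 / 10 ^ 27) * n ≤ o1 + o2 + o3 + o4 + o5 := by linarith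
  have a5 : w1 ≤ 4 / 10 ^ 15 * n := by linarith
  have a6 : w2 ≤ 1 / 10 ^ 27 * n := by linarith
  have a7 : o2 ≤ 1 / 10 ^ 27 * n := by linarith
  have a8 : w3 + o3 ≤ 8 / 10 ^ 15 * n := by linarith
  have a9 : (1 - 13 / 10 ^ 15) * n ≤ w4 + w5 := by linarith
  have a10 : (2 - 13 / 10 ^ 15) * n ≤ o4 + o5 := by linarith
  have a11 : (1 - 13 / 10 ^ 15) * n - w4 - 3 / 10 ^ 29 * n ≤ o5 := by linarith
  have b1 : 3 * w4 + (1 - 1 / 10 ^ 14) * o4 + 2 * (1 - 1 / 10 ^ 14) * o5 ≤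
      (3 + 3 / 10 ^ 14) * n := by linarith
  have b2 : w4 ≤ 6 / 10 ^ 14 * n := by linarith
  have b3 : (1 - 2 / 10 ^ 13) * n ≤ o4 := by linarith
  have c1 : (1 - 7 / 10 ^ 7) * n ≤ os := by linarith
  have c2 : os - ws ≤ n := by linarith
  have c3 : ws ≤ 2 / 10 ^ 7 * n := by linarith
  refine ⟨by linarith, by linarith, by linarith, by linarith, by linarith⟩

/-- The numbers, for natural numbers. -/
theorem num_nat (n : ℕ) (hn : 0 < n)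
    (w1 w2 w3 w4 w5 o1 o2 o3 o4 o5 p1 p2 p3 p4 p5 q1 q2 q3 q4 q5 ws os ps qs wt pt qt : ℕ)
    (i1 : o1 + q1 = w1 + p1) (i2 : o2 + q2 = w2 + p2) (i3 : o3 + q3 = w3 + p3)
    (i4 : o4 + q4 = w4 + p4) (i5 : o5 + q5 = w5 + p5) (is : os + qs = ws + ps)
    (sw : ws + wt = w1 + w2 + w3 + w4 + w5) (sp : ps + pt = p1 + p2 + p3 + p4 + p5)
    (sq : qs + qt = q1 + q2 + q3 + q4 + q5)
    (hW : w1 + w2 + w3 + w4 + w5 ≤ n) (hP : p1 + p2 + p3 + p4 + p5 ≤ n)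
    (hneg : (5 * 10 ^ 29 - 3) * (3 * 10 ^ 14 * n) +
        10 ^ 29 * (3 * (10 ^ 14 - 1) * (o2 + o3 + o4 + o5)) <
      10 ^ 29 * (3 * (3 * 10 ^ 14) * (w1 + w2 + w3 + w4 + w5) +
        3 * (10 ^ 14 - 1) * (o1 + o2 + o3 + o4 + o5) + 3 * 10 ^ 14 * (o2 + o3 + o4 + o5)))
    (hx1 : w2 ≤ 2 * q2) (hx2 : o2 ≤ q2)
    (hD : (2 * 10 ^ 16 + 51) * (w3 + o3) ≤ 51 * (w3 + o3 + (w4 + o4) + (w5 + o5)))
    (hstar : 3 * 10 ^ 14 * (3 * 10 ^ 14) * (3 * 10 ^ 14 * w4 + (10 ^ 14 - 1) * o4 +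
        2 * (10 ^ 14 - 1) * o5) ≤
      3 * 10 ^ 14 * ((3 * 10 ^ 14 + 1) * (3 * 10 ^ 14 + 1) * n))
    (hs1 : 10 ^ 7 * ws ≤ os) (hs2 : o4 ≤ os + 10 ^ 7 * w4) :
    10 ^ 6 * ws ≤ n ∧ 10 ^ 6 * n ≤ 10 ^ 6 * os + n ∧ 10 ^ 6 * n ≤ 10 ^ 6 * wt + n ∧
      10 ^ 6 * pt ≤ n ∧ 10 ^ 6 * qt ≤ n := by
  have key := num_real (n : ℝ) (by exact_mod_cast hn) w1 w2 w3 w4 w5 o1 o2 o3 o4 o5
    p1 p2 p3 p4 p5 q1 q2 q3 q4 q5 ws os ps qs wt pt qt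
    (Nat.cast_nonneg _) (Nat.cast_nonneg _) (Nat.cast_nonneg _) (Nat.cast_nonneg _)
    (Nat.cast_nonneg _) (Nat.cast_nonneg _) (Nat.cast_nonneg _) (Nat.cast_nonneg _)
    (Nat.cast_nonneg _) (Nat.cast_nonneg _) (Nat.cast_nonneg _) (Nat.cast_nonneg _)
    (Nat.cast_nonneg _) (Nat.cast_nonneg _) (Nat.cast_nonneg _) (Nat.cast_nonneg _)
    (Nat.cast_nonneg _) (Nat.cast_nonneg _) (Nat.cast_nonneg _) (Nat.cast_nonneg _)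
    (Nat.cast_nonneg _) (Nat.cast_nonneg _) (Nat.cast_nonneg _) (Nat.cast_nonneg _)
    (Nat.cast_nonneg _) (Nat.cast_nonneg _) (Nat.cast_nonneg _)
    (by exact_mod_cast i1) (by exact_mod_cast i2) (by exact_mod_cast i3)
    (by exact_mod_cast i4) (by exact_mod_cast i5) (by exact_mod_cast is)
    (by exact_mod_cast sw) (by exact_mod_cast sp) (by exact_mod_cast sq)
    (by exact_mod_cast hW) (by exact_mod_cast hP)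
    (by
      norm_num at hneg
      have h := (Nat.cast_lt (α := ℝ)).2 hneg
      push_cast at h
      linarith)
    (by exact_mod_cast hx1) (by exact_mod_cast hx2)
    (by
      have h := (Nat.cast_le (α := ℝ)).2 hD
      push_cast at h
      linarith)
    (by
      norm_num at hstar
      have h := (Nat.cast_le (α := ℝ)).2 hstar
      push_cast at h
      linarith)
    (by exact_mod_cast hs1) (by exact_mod_cast hs2)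
  exact_mod_cast key

/-- The numbers, for families of classes. -/
theorem num_fin {κ : Type} [DecidableEq κ] (LL rem Dc Ls Hs : Finset κ) (w o : κ → ℕ) (n : ℕ)
    (hn : 0 < n) (hrem : rem ⊆ LL) (hd1 : Disjoint Dc Ls) (hd2 : Disjoint Dc Hs)
    (hd3 : Disjoint Ls Hs) (hR : Dc ∪ Ls ∪ Hs = rem.filter fun c => w c ≤ 2 * o c)
    (hW : ∑ c ∈ LL, w c ≤ n) (hP : ∑ c ∈ LL, (o c - w c) ≤ n)
    (hneg : (5 * 10 ^ 29 - 3) * (3 * 10 ^ 14 * n) +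
        10 ^ 29 * (3 * (10 ^ 14 - 1) * ∑ c ∈ rem, o c) <
      10 ^ 29 * (3 * (3 * 10 ^ 14) * ∑ c ∈ LL, w c +
        3 * (10 ^ 14 - 1) * ∑ c ∈ LL, o c + 3 * 10 ^ 14 * ∑ c ∈ rem, o c))
    (hD : (2 * 10 ^ 16 + 51) * ∑ c ∈ Dc, (w c + o c) ≤
      51 * ∑ c ∈ rem.filter (fun c => w c ≤ 2 * o c), (w c + o c))
    (hstar : 3 * 10 ^ 14 * (3 * 10 ^ 14) * (3 * 10 ^ 14 * ∑ c ∈ Ls, w c +
        (10 ^ 14 - 1) * ∑ c ∈ Ls, o c + 2 * (10 ^ 14 - 1) * ∑ c ∈ Hs, o c) ≤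
      3 * 10 ^ 14 * ((3 * 10 ^ 14 + 1) * (3 * 10 ^ 14 + 1) * n)) :
    10 ^ 6 * ∑ c ∈ LL.filter (fun c => 10 ^ 7 * w c ≤ o c), w c ≤ n ∧
    10 ^ 6 * n ≤ 10 ^ 6 * ∑ c ∈ LL.filter (fun c => 10 ^ 7 * w c ≤ o c), o c + n ∧
    10 ^ 6 * n ≤ 10 ^ 6 * ∑ c ∈ LL.filter (fun c => ¬ 10 ^ 7 * w c ≤ o c), w c + n ∧
    10 ^ 6 * ∑ c ∈ LL.filter (fun c => ¬ 10 ^ 7 * w c ≤ o c), (o c - w c) ≤ n ∧
    10 ^ 6 * ∑ c ∈ LL.filter (fun c => ¬ 10 ^ 7 * w c ≤ o c), (w c - o c) ≤ n := by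
  have hDLH : ∀ g : κ → ℕ, ∑ c ∈ rem.filter (fun c => w c ≤ 2 * o c), g c =
      ∑ c ∈ Dc, g c + ∑ c ∈ Ls, g c + ∑ c ∈ Hs, g c := by
    intro g
    rw [← hR, Finset.sum_union (Finset.disjoint_union_left.2 ⟨hd2, hd3⟩),
      Finset.sum_union hd1]
  have hrs : ∀ g : κ → ℕ, ∑ c ∈ rem, g c =
      ∑ c ∈ rem.filter (fun c => ¬ w c ≤ 2 * o c), g c + ∑ c ∈ Dc, g c + ∑ c ∈ Ls, g c +
        ∑ c ∈ Hs, g c := by
    intro g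
    rw [← Finset.sum_filter_add_sum_filter_not rem (fun c => w c ≤ 2 * o c) g, hDLH g]
    ring
  have hls : ∀ g : κ → ℕ, ∑ c ∈ LL, g c = ∑ c ∈ LL \ rem, g c +
      ∑ c ∈ rem.filter (fun c => ¬ w c ≤ 2 * o c), g c + ∑ c ∈ Dc, g c + ∑ c ∈ Ls, g c +
        ∑ c ∈ Hs, g c := by
    intro g
    rw [← Finset.sum_sdiff hrem, hrs g]
    ring
  have hst : ∀ g : κ → ℕ, ∑ c ∈ LL.filter (fun c => 10 ^ 7 * w c ≤ o c), g c +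
      ∑ c ∈ LL.filter (fun c => ¬ 10 ^ 7 * w c ≤ o c), g c = ∑ c ∈ LL, g c := fun g =>
    Finset.sum_filter_add_sum_filter_not LL (fun c => 10 ^ 7 * w c ≤ o c) g
  have hid : ∀ X : Finset κ, ∑ c ∈ X, o c + ∑ c ∈ X, (w c - o c) =
      ∑ c ∈ X, w c + ∑ c ∈ X, (o c - w c) := by
    intro X
    rw [← Finset.sum_add_distrib, ← Finset.sum_add_distrib]
    exact Finset.sum_congr rfl fun c _ => by omega
  have hLsL : Ls ⊆ LL := by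
    intro c hc
    have : c ∈ rem.filter fun c => w c ≤ 2 * o c := by
      rw [← hR]
      exact Finset.mem_union_left _ (Finset.mem_union_right _ hc)
    exact hrem (Finset.mem_filter.1 this).1
  refine num_nat n hn
    (∑ c ∈ LL \ rem, w c) (∑ c ∈ rem.filter (fun c => ¬ w c ≤ 2 * o c), w c)
    (∑ c ∈ Dc, w c) (∑ c ∈ Ls, w c) (∑ c ∈ Hs, w c)
    (∑ c ∈ LL \ rem, o c) (∑ c ∈ rem.filter (fun c => ¬ w c ≤ 2 * o c), o c)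
    (∑ c ∈ Dc, o c) (∑ c ∈ Ls, o c) (∑ c ∈ Hs, o c)
    (∑ c ∈ LL \ rem, (o c - w c)) (∑ c ∈ rem.filter (fun c => ¬ w c ≤ 2 * o c), (o c - w c))
    (∑ c ∈ Dc, (o c - w c)) (∑ c ∈ Ls, (o c - w c)) (∑ c ∈ Hs, (o c - w c))
    (∑ c ∈ LL \ rem, (w c - o c)) (∑ c ∈ rem.filter (fun c => ¬ w c ≤ 2 * o c), (w c - o c))
    (∑ c ∈ Dc, (w c - o c)) (∑ c ∈ Ls, (w c - o c)) (∑ c ∈ Hs, (w c - o c))
    (∑ c ∈ LL.filter (fun c => 10 ^ 7 * w c ≤ o c), w c)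
    (∑ c ∈ LL.filter (fun c => 10 ^ 7 * w c ≤ o c), o c)
    (∑ c ∈ LL.filter (fun c => 10 ^ 7 * w c ≤ o c), (o c - w c))
    (∑ c ∈ LL.filter (fun c => 10 ^ 7 * w c ≤ o c), (w c - o c))
    (∑ c ∈ LL.filter (fun c => ¬ 10 ^ 7 * w c ≤ o c), w c)
    (∑ c ∈ LL.filter (fun c => ¬ 10 ^ 7 * w c ≤ o c), (o c - w c))
    (∑ c ∈ LL.filter (fun c => ¬ 10 ^ 7 * w c ≤ o c), (w c - o c))
    (hid _) (hid _) (hid _) (hid _) (hid _) (hid _)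
    ?_ ?_ ?_ ?_ ?_ ?_ ?_ ?_ ?_ hstar ?_ ?_
  · rw [hst (fun c => w c), hls]
  · rw [hst (fun c => o c - w c), hls]
  · rw [hst (fun c => w c - o c), hls]
  · rw [← hls]; exact hW
  · rw [← hls (fun c => o c - w c)]; exact hP
  · rw [← hls, ← hls, ← hrs]; exact hneg
  · rw [Finset.mul_sum]
    refine Finset.sum_le_sum fun c hc => ?_
    have := (Finset.mem_filter.1 hc).2
    omega
  · refine Finset.sum_le_sum fun c hc => ?_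
    have := (Finset.mem_filter.1 hc).2
    omega
  · rw [← Finset.sum_add_distrib, ← Finset.sum_add_distrib, ← Finset.sum_add_distrib,
      ← hDLH (fun c => w c + o c)]
    exact hD
  · rw [Finset.mul_sum]
    exact Finset.sum_le_sum fun c hc => (Finset.mem_filter.1 hc).2
  · have h1 : ∑ c ∈ Ls, o c ≤
        ∑ c ∈ Ls, ((if 10 ^ 7 * w c ≤ o c then o c else 0) + 10 ^ 7 * w c) := by
      refine Finset.sum_le_sum fun c _ => ?_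
      split_ifs with h
      · omega
      · omega
    rw [Finset.sum_add_distrib, ← Finset.mul_sum] at h1
    have h2 : ∑ c ∈ Ls, (if 10 ^ 7 * w c ≤ o c then o c else 0) ≤
        ∑ c ∈ LL, (if 10 ^ 7 * w c ≤ o c then o c else 0) :=
      Finset.sum_le_sum_of_subset hLsL
    rw [← Finset.sum_filter] at h2
    rw [← Finset.sum_filter] at h2
    have h3 : ∑ c ∈ Ls, (if 10 ^ 7 * w c ≤ o c then o c else 0) =
        ∑ c ∈ Ls.filter (fun c => 10 ^ 7 * w c ≤ o c), o c := by rw [Finset.sum_filter]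
    omega

end Vale.Agent.P333.E
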