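import Mathlib

/-!
P333, ratio below 7/3: decomposition of a superstring into scale blocks and segments.
-/

namespace Vale.Agent.P333.H368

open Finset

/-- `s` occurs in `Z` at `a`. -/
def OccZ (Z : ℕ → ℕ) (s : List ℕ) (a : ℕ) : Prop := ∀ i (hi : i < s.length), s[i] = Z (a + i)

/-- Set of the positions covered by the strings of `B`. -/
def Un (a : List ℕ → ℕ) (B : Finset (List ℕ)) : Finset ℕ :=
  B.biUnion fun s => Ico (a s) (a s + s.length)

theorem mem_Un {a : List ℕ → ℕ} {B : Finset (List ℕ)} {p : ℕ} :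
    p ∈ Un a B ↔ ∃ s ∈ B, a s ≤ p ∧ p < a s + s.length := by
  simp [Un]

theorem Un_mono {a : List ℕ → ℕ} {B C : Finset (List ℕ)} (h : B ⊆ C) : Un a B ⊆ Un a C :=
  Finset.biUnion_subset_biUnion_of_subset_left _ h

/-- The restriction of `Z` to the positions of `U`. -/
def txt (Z : ℕ → ℕ) (U : Finset ℕ) : List ℕ := (U.sort (· ≤ ·)).map Z

theorem length_txt (Z : ℕ → ℕ) (U : Finset ℕ) : (txt Z U).length = U.card := by
  simp [txt]

theorem txt_union (Z : ℕ → ℕ) {U V : Finset ℕ} (h : ∀ x ∈ U, ∀ y ∈ V, x < y) :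
    txt Z (U ∪ V) = txt Z U ++ txt Z V := by
  classical
  unfold txt
  rw [← List.map_append]
  congr 1
  have hnd : (U.sort (· ≤ ·) ++ V.sort (· ≤ ·)).Nodup := by
    refine List.Nodup.append (Finset.sort_nodup _ _) (Finset.sort_nodup _ _) ?_
    intro x hx hy
    rw [Finset.mem_sort] at hx hy
    exact lt_irrefl _ (h x hx x hy)
  have hp : ((U ∪ V).sort (· ≤ ·)).Perm (U.sort (· ≤ ·) ++ V.sort (· ≤ ·)) := by
    rw [List.perm_ext_iff_of_nodup (Finset.sort_nodup _ _) hnd]
    intro x
    simp
  refine hp.eq_of_pairwise (le := fun a b : ℕ => a ≤ b) ?_ ?_ ?_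
  · intro x y _ _ h1 h2
    exact le_antisymm h1 h2
  · exact Finset.pairwise_sort _ _
  · rw [List.pairwise_append]
    refine ⟨Finset.pairwise_sort _ _, Finset.pairwise_sort _ _, ?_⟩
    intro x hx y hy
    rw [Finset.mem_sort] at hx hy
    exact (h x hx y hy).le

theorem sort_Ico (a b : ℕ) : (Ico a b).sort (· ≤ ·) = List.range' a (b - a) := by
  have h1 : Ico a b = (List.range' a (b - a)).toFinset := by
    ext x
    simp only [mem_Ico, List.mem_toFinset, List.mem_range'_1]
    omega
  rw [h1]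
  exact (List.toFinset_sort (r := (· ≤ ·)) List.nodup_range').2 (List.pairwise_le_range' _)

theorem txt_Ico (Z : ℕ → ℕ) {s : List ℕ} {a : ℕ} (hs : OccZ Z s a) (k : ℕ) :
    txt Z (Ico (a + k) (a + s.length)) = s.drop k := by
  unfold txt
  rw [sort_Ico]
  apply List.ext_getElem
  · simp
    omega
  · intro i h1 h2
    simp only [List.length_map, List.length_range'] at h1
    rw [List.getElem_map, List.getElem_drop, hs (k + i) (by omega), List.getElem_range']
    congr 1
    omega

/-- A string whose positions are in `U` is contained in the text of `U`. -/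
theorem infix_txt {Z : ℕ → ℕ} {s : List ℕ} {a : ℕ} (hs : OccZ Z s a) {U : Finset ℕ}
    (hU : Ico a (a + s.length) ⊆ U) : s <:+: txt Z U := by
  classical
  have h1 : U = (U.filter (fun x => x < a) ∪ Ico a (a + s.length)) ∪
      U.filter (fun x => a + s.length ≤ x) := by
    ext x
    simp only [mem_union, mem_filter, mem_Ico]
    constructor
    · intro hx
      by_cases h1 : x < a
      · exact Or.inl (Or.inl ⟨hx, h1⟩)
      · by_cases h2 : x < a + s.length
        · exact Or.inl (Or.inr ⟨by omega, h2⟩)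
        · exact Or.inr ⟨hx, by omega⟩
    · rintro ((h | h) | h)
      · exact h.1
      · exact hU (mem_Ico.2 h)
      · exact h.1
  have h2 := txt_Ico Z hs 0
  rw [Nat.add_zero, List.drop_zero] at h2
  rw [h1, txt_union, txt_union, h2]
  · exact ⟨_, _, rfl⟩
  · intro x hx y hy
    simp only [mem_filter, mem_Ico] at hx hy
    omega
  · intro x hx y hy
    simp only [mem_union, mem_filter, mem_Ico] at hx hy
    omega

/-- Positions of a family of strings, none of which is contained in another one. -/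
structure Pos (Z : ℕ → ℕ) (a : List ℕ → ℕ) (B : Finset (List ℕ)) : Prop where
  occ : ∀ s ∈ B, OccZ Z s (a s)
  inj : ∀ s ∈ B, ∀ t ∈ B, a s = a t → s = t
  mono : ∀ s ∈ B, ∀ t ∈ B, a s < a t → a s + s.length < a t + t.length

theorem Pos.subset {Z : ℕ → ℕ} {a : List ℕ → ℕ} {B C : Finset (List ℕ)} (h : Pos Z a C)
    (hB : B ⊆ C) : Pos Z a B where
  occ := fun s hs => h.occ s (hB hs)
  inj := fun s hs t ht => h.inj s (hB hs) t (hB ht)
  mono := fun s hs t ht => h.mono s (hB hs) t (hB ht)

theorem Pos.mono_le {Z : ℕ → ℕ} {a : List ℕ → ℕ} {B : Finset (List ℕ)} (h : Pos Z a B)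
    {s t : List ℕ} (hs : s ∈ B) (ht : t ∈ B) (hst : a s ≤ a t) :
    a s + s.length ≤ a t + t.length := by
  rcases hst.lt_or_eq with h1 | h1
  · exact (h.mono s hs t ht h1).le
  · rw [h.inj s hs t ht h1]

/-- The relation `P` is preserved by glueing the strings of `B`. -/
def GlueP (B : Finset (List ℕ)) (P : ℕ → List ℕ → Prop) : Prop :=
  P 0 [] ∧ ∀ m G s k, P m G → s ∈ B → k ≤ G.length → k ≤ s.length →
    G.drop (G.length - k) = s.take k → P (m + 1) (G ++ s.drop k)

/-- The text of the union is glued from the strings. -/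
theorem txt_Un {Z : ℕ → ℕ} {a : List ℕ → ℕ} {P : ℕ → List ℕ → Prop} {S : Finset (List ℕ)}
    (hP : GlueP S P) (B : Finset (List ℕ)) (hB : Pos Z a B) (hBS : B ⊆ S) :
    P B.card (txt Z (Un a B)) := by
  classical
  induction B using Finset.induction_on_max_value a with
  | empty => simpa [Un, txt] using hP.1
  | insert s B hsB hmax ih =>
    have hP1 := ih (hB.subset (Finset.subset_insert _ _)) ((Finset.subset_insert _ _).trans hBS)
    set e := B.sup (fun t => a t + t.length) with he
    have hle : ∀ t ∈ B, a t + t.length ≤ e := fun t ht =>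
      Finset.le_sup (f := fun t => a t + t.length) ht
    have hs : s ∈ insert s B := Finset.mem_insert_self _ _
    have hes : e ≤ a s + s.length := by
      rw [he]
      refine Finset.sup_le fun t ht => ?_
      exact hB.mono_le (Finset.mem_insert_of_mem ht) hs (hmax t ht)
    -- every position of the new string which is smaller than `e` is covered
    have hcov : ∀ p, a s ≤ p → p < e → p ∈ Un a B := by
      intro p h1 h2
      rw [he, Finset.lt_sup_iff] at h2
      obtain ⟨t, ht, h3⟩ := h2
      exact mem_Un.2 ⟨t, ht, by have := hmax t ht; omega, h3⟩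
    have hlt : ∀ p ∈ Un a B, p < e := by
      intro p hp
      obtain ⟨t, ht, h1, h2⟩ := mem_Un.1 hp
      have := hle t ht
      omega
    have hun : Un a (insert s B) = Un a B ∪ Ico (a s + (e - a s)) (a s + s.length) := by
      ext p
      rw [mem_union, mem_Ico, mem_Un]
      constructor
      · rintro ⟨t, ht, h1, h2⟩
        rcases Finset.mem_insert.1 ht with rfl | ht
        · by_cases h3 : p < e
          · exact Or.inl (hcov p h1 h3)
          · exact Or.inr ⟨by omega, h2⟩
        · exact Or.inl (mem_Un.2 ⟨t, ht, h1, h2⟩)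
      · rintro (h | h)
        · obtain ⟨t, ht, h1, h2⟩ := mem_Un.1 h
          exact ⟨t, Finset.mem_insert_of_mem ht, h1, h2⟩
        · exact ⟨s, hs, by omega, h.2⟩
    -- the end of the text
    have hdec : Un a B = (Un a B).filter (fun p => p < a s) ∪ Ico (a s) (a s + (e - a s)) := by
      ext p
      rw [mem_union, mem_filter, mem_Ico]
      constructor
      · intro hp
        by_cases h : p < a s
        · exact Or.inl ⟨hp, h⟩
        · have := hlt p hp
          exact Or.inr ⟨by omega, by omega⟩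
      · rintro (h | h)
        · exact h.1
        · exact hcov p h.1 (by omega)
    have htxt : txt Z (Un a B) = txt Z ((Un a B).filter (fun p => p < a s)) ++
        s.take (e - a s) := by
      conv_lhs => rw [hdec]
      rw [txt_union]
      · congr 1
        have hocc : OccZ Z (s.take (e - a s)) (a s) := by
          intro i hi
          rw [List.getElem_take]
          exact hB.occ s hs i _
        have h1 := txt_Ico Z hocc 0
        rw [List.drop_zero, Nat.add_zero, List.length_take,
          min_eq_left (show e - a s ≤ s.length by omega)] at h1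
        exact h1
      · intro x hx y hy
        rw [mem_filter] at hx
        rw [mem_Ico] at hy
        omega
    have hnew : txt Z (Un a (insert s B)) = txt Z (Un a B) ++ s.drop (e - a s) := by
      rw [hun, txt_union]
      · rw [txt_Ico Z (hB.occ s hs)]
      · intro x hx y hy
        have := hlt x hx
        rw [mem_Ico] at hy
        omega
    rw [Finset.card_insert_of_notMem hsB, hnew]
    have hk : (s.take (e - a s)).length = e - a s := by
      rw [List.length_take]
      omega
    refine hP.2 _ _ _ _ hP1 (hBS hs) ?_ (by omega) ?_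
    · rw [htxt, List.length_append, hk]
      omega
    · rw [htxt, List.length_append, hk, Nat.add_sub_cancel, List.drop_left]

/-- The strings starting in `N` cells of length `l`: at most `2 N` of them are sufficient to cover
the union, if all of them have length at least `l`. -/
theorem subcover {Z : ℕ → ℕ} {a : List ℕ → ℕ} (B : Finset (List ℕ)) (hB : Pos Z a B) (l N y : ℕ)
    (hl : ∀ s ∈ B, l ≤ s.length) (hy : ∀ s ∈ B, y ≤ a s ∧ a s < y + N * l) :
    ∃ C ⊆ B, C.card ≤ 2 * N ∧ Un a C = Un a B := by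
  classical
  -- cells
  set cell : ℕ → Finset (List ℕ) := fun j => B.filter (fun s => (a s - y) / l = j) with hcell
  have hmc : ∀ j s, s ∈ cell j ↔ s ∈ B ∧ (a s - y) / l = j := fun j s => by
    simp only [hcell, mem_filter]
  have key : ∀ j, ∃ C ⊆ B, C.card ≤ 2 ∧ Un a (cell j) ⊆ Un a C := by
    intro j
    by_cases hne : (cell j).Nonempty
    · obtain ⟨s, hs, hsm⟩ := Finset.exists_min_image (cell j) a hne
      obtain ⟨t, ht, htm⟩ := Finset.exists_max_image (cell j) a hne
      refine ⟨{s, t}, ?_, Finset.card_le_two, ?_⟩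
      · intro u hu
        rw [Finset.mem_insert, Finset.mem_singleton] at hu
        rcases hu with rfl | rfl
        · exact ((hmc _ _).1 hs).1
        · exact ((hmc _ _).1 ht).1
      · intro p hp
        obtain ⟨u, hu, h1, h2⟩ := mem_Un.1 hp
        have hs' := (hmc _ _).1 hs
        have ht' := (hmc _ _).1 ht
        have hu' := (hmc _ _).1 hu
        have h3 := hsm u hu
        have h4 := htm u hu
        have h5 := hB.mono_le hu'.1 ht'.1 h4
        have h6 := hl s hs'.1
        rw [mem_Un]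
        by_cases h7 : p < a s + s.length
        · exact ⟨s, by simp, by omega, h7⟩
        · refine ⟨t, by simp, ?_, by omega⟩
          have h8 := (hy s hs'.1).1
          have h9 := (hy t ht'.1).1
          rcases Nat.eq_zero_or_pos l with h0 | h0
          · have := (hy s hs'.1).2
            rw [h0] at this
            omega
          · have e1 := Nat.div_add_mod (a s - y) l
            have e2 := Nat.div_add_mod (a t - y) l
            have e3 := Nat.mod_lt (a s - y) h0
            have e4 := Nat.mod_lt (a t - y) h0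
            rw [hs'.2] at e1
            rw [ht'.2] at e2
            omega
    · refine ⟨∅, by simp, by simp, ?_⟩
      rw [Finset.not_nonempty_iff_eq_empty.1 hne]
  choose C hC1 hC2 hC3 using key
  refine ⟨(Finset.range N).biUnion C, ?_, ?_, ?_⟩
  · exact Finset.biUnion_subset.2 fun j _ => hC1 j
  · refine Finset.card_biUnion_le.trans ?_
    refine (Finset.sum_le_card_nsmul _ _ 2 fun j _ => hC2 j).trans ?_
    simp [Nat.mul_comm]
  · apply Finset.Subset.antisymm
    · exact Un_mono (Finset.biUnion_subset.2 fun j _ => hC1 j)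
    · intro p hp
      obtain ⟨s, hs, h1, h2⟩ := mem_Un.1 hp
      have h3 := hy s hs
      have hj : (a s - y) / l < N := by
        rcases Nat.eq_zero_or_pos l with h0 | h0
        · rw [h0] at h3
          omega
        · rw [Nat.div_lt_iff_lt_mul h0]
          omega
      have h4 := hC3 _ (mem_Un.2 ⟨s, (hmc ((a s - y) / l) s).2 ⟨hs, rfl⟩, h1, h2⟩)
      exact Un_mono (Finset.subset_biUnion_of_mem C (Finset.mem_range.2 hj)) h4

/-- The text of the strings starting in a segment. -/
theorem segment_text {Z : ℕ → ℕ} {a : List ℕ → ℕ} {P : ℕ → List ℕ → Prop} {S : Finset (List ℕ)}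
    (hP : GlueP S P) (B : Finset (List ℕ)) (hB : Pos Z a B) (hBS : B ⊆ S)
    (l N y : ℕ) (hl : ∀ s ∈ B, l ≤ s.length) (hy : ∀ s ∈ B, y ≤ a s ∧ a s < y + N * l) :
    ∃ m G, m ≤ 2 * N ∧ P m G ∧ G.length = (Un a B).card ∧ ∀ s ∈ B, s <:+: G := by
  obtain ⟨C, hC1, hC2, hC3⟩ := subcover B hB l N y hl hy
  refine ⟨_, _, hC2, txt_Un hP C (hB.subset hC1) (hC1.trans hBS), ?_, ?_⟩
  · rw [length_txt, hC3]
  · intro s hs
    rw [hC3]
    refine infix_txt (hB.occ s hs) ?_
    exact Finset.subset_biUnion_of_mem (fun s => Ico (a s) (a s + s.length)) hs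

/-- Averaging over the shifts of the segments. -/
theorem exists_shift (a : List ℕ → ℕ) (B : Finset (List ℕ)) (L H K : ℕ) (hL : 0 < L)
    (hH : ∀ s ∈ B, s.length ≤ H) :
    ∃ x < L, L * ∑ g ∈ range K, (Un a (B.filter fun s => (a s + x) / L = g)).card ≤
      (L + H) * (Un a B).card := by
  classical
  set U := Un a B with hU
  set V : ℕ × ℕ → Finset ℕ := fun e => Un a (B.filter fun s => (a s + e.1) / L = e.2) with hV
  have hVU : ∀ e, V e ⊆ U := fun e => Un_mono (Finset.filter_subset _ _)
  have hcount : ∀ p ∈ U, ((range L ×ˢ range K).filter fun e => p ∈ V e).card ≤ L + H := by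
    intro p _
    have h1 : ((range L ×ˢ range K).filter fun e => p ∈ V e).card ≤
        (Ioc (p - H) (p + L)).card := by
      refine Finset.card_le_card_of_injOn (fun e => e.2 * L + (L - e.1)) ?_ ?_
      · rintro ⟨x, g⟩ he
        simp only [coe_filter, mem_product, mem_range, Set.mem_ofPred_eq] at he
        obtain ⟨⟨hx, hg⟩, hp⟩ := he
        obtain ⟨s, hs, h1, h2⟩ := mem_Un.1 hp
        rw [mem_filter] at hs
        obtain ⟨hs, h3⟩ := hs
        have h4 := hH s hs
        have h5 := Nat.div_add_mod (a s + x) L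
        have h6 := Nat.mod_lt (a s + x) hL
        simp only at h3
        rw [h3, Nat.mul_comm] at h5
        simp only [coe_Ioc, Set.mem_Ioc]
        omega
      · rintro ⟨x, g⟩ he ⟨x', g'⟩ he' heq
        simp only [coe_filter, mem_product, mem_range, Set.mem_ofPred_eq] at he he'
        have hx := he.1.1
        have hx' := he'.1.1
        simp only at heq
        have e1 : (L - x - 1 + L * g) / L = g := by
          rw [Nat.add_mul_div_left _ _ hL, Nat.div_eq_of_lt (by omega), Nat.zero_add]
        have e2 : (L - x' - 1 + L * g') / L = g' := by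
          rw [Nat.add_mul_div_left _ _ hL, Nat.div_eq_of_lt (by omega), Nat.zero_add]
        have e3 : L - x - 1 + L * g = L - x' - 1 + L * g' := by
          rw [Nat.mul_comm L g, Nat.mul_comm L g']
          omega
        rw [e3] at e1
        have hg : g = g' := e1.symm.trans e2
        subst hg
        have : x = x' := by omega
        rw [this]
    refine h1.trans ?_
    rw [Nat.card_Ioc]
    omega
  have hsum : ∑ x ∈ range L, ∑ g ∈ range K, (V (x, g)).card ≤ (L + H) * U.card := by
    rw [← Finset.sum_product' (range L) (range K) (fun x g => (V (x, g)).card)]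
    have h1 : ∀ e ∈ range L ×ˢ range K, (V (e.1, e.2)).card =
        ∑ p ∈ U, if p ∈ V e then 1 else 0 := by
      intro e _
      rw [← Finset.card_filter]
      congr 1
      ext p
      rw [mem_filter]
      exact ⟨fun h => ⟨hVU e h, h⟩, fun h => h.2⟩
    rw [Finset.sum_congr rfl h1, Finset.sum_comm]
    calc ∑ p ∈ U, ∑ e ∈ range L ×ˢ range K, (if p ∈ V e then 1 else 0)
        = ∑ p ∈ U, ((range L ×ˢ range K).filter fun e => p ∈ V e).card := by
          refine Finset.sum_congr rfl fun p _ => ?_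
          rw [Finset.card_filter]
      _ ≤ ∑ _p ∈ U, (L + H) := Finset.sum_le_sum hcount
      _ = (L + H) * U.card := by rw [Finset.sum_const, smul_eq_mul, Nat.mul_comm]
  by_contra hcon
  push Not at hcon
  have h2 : ∑ _x ∈ range L, (L + H) * U.card < ∑ x ∈ range L, L * ∑ g ∈ range K, (V (x, g)).card := by
    refine Finset.sum_lt_sum_of_nonempty ⟨0, mem_range.2 hL⟩ ?_
    intro x hx
    exact hcon x (mem_range.1 hx)
  rw [Finset.sum_const, card_range, smul_eq_mul, ← Finset.mul_sum] at h2
  exact absurd (Nat.mul_le_mul_left L hsum) (not_le.2 h2)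

theorem card_zones {α : Type*} [DecidableEq α] (C : Finset α) (f : α → ℕ) (k : ℕ) (U : Finset ℕ)
    (h1 : ∀ s ∈ C, Ico (f s) (f s + k) ⊆ U)
    (h2 : ∀ s ∈ C, ∀ t ∈ C, s ≠ t → f s + k ≤ f t ∨ f t + k ≤ f s) : k * C.card ≤ U.card := by
  have h3 : (C.biUnion fun s => Ico (f s) (f s + k)).card = ∑ s ∈ C, k := by
    rw [Finset.card_biUnion]
    · refine Finset.sum_congr rfl fun s _ => ?_
      rw [Nat.card_Ico]
      omega
    · intro s hs t ht hst
      refine Finset.disjoint_left.2 fun x hx hx' => ?_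
      rw [mem_Ico] at hx hx'
      rcases h2 s hs t ht hst with h | h <;> omega
  rw [Finset.sum_const, smul_eq_mul, Nat.mul_comm] at h3
  rw [← h3]
  exact Finset.card_le_card (Finset.biUnion_subset.2 h1)

/-- Short strings meet the union of the long strings only near few ends. -/
theorem sep {Z : ℕ → ℕ} {a : List ℕ → ℕ} (V W : Finset (List ℕ)) (m l : ℕ)
    (hpos : Pos Z a (V ∪ W)) (hV : ∀ t ∈ V, l ≤ t.length) (hW : ∀ s ∈ W, s.length ≤ m)
    (hml : m < l) : (l - m) * (Un a V ∩ Un a W).card ≤ 2 * m * (Un a V).card := by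
  classical
  have hVs : ∀ s ∈ V, s ∈ V ∪ W := fun s hs => mem_union_left _ hs
  have hWs : ∀ s ∈ W, s ∈ V ∪ W := fun s hs => mem_union_right _ hs
  have hne : ∀ s ∈ V, ∀ t ∈ W, a s ≠ a t := by
    intro s hs t ht h
    have := hpos.inj s (hVs s hs) t (hWs t ht) h
    subst this
    have h1 := hV s hs
    have h2 := hW s ht
    omega
  set RB := V.filter fun s => ∃ t ∈ W, a s < a t ∧ ∀ s' ∈ V, a s < a s' → a t < a s' with hRB
  set LB := V.filter fun s => ∃ t ∈ W, a t < a s ∧ ∀ s' ∈ V, a s' < a s → a s' < a t with hLB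
  have hR : (l - m) * RB.card ≤ (Un a V).card := by
    refine card_zones RB (fun s => a s + s.length - (l - m)) (l - m) (Un a V) ?_ ?_
    · intro s hs x hx
      rw [hRB, mem_filter] at hs
      rw [mem_Ico] at hx
      have := hV s hs.1
      exact mem_Un.2 ⟨s, hs.1, by omega, by omega⟩
    · have key : ∀ s ∈ RB, ∀ s' ∈ RB, a s < a s' →
          a s + s.length - (l - m) + (l - m) ≤ a s' + s'.length - (l - m) := by
        intro s hs s' hs' hss
        rw [hRB, mem_filter] at hs hs'
        obtain ⟨hs, t, ht, h1, h2⟩ := hs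
        have h3 := h2 s' hs'.1 hss
        have h4 := hpos.mono s (hVs s hs) t (hWs t ht) h1
        have h5 := hW t ht
        have h6 := hV s hs
        have h7 := hV s' hs'.1
        omega
      intro s hs s' hs' hss
      rcases lt_trichotomy (a s) (a s') with h | h | h
      · exact Or.inl (key s hs s' hs' h)
      · exact absurd (hpos.inj s (hVs s (mem_filter.1 hs).1) s' (hVs s' (mem_filter.1 hs').1) h) hss
      · exact Or.inr (key s' hs' s hs h)
  have hL : (l - m) * LB.card ≤ (Un a V).card := by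
    refine card_zones LB a (l - m) (Un a V) ?_ ?_
    · intro s hs x hx
      rw [hLB, mem_filter] at hs
      rw [mem_Ico] at hx
      have := hV s hs.1
      exact mem_Un.2 ⟨s, hs.1, by omega, by omega⟩
    · have key : ∀ s ∈ LB, ∀ s' ∈ LB, a s < a s' → a s + (l - m) ≤ a s' := by
        intro s hs s' hs' hss
        rw [hLB, mem_filter] at hs hs'
        obtain ⟨hs', t, ht, h1, h2⟩ := hs'
        have h3 := h2 s hs.1 hss
        have h4 := hpos.mono s (hVs s hs.1) t (hWs t ht) h3
        have h5 := hW t ht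
        have h6 := hV s hs.1
        omega
      intro s hs s' hs' hss
      rcases lt_trichotomy (a s) (a s') with h | h | h
      · exact Or.inl (key s hs s' hs' h)
      · exact absurd (hpos.inj s (hVs s (mem_filter.1 hs).1) s' (hVs s' (mem_filter.1 hs').1) h) hss
      · exact Or.inr (key s' hs' s hs h)
  have hsub : Un a V ∩ Un a W ⊆
      (RB.biUnion fun s => Ico (a s + s.length - m) (a s + s.length)) ∪
      LB.biUnion fun s => Ico (a s) (a s + m) := by
    intro p hp
    rw [mem_inter] at hp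
    obtain ⟨s, hs, hs1, hs2⟩ := mem_Un.1 hp.1
    obtain ⟨t, ht, ht1, ht2⟩ := mem_Un.1 hp.2
    rw [mem_union, mem_biUnion, mem_biUnion]
    have htm := hW t ht
    rcases lt_or_gt_of_ne (hne s hs t ht) with h | h
    · left
      obtain ⟨r, hr, hrm⟩ := Finset.exists_max_image (V.filter fun s => a s < a t) a
        ⟨s, mem_filter.2 ⟨hs, h⟩⟩
      have hr' := mem_filter.1 hr
      refine ⟨r, ?_, ?_⟩
      · rw [hRB, mem_filter]
        refine ⟨hr'.1, t, ht, hr'.2, fun s' hs' h1 => ?_⟩
        by_contra h2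
        have h3 := hrm s' (mem_filter.2 ⟨hs', lt_of_le_of_ne (not_lt.1 h2) (hne s' hs' t ht)⟩)
        omega
      · have h1 := hrm s (mem_filter.2 ⟨hs, h⟩)
        have h2 := hpos.mono_le (hVs s hs) (hVs r hr'.1) h1
        have h3 := hpos.mono r (hVs r hr'.1) t (hWs t ht) hr'.2
        rw [mem_Ico]
        omega
    · right
      obtain ⟨r, hr, hrm⟩ := Finset.exists_min_image (V.filter fun s => a t < a s) a
        ⟨s, mem_filter.2 ⟨hs, h⟩⟩
      have hr' := mem_filter.1 hr
      refine ⟨r, ?_, ?_⟩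
      · rw [hLB, mem_filter]
        refine ⟨hr'.1, t, ht, hr'.2, fun s' hs' h1 => ?_⟩
        by_contra h2
        have h3 := hrm s' (mem_filter.2 ⟨hs', lt_of_le_of_ne (not_lt.1 h2)
          (hne s' hs' t ht).symm⟩)
        omega
      · have h1 := hrm s (mem_filter.2 ⟨hs, h⟩)
        rw [mem_Ico]
        omega
  have hc : (Un a V ∩ Un a W).card ≤ RB.card * m + LB.card * m := by
    refine (Finset.card_le_card hsub).trans ((Finset.card_union_le _ _).trans ?_)
    refine Nat.add_le_add (Finset.card_biUnion_le_card_mul _ _ _ fun s _ => ?_)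
      (Finset.card_biUnion_le_card_mul _ _ _ fun s _ => ?_)
    · rw [Nat.card_Ico]
      omega
    · rw [Nat.card_Ico]
      omega
  calc (l - m) * (Un a V ∩ Un a W).card ≤ (l - m) * (RB.card * m + LB.card * m) :=
        Nat.mul_le_mul_left _ hc
    _ = m * ((l - m) * RB.card + (l - m) * LB.card) := by ring
    _ ≤ m * ((Un a V).card + (Un a V).card) := Nat.mul_le_mul_left _ (Nat.add_le_add hR hL)
    _ = 2 * m * (Un a V).card := by ring

/-- The sum of the measures of the blocks. -/
theorem sum_blocks (U : ℕ → Finset ℕ) (K n r : ℕ) (hn : ∀ k < K, U k ⊆ range n)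
    (h : ∀ k < K, (r + 1) * (U k ∩ (range k).biUnion U).card ≤ (U k).card) :
    r * ∑ k ∈ range K, (U k).card ≤ (r + 1) * n := by
  classical
  have h1 : ∑ k ∈ range K, (U k \ (range k).biUnion U).card ≤ n := by
    rw [← Finset.card_biUnion]
    · refine (Finset.card_le_card ?_).trans (card_range n).le
      refine Finset.biUnion_subset.2 fun k hk => ?_
      exact Finset.sdiff_subset.trans (hn k (mem_range.1 hk))
    · have key : ∀ j k, j < k → Disjoint (U j \ (range j).biUnion U) (U k \ (range k).biUnion U) := by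
        intro j k hjk
        refine Finset.disjoint_left.2 fun x hx hx' => ?_
        rw [mem_sdiff] at hx hx'
        exact hx'.2 (mem_biUnion.2 ⟨j, mem_range.2 hjk, hx.1⟩)
      intro j _ k _ hjk
      rcases lt_or_gt_of_ne hjk with h | h
      · exact key j k h
      · exact (key k j h).symm
  have h2 : ∀ k ∈ range K, r * (U k).card ≤ (r + 1) * (U k \ (range k).biUnion U).card := by
    intro k hk
    have h3 := h k (mem_range.1 hk)
    have h4 := Finset.card_sdiff_add_card_inter (U k) ((range k).biUnion U)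
    have h5 : (r + 1) * (U k).card = (r + 1) * (U k \ (range k).biUnion U).card +
        (r + 1) * (U k ∩ (range k).biUnion U).card := by
      rw [← Nat.mul_add, h4]
    rw [Nat.add_mul, Nat.one_mul] at h5
    omega
  rw [Finset.mul_sum]
  refine (Finset.sum_le_sum h2).trans ?_
  rw [← Finset.mul_sum]
  exact Nat.mul_le_mul_left _ h1

/-- Averaging over the position of the buffers. -/
theorem exists_buffer {ι : Type*} (R : Finset ι) (e f : ι → ℕ) (b Q : ℕ) (hQ : 0 < Q) :
    ∃ x < Q, Q * ∑ c ∈ R.filter (fun c => (e c + x) % Q < b), f c ≤ b * ∑ c ∈ R, f c := by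
  classical
  have h1 : ∀ c ∈ R, ((range Q).filter fun x => (e c + x) % Q < b).card ≤ b := by
    intro c _
    have : ((range Q).filter fun x => (e c + x) % Q < b).card ≤ (range b).card := by
      refine Finset.card_le_card_of_injOn (fun x => (e c + x) % Q) ?_ ?_
      · intro x hx
        simp only [coe_filter, mem_range, Set.mem_ofPred_eq] at hx
        simp only [coe_range, Set.mem_Iio]
        exact hx.2
      · intro x hx y hy hxy
        simp only [coe_filter, mem_range, Set.mem_ofPred_eq] at hx hy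
        have h2 : (e c + x) ≡ (e c + y) [MOD Q] := hxy
        have h3 := Nat.ModEq.add_left_cancel' _ h2
        have h4 : x % Q = y % Q := h3
        rwa [Nat.mod_eq_of_lt hx.1, Nat.mod_eq_of_lt hy.1] at h4
    rwa [card_range] at this
  have h2 : ∑ x ∈ range Q, ∑ c ∈ R.filter (fun c => (e c + x) % Q < b), f c ≤ b * ∑ c ∈ R, f c := by
    have h3 : ∀ x ∈ range Q, ∑ c ∈ R.filter (fun c => (e c + x) % Q < b), f c =
        ∑ c ∈ R, if (e c + x) % Q < b then f c else 0 := fun x _ => Finset.sum_filter _ _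
    rw [Finset.sum_congr rfl h3, Finset.sum_comm, Finset.mul_sum]
    refine Finset.sum_le_sum fun c hc => ?_
    rw [← Finset.sum_filter, Finset.sum_const, smul_eq_mul]
    exact Nat.mul_le_mul_right _ (h1 c hc)
  by_contra hcon
  push Not at hcon
  have h3 : ∑ _x ∈ range Q, b * ∑ c ∈ R, f c <
      ∑ x ∈ range Q, Q * ∑ c ∈ R.filter (fun c => (e c + x) % Q < b), f c :=
    Finset.sum_lt_sum_of_nonempty ⟨0, mem_range.2 hQ⟩ fun x hx => hcon x (mem_range.1 hx)
  rw [Finset.sum_const, card_range, smul_eq_mul, ← Finset.mul_sum] at h3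
  exact absurd (Nat.mul_le_mul_left Q h2) (not_le.2 h3)

open Classical in
/-- One block: the strings of the classes in `C` have lengths between `l` and `3 * t * l`. -/
theorem block {Z : ℕ → ℕ} {a : List ℕ → ℕ} {P : ℕ → List ℕ → Prop} {S : Finset (List ℕ)}
    (hP : GlueP S P) (C : Finset (List (List ℕ))) (w o : List (List ℕ) → ℕ)
    (hCS : (C.biUnion fun c => c.toFinset) ⊆ S) (hpos : Pos Z a S) {A t l n N D : ℕ}
    (hn : ∀ c ∈ C, ∀ s ∈ c, a s + s.length ≤ n) (hne : ∀ c ∈ C, c ≠ []) (hl : 0 < l)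
    (hlen : ∀ c ∈ C, ∀ s ∈ c, l ≤ s.length ∧ s.length ≤ 3 * t * l) (hA : 0 < A) (ht : 0 < t)
    (hno : ∀ m G, m ≤ 6 * A * t → P m G →
      ∑ c ∈ C, ((if ∀ s ∈ c, s <:+: G then D * w c else 0) +
        (if ∃ s ∈ c, s <:+: G then N * o c else 0)) ≤ D * G.length) :
    ∃ Ls ⊆ C, A * (D * ∑ c ∈ Ls, w c + N * ∑ c ∈ Ls, o c + 2 * N * ∑ c ∈ C \ Ls, o c) ≤
      D * ((A + 1) * (Un a (C.biUnion fun c => c.toFinset)).card) := by
  set V := C.biUnion fun c => c.toFinset with hV
  have hVm : ∀ s, s ∈ V ↔ ∃ c ∈ C, s ∈ c := fun s => by simp [hV]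
  set H := 3 * t * l with hH
  set L := A * H with hL
  have hH0 : 0 < H := by positivity
  have hL0 : 0 < L := by positivity
  set K := n + L + 1 with hK
  obtain ⟨x, hx, hsum⟩ := exists_shift a V L H K hL0 (by
    intro s hs
    obtain ⟨c, hc, hsc⟩ := (hVm s).1 hs
    exact (hlen c hc s hsc).2)
  set γ : List ℕ → ℕ := fun s => (a s + x) / L with hγ
  set Bg : ℕ → Finset (List ℕ) := fun g => V.filter fun s => γ s = g with hBg
  have hsum' : A * ∑ g ∈ range K, (Un a (Bg g)).card ≤ (A + 1) * (Un a V).card := by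
    have h1 : L * ∑ g ∈ range K, (Un a (Bg g)).card ≤ (L + H) * (Un a V).card := hsum
    have h2 : H * (A * ∑ g ∈ range K, (Un a (Bg g)).card) ≤ H * ((A + 1) * (Un a V).card) := by
      calc H * (A * ∑ g ∈ range K, (Un a (Bg g)).card) = L * ∑ g ∈ range K, (Un a (Bg g)).card := by
            rw [hL]; ring
        _ ≤ (L + H) * (Un a V).card := h1
        _ = H * ((A + 1) * (Un a V).card) := by rw [hL]; ring
    exact Nat.le_of_mul_le_mul_left h2 hH0
  set T : List (List ℕ) → ℕ → ℕ := fun c g => (if ∀ s ∈ c, γ s = g then D * w c else 0) +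
    (if ∃ s ∈ c, γ s = g then N * o c else 0) with hT
  have hgroup : ∀ g, ∑ c ∈ C, T c g ≤ D * (Un a (Bg g)).card := by
    intro g
    have hsub : Bg g ⊆ V := Finset.filter_subset _ _
    obtain ⟨m, G, hm, hPG, hGl, hG⟩ := segment_text hP (Bg g) (hpos.subset (hsub.trans hCS))
      (hsub.trans hCS) l (3 * A * t) (g * L - x) (by
        intro s hs
        obtain ⟨c, hc, hsc⟩ := (hVm s).1 (hsub hs)
        exact (hlen c hc s hsc).1) (by
        intro s hs
        have h1 : (a s + x) / L = g := (mem_filter.1 hs).2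
        have h2 := Nat.div_add_mod (a s + x) L
        have h3 := Nat.mod_lt (a s + x) hL0
        rw [h1, Nat.mul_comm] at h2
        have h4 : 3 * A * t * l = L := by rw [hL, hH]; ring
        rw [h4]
        omega)
    have h1 := hno m G (hm.trans (by ring_nf; exact le_rfl)) hPG
    rw [hGl] at h1
    refine le_trans (Finset.sum_le_sum fun c hc => ?_) h1
    refine Nat.add_le_add ?_ ?_
    · by_cases h2 : ∀ s ∈ c, γ s = g
      · rw [if_pos h2, if_pos]
        intro s hs
        exact hG s (mem_filter.2 ⟨(hVm s).2 ⟨c, hc, hs⟩, h2 s hs⟩)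
      · rw [if_neg h2]
        exact Nat.zero_le _
    · by_cases h2 : ∃ s ∈ c, γ s = g
      · rw [if_pos h2, if_pos]
        obtain ⟨s, hs, h3⟩ := h2
        exact ⟨s, hs, hG s (mem_filter.2 ⟨(hVm s).2 ⟨c, hc, hs⟩, h3⟩)⟩
      · rw [if_neg h2]
        exact Nat.zero_le _
  have hγK : ∀ c ∈ C, ∀ s ∈ c, γ s ∈ range K := by
    intro c hc s hs
    have h1 := hn c hc s hs
    have h2 : (a s + x) / L ≤ a s + x := Nat.div_le_self _ _
    rw [mem_range]
    show (a s + x) / L < K
    omega
  set Ls := C.filter fun c => ∃ g, ∀ s ∈ c, γ s = g with hLs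
  refine ⟨Ls, Finset.filter_subset _ _, ?_⟩
  have hlow1 : ∀ c ∈ Ls, D * w c + N * o c ≤ ∑ g ∈ range K, T c g := by
    intro c hc
    obtain ⟨hc, g, hg⟩ := mem_filter.1 hc
    obtain ⟨s, hs⟩ := List.exists_mem_of_ne_nil c (hne c hc)
    have h1 : g ∈ range K := by
      rw [← hg s hs]
      exact hγK c hc s hs
    have h2 : T c g = D * w c + N * o c := by
      simp only [hT]
      rw [if_pos hg, if_pos ⟨s, hs, hg s hs⟩]
    rw [← h2]
    exact Finset.single_le_sum (f := fun g => T c g) (fun _ _ => Nat.zero_le _) h1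
  have hlow2 : ∀ c ∈ C \ Ls, 2 * N * o c ≤ ∑ g ∈ range K, T c g := by
    intro c hc
    rw [mem_sdiff, hLs, mem_filter, not_and] at hc
    obtain ⟨hc, hc2⟩ := hc
    have hc2 := hc2 hc
    push Not at hc2
    obtain ⟨s, hs⟩ := List.exists_mem_of_ne_nil c (hne c hc)
    obtain ⟨s', hs', hne'⟩ := hc2 (γ s)
    have h1 : ∑ g ∈ ({γ s, γ s'} : Finset ℕ), T c g ≤ ∑ g ∈ range K, T c g := by
      refine Finset.sum_le_sum_of_subset ?_
      intro g hg
      rw [Finset.mem_insert, Finset.mem_singleton] at hg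
      rcases hg with rfl | rfl
      · exact hγK c hc s hs
      · exact hγK c hc s' hs'
    rw [Finset.sum_pair (Ne.symm hne')] at h1
    have h2 : ∀ s ∈ c, N * o c ≤ T c (γ s) := by
      intro s hs
      simp only [hT]
      rw [if_pos (⟨s, hs, rfl⟩ : ∃ s' ∈ c, γ s' = γ s)]
      exact Nat.le_add_left _ _
    have h3 := h2 s hs
    have h4 := h2 s' hs'
    calc 2 * N * o c = N * o c + N * o c := by ring
      _ ≤ _ := (Nat.add_le_add h3 h4).trans h1
  have htot : D * ∑ c ∈ Ls, w c + N * ∑ c ∈ Ls, o c + 2 * N * ∑ c ∈ C \ Ls, o c ≤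
      D * ∑ g ∈ range K, (Un a (Bg g)).card := by
    calc D * ∑ c ∈ Ls, w c + N * ∑ c ∈ Ls, o c + 2 * N * ∑ c ∈ C \ Ls, o c
        = ∑ c ∈ Ls, (D * w c + N * o c) + ∑ c ∈ C \ Ls, 2 * N * o c := by
          rw [Finset.sum_add_distrib, Finset.mul_sum, Finset.mul_sum, Finset.mul_sum]
      _ ≤ ∑ c ∈ Ls, ∑ g ∈ range K, T c g + ∑ c ∈ C \ Ls, ∑ g ∈ range K, T c g :=
          Nat.add_le_add (Finset.sum_le_sum hlow1) (Finset.sum_le_sum hlow2)
      _ = ∑ c ∈ C, ∑ g ∈ range K, T c g := by
          rw [Nat.add_comm]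
          exact Finset.sum_sdiff (Finset.filter_subset _ _)
      _ = ∑ g ∈ range K, ∑ c ∈ C, T c g := Finset.sum_comm
      _ ≤ ∑ g ∈ range K, D * (Un a (Bg g)).card := Finset.sum_le_sum fun g _ => hgroup g
      _ = D * ∑ g ∈ range K, (Un a (Bg g)).card := by rw [Finset.mul_sum]
  calc A * (D * ∑ c ∈ Ls, w c + N * ∑ c ∈ Ls, o c + 2 * N * ∑ c ∈ C \ Ls, o c)
      ≤ A * (D * ∑ g ∈ range K, (Un a (Bg g)).card) := Nat.mul_le_mul_left _ htot
    _ = D * (A * ∑ g ∈ range K, (Un a (Bg g)).card) := by ring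
    _ ≤ D * ((A + 1) * (Un a V).card) := Nat.mul_le_mul_left _ hsum'

open Classical in
/-- Steps 1 and 2. -/
theorem star {Z : ℕ → ℕ} {a : List ℕ → ℕ} {n N D b B A r : ℕ} (R : Finset (List (List ℕ)))
    (w o : List (List ℕ) → ℕ) (hpos : Pos Z a (R.biUnion fun c => c.toFinset))
    (hn : ∀ c ∈ R, ∀ s ∈ c, a s + s.length ≤ n)
    (hlen : ∀ c ∈ R, ∀ s ∈ c, o c < s.length ∧ s.length ≤ 3 * o c) (hne : ∀ c ∈ R, c ≠ [])
    (hA : 0 < A) (hB : 0 < B) (hb : 6 * (r + 1) + 3 ≤ 2 ^ b)
    (P : ℕ → List ℕ → Prop) (hP : GlueP (R.biUnion fun c => c.toFinset) P)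
    (hno : ∀ m G, m ≤ 6 * A * 2 ^ B → P m G →
      ∑ c ∈ R, ((if ∀ s ∈ c, s <:+: G then D * w c else 0) +
        (if ∃ s ∈ c, s <:+: G then N * o c else 0)) ≤ D * G.length) :
    ∃ Dc Ls Hs : Finset (List (List ℕ)), Disjoint Dc Ls ∧ Disjoint Dc Hs ∧ Disjoint Ls Hs ∧
      Dc ∪ Ls ∪ Hs = R ∧ (B + b) * ∑ c ∈ Dc, (w c + o c) ≤ b * ∑ c ∈ R, (w c + o c) ∧
      A * r * (D * ∑ c ∈ Ls, w c + N * ∑ c ∈ Ls, o c + 2 * N * ∑ c ∈ Hs, o c) ≤
        D * ((A + 1) * (r + 1) * n) := by
  set S := R.biUnion fun c => c.toFinset with hS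
  have hSm : ∀ c ∈ R, ∀ s ∈ c, s ∈ S := fun c hc s hs =>
    mem_biUnion.2 ⟨c, hc, List.mem_toFinset.2 hs⟩
  set Q := B + b with hQ
  obtain ⟨x, hx, hbuf⟩ := exists_buffer R (fun c => Nat.log 2 (o c)) (fun c => w c + o c) b Q
    (by omega)
  set e : List (List ℕ) → ℕ := fun c => Nat.log 2 (o c) with he
  set Dc := R.filter fun c => (e c + x) % Q < b with hDc
  set R' := R.filter fun c => ¬ (e c + x) % Q < b with hR'
  have hR'R : R' ⊆ R := Finset.filter_subset _ _
  set kk : List (List ℕ) → ℕ := fun c => (e c + x) / Q with hkk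
  set l : ℕ → ℕ := fun k => 2 ^ (k * Q + b - x) with hl
  set C : ℕ → Finset (List (List ℕ)) := fun k => R'.filter fun c => kk c = k with hC
  have hCR : ∀ k, C k ⊆ R := fun k => (Finset.filter_subset _ _).trans hR'R
  set V : ℕ → Finset (List ℕ) := fun k => (C k).biUnion fun c => c.toFinset with hV
  have hVm : ∀ k s, s ∈ V k ↔ ∃ c ∈ C k, s ∈ c := fun k s => by simp [hV]
  have hVS : ∀ k, V k ⊆ S := by
    intro k s hs
    obtain ⟨c, hc, hsc⟩ := (hVm k s).1 hs
    exact hSm c (hCR k hc) s hsc
  set K := R'.sup kk + 1 with hK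
  -- the exponents
  have hexp : ∀ k, ∀ c ∈ C k, ∀ s ∈ c, 2 ^ e c ≤ s.length ∧ s.length ≤ 3 * 2 ^ (e c + 1) ∧
      k * Q + b ≤ e c + x ∧ e c + x < k * Q + Q := by
    intro k c hc s hs
    have hc' := mem_filter.1 hc
    have hc'' := mem_filter.1 hc'.1
    have h1 := hlen c hc''.1 s hs
    have h2 : o c ≠ 0 := by omega
    have h3 : 2 ^ e c ≤ o c := Nat.pow_log_le_self 2 h2
    have h4 : o c < 2 ^ (e c + 1) := Nat.lt_pow_succ_log_self (by norm_num) _
    have h5 := Nat.div_add_mod (e c + x) Q
    have h6 := Nat.mod_lt (e c + x) (show 0 < Q by omega)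
    have h7 : (e c + x) / Q = k := hc'.2
    rw [h7, Nat.mul_comm] at h5
    have h8 : ¬ (e c + x) % Q < b := hc''.2
    refine ⟨by omega, by omega, by omega, by omega⟩
  have hlk : ∀ k, ∀ c ∈ C k, ∀ s ∈ c, l k ≤ s.length ∧ s.length ≤ 3 * 2 ^ B * l k := by
    intro k c hc s hs
    obtain ⟨h1, h2, h3, h4⟩ := hexp k c hc s hs
    constructor
    · refine le_trans (Nat.pow_le_pow_right (by norm_num) ?_) h1
      omega
    · refine h2.trans ?_
      rw [Nat.mul_assoc, hl, ← pow_add]
      refine Nat.mul_le_mul_left _ (Nat.pow_le_pow_right (by norm_num) ?_)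
      omega
  -- the lower blocks
  have hsep : ∀ k < K, (r + 1) * (Un a (V k) ∩ (range k).biUnion fun j => Un a (V j)).card ≤
      (Un a (V k)).card := by
    intro k _
    rcases Nat.eq_zero_or_pos k with rfl | hk
    · simp
    · have hkx : x < k * Q := lt_of_lt_of_le hx (Nat.le_mul_of_pos_left Q hk)
      set E := 2 ^ (k * Q - x) with hE
      have hE0 : 0 < E := by positivity
      have hlE : l k = 2 ^ b * E := by
        show 2 ^ (k * Q + b - x) = 2 ^ b * E
        rw [hE, ← pow_add, show k * Q + b - x = b + (k * Q - x) by omega]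
      set W := (range k).biUnion V with hW
      have hUW : (range k).biUnion (fun j => Un a (V j)) = Un a W := by
        unfold Un
        rw [hW, Finset.biUnion_biUnion]
      have h1 := sep (V k) W (3 * E) (l k) (hpos.subset (by
        intro s hs
        rcases mem_union.1 hs with hs | hs
        · exact hVS k hs
        · obtain ⟨j, _, hj⟩ := mem_biUnion.1 hs
          exact hVS j hj)) (by
        intro s hs
        obtain ⟨c, hc, hsc⟩ := (hVm k s).1 hs
        exact (hlk k c hc s hsc).1) (by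
        intro s hs
        obtain ⟨j, hj, hs⟩ := mem_biUnion.1 hs
        obtain ⟨c, hc, hsc⟩ := (hVm j s).1 hs
        obtain ⟨h1, h2, h3, h4⟩ := hexp j c hc s hsc
        refine h2.trans (Nat.mul_le_mul_left _ (Nat.pow_le_pow_right (by norm_num) ?_))
        have h5 : j * Q + Q ≤ k * Q := by
          have := Nat.mul_le_mul_right Q (show j + 1 ≤ k from mem_range.1 hj)
          rwa [Nat.add_mul, Nat.one_mul] at this
        omega) (by
        rw [hlE]
        exact Nat.mul_lt_mul_of_pos_right (by omega) hE0)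
      rw [hUW]
      rw [hlE, ← Nat.sub_mul] at h1
      have h2 : 6 * E * ((r + 1) * (Un a (V k) ∩ Un a W).card) ≤ 6 * E * (Un a (V k)).card := by
        calc 6 * E * ((r + 1) * (Un a (V k) ∩ Un a W).card)
            = (6 * (r + 1)) * E * (Un a (V k) ∩ Un a W).card := by ring
          _ ≤ (2 ^ b - 3) * E * (Un a (V k) ∩ Un a W).card := by
              refine Nat.mul_le_mul_right _ (Nat.mul_le_mul_right _ ?_)
              omega
          _ ≤ 2 * (3 * E) * (Un a (V k)).card := h1
          _ = 6 * E * (Un a (V k)).card := by ring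
      exact Nat.le_of_mul_le_mul_left h2 (by positivity)
  have hsumU := sum_blocks (fun k => Un a (V k)) K n r (by
    intro k _ p hp
    obtain ⟨s, hs, h1, h2⟩ := mem_Un.1 hp
    obtain ⟨c, hc, hsc⟩ := (hVm k s).1 hs
    have := hn c (hCR k hc) s hsc
    exact mem_range.2 (by omega)) hsep
  -- the groups
  have hblk : ∀ k, ∃ Ls ⊆ C k, A * (D * ∑ c ∈ Ls, w c + N * ∑ c ∈ Ls, o c +
      2 * N * ∑ c ∈ C k \ Ls, o c) ≤ D * ((A + 1) * (Un a (V k)).card) := by
    intro k
    refine block hP (C k) w o (hVS k) hpos (t := 2 ^ B) (l := l k) (n := n)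
      (fun c hc => hn c (hCR k hc)) (fun c hc => hne c (hCR k hc)) (by positivity) (hlk k) hA
      (by positivity) ?_
    intro m G hm hG
    refine le_trans ?_ (hno m G hm hG)
    exact Finset.sum_le_sum_of_subset (hCR k)
  choose Lk hLk1 hLk2 using hblk
  set Ls := (range K).biUnion Lk with hLs
  have hLsR : Ls ⊆ R' := by
    refine Finset.biUnion_subset.2 fun k _ => ?_
    exact (hLk1 k).trans (Finset.filter_subset _ _)
  have hkK : ∀ c ∈ R', kk c ∈ range K := by
    intro c hc
    have : kk c ≤ R'.sup kk := Finset.le_sup hc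
    exact mem_range.2 (by omega)
  have hmem : ∀ k ∈ range K, ∀ c ∈ C k, (c ∈ Ls ↔ c ∈ Lk k) := by
    intro k hk c hc
    constructor
    · intro h
      obtain ⟨j, hj, h1⟩ := mem_biUnion.1 h
      have h2 := (mem_filter.1 (hLk1 j h1)).2
      have h3 := (mem_filter.1 hc).2
      rw [h2] at h3
      rwa [h3] at h1
    · intro h
      exact mem_biUnion.2 ⟨k, hk, h⟩
  have hfil1 : ∀ k ∈ range K, (C k).filter (fun c => c ∈ Ls) = Lk k := by
    intro k hk
    ext c
    rw [mem_filter]
    constructor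
    · rintro ⟨h1, h2⟩
      exact (hmem k hk c h1).1 h2
    · intro h
      have := hLk1 k h
      exact ⟨this, (hmem k hk c this).2 h⟩
  have hfil2 : ∀ k ∈ range K, (C k).filter (fun c => ¬ c ∈ Ls) = C k \ Lk k := by
    intro k hk
    ext c
    rw [mem_filter, mem_sdiff]
    constructor
    · rintro ⟨h1, h2⟩
      exact ⟨h1, fun h => h2 ((hmem k hk c h1).2 h)⟩
    · rintro ⟨h1, h2⟩
      exact ⟨h1, fun h => h2 ((hmem k hk c h1).1 h)⟩
  set F : List (List ℕ) → ℕ := fun c => if c ∈ Ls then D * w c + N * o c else 2 * N * o c with hF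
  have hF1 : D * ∑ c ∈ Ls, w c + N * ∑ c ∈ Ls, o c + 2 * N * ∑ c ∈ R' \ Ls, o c =
      ∑ c ∈ R', F c := by
    rw [← Finset.sum_sdiff hLsR, Finset.mul_sum, Finset.mul_sum, Finset.mul_sum,
      ← Finset.sum_add_distrib, Nat.add_comm]
    congr 1
    · refine Finset.sum_congr rfl fun c hc => ?_
      simp only [hF]
      rw [if_neg (mem_sdiff.1 hc).2]
    · refine Finset.sum_congr rfl fun c hc => ?_
      simp only [hF]
      rw [if_pos hc]
  have hF2 : ∀ k ∈ range K, ∑ c ∈ C k, F c = D * ∑ c ∈ Lk k, w c + N * ∑ c ∈ Lk k, o c +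
      2 * N * ∑ c ∈ C k \ Lk k, o c := by
    intro k hk
    simp only [hF]
    rw [Finset.sum_ite, hfil1 k hk, hfil2 k hk, Finset.sum_add_distrib, ← Finset.mul_sum,
      ← Finset.mul_sum, ← Finset.mul_sum]
  have hF3 : ∑ c ∈ R', F c = ∑ k ∈ range K, ∑ c ∈ C k, F c :=
    (Finset.sum_fiberwise_of_maps_to hkK F).symm
  refine ⟨Dc, Ls, R' \ Ls, ?_, ?_, Finset.disjoint_sdiff, ?_, hbuf, ?_⟩
  · refine Finset.disjoint_left.2 fun c hc hc' => ?_
    exact (mem_filter.1 (hLsR hc')).2 (mem_filter.1 hc).2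
  · refine Finset.disjoint_left.2 fun c hc hc' => ?_
    exact (mem_filter.1 (mem_sdiff.1 hc').1).2 (mem_filter.1 hc).2
  · rw [Finset.union_assoc, Finset.union_sdiff_of_subset hLsR]
    exact Finset.filter_union_filter_not_eq _ _
  · rw [hF1, hF3]
    calc A * r * ∑ k ∈ range K, ∑ c ∈ C k, F c
        = r * ∑ k ∈ range K, A * ∑ c ∈ C k, F c := by
          rw [← Finset.mul_sum]
          ring
      _ ≤ r * ∑ k ∈ range K, D * ((A + 1) * (Un a (V k)).card) := by
          refine Nat.mul_le_mul_left _ (Finset.sum_le_sum fun k hk => ?_)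
          rw [hF2 k hk]
          exact hLk2 k
      _ = D * ((A + 1) * (r * ∑ k ∈ range K, (Un a (V k)).card)) := by
          rw [← Finset.mul_sum, ← Finset.mul_sum]
          ring
      _ ≤ D * ((A + 1) * ((r + 1) * n)) :=
          Nat.mul_le_mul_left _ (Nat.mul_le_mul_left _ hsumU)
      _ = D * ((A + 1) * (r + 1) * n) := by ring

end Vale.Agent.P333.H368
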