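import Vale.Agent.P333.E.Spec
import Vale.Agent.P333.E.Seg
import Vale.Agent.P333.E.Bridge
import Vale.Agent.P333.E.LemmaEProof
import Vale.Agent.P333.E.NumAux

set_option autoImplicit false
set_option linter.all false

/-!
P333, ratio below `7/3`: the combinatorial side `NoPeel` from the inequality of the groups (`star`),
the data of a minimum cover (`exists_dat`) and Lemma E (`lemmaE`).
-/

namespace Vale.Agent.P333.E

open Vale.Agent.P333 Vale.Agent.P333.U Vale.Agent.P333.H368 Finset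

theorem nodup_cover {S : List (List ℕ)} {L : List (List (List ℕ))} (hS : Sfree S)
    (hL : MinCover S L) : L.Nodup := by
  have h1 : S.Nodup := by
    refine List.Pairwise.imp ?_ hS.2
    intro a b h he
    subst he
    exact h.1 (List.infix_refl _)
  have h2 : L.flatten.Nodup := hL.perm.nodup_iff.2 h1
  rw [List.nodup_flatten] at h2
  refine List.Pairwise.imp_of_mem ?_ h2.2
  intro c d hc hd hcd he
  subst he
  obtain ⟨s, r, hs⟩ := List.exists_cons_of_ne_nil (hL.ne c hc)
  exact hcd (by rw [hs]; simp : s ∈ c) (by rw [hs]; simp)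

theorem exists_noPeel : ∃ M, NoPeel (10 ^ 14 - 1) (3 * 10 ^ 14) M (10 ^ 29) := by
  classical
  obtain ⟨B, hB⟩ : ∃ B : ℕ, B = 2 * 10 ^ 16 := ⟨_, rfl⟩
  refine ⟨6 * (3 * 10 ^ 14) * 2 ^ B, ?_⟩
  intro S L T rem hS hL hT hT0 hrem hno
  by_contra hcon
  rw [not_le] at hcon
  have hn : 0 < T.length := List.length_pos_iff.2 hT0
  have hnd : L.Nodup := nodup_cover hS hL
  have hndr : rem.Nodup := hrem.nodup hnd
  have hSL : ∀ c ∈ L, ∀ s ∈ c, s ∈ S := fun c hc s hs =>
    hL.perm.mem_iff.1 (List.mem_flatten.2 ⟨c, hc, hs⟩)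
  have hnS : ∀ s ∈ S, ∀ t ∈ S, s ≠ t → ¬ s <:+: t := by
    intro s hs t ht hst
    haveI : Std.Symm (fun s t : List ℕ => ¬ s <:+: t ∧ ¬ t <:+: s) := ⟨fun a b h => ⟨h.2, h.1⟩⟩
    exact (List.Pairwise.forall hS.2 hs ht hst).1
  -- positions
  have hocc : ∀ s : List ℕ, ∃ a, s ∈ S → (a + s.length ≤ T.length ∧ OccAt (tx T) s a) := by
    intro s
    by_cases hs : s ∈ S
    · obtain ⟨a, ha⟩ := exists_occ (hT s hs)
      exact ⟨a, fun _ => ha⟩
    · exact ⟨0, fun h => absurd h hs⟩
  choose a ha using hocc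
  set R := rem.toFinset.filter (fun c => cycW c ≤ 2 * cycO c) with hR
  have hRL : ∀ c ∈ R, c ∈ L := fun c hc =>
    hrem.subset (List.mem_toFinset.1 (Finset.mem_filter.1 hc).1)
  have hBS : ∀ s ∈ R.biUnion (fun c => c.toFinset), s ∈ S := by
    intro s hs
    obtain ⟨c, hc, hsc⟩ := Finset.mem_biUnion.1 hs
    exact hSL c (hRL c hc) s (List.mem_toFinset.1 hsc)
  have hpos : Pos (tx T) a (R.biUnion fun c => c.toFinset) := by
    refine ⟨fun s hs => (ha s (hBS s hs)).2, ?_, ?_⟩
    · intro s hs t ht hst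
      by_contra hne
      rcases le_total s.length t.length with h | h
      · exact hnS s (hBS s hs) t (hBS t ht) hne
          (infix_of_occ (ha t (hBS t ht)).2 (ha s (hBS s hs)).2 hst.ge (by omega))
      · exact hnS t (hBS t ht) s (hBS s hs) (Ne.symm hne)
          (infix_of_occ (ha s (hBS s hs)).2 (ha t (hBS t ht)).2 hst.le (by omega))
    · intro s hs t ht hst
      by_contra hc
      refine hnS t (hBS t ht) s (hBS s hs) ?_
        (infix_of_occ (ha s (hBS s hs)).2 (ha t (hBS t ht)).2 hst.le (by omega))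
      rintro rfl
      exact lt_irrefl _ hst
  have hst := star (Z := tx T) (a := a) (n := T.length) (N := 10 ^ 14 - 1) (D := 3 * 10 ^ 14)
    (b := 51) (B := B) (A := 3 * 10 ^ 14) (r := 3 * 10 ^ 14) R cycW cycO hpos
    (fun c hc s hs => (ha s (hSL c (hRL c hc) s hs)).1)
    (fun c hc s hs => by
      have hcL := hRL c hc
      have h1 := cycO_lt_length (fun s hs => hS.1 s (hSL c hcL s hs)) (hL.opn c hcL) hs
      have h2 := (infix_mergeL hs).length_le
      rw [length_mergeL'] at h2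
      have h3 := (Finset.mem_filter.1 hc).2
      exact ⟨h1, by omega⟩)
    (fun c hc => hL.ne c (hRL c hc)) (by norm_num) (by rw [hB]; norm_num) (by norm_num)
    (Glue S) ⟨Glue.nil, fun m G s k h hs hk1 hk2 he => Glue.step h (hBS s hs) hk1 hk2 he⟩
    (fun m G hm hG => by
      refine le_trans ?_ (hno m G hm hG)
      rw [gain, ← List.sum_toFinset _ hndr]
      refine le_trans ?_ (Finset.sum_le_sum_of_subset
        (Finset.filter_subset (fun c => cycW c ≤ 2 * cycO c) rem.toFinset))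
      rw [hR]
      refine Finset.sum_le_sum fun c hc => ?_
      unfold Cont Tch
      split_ifs <;> omega)
  obtain ⟨Dc, Ls, Hs, hd1, hd2, hd3, hU, hDc, hstar⟩ := hst
  rw [hB] at hDc
  have eW : sW L = ∑ c ∈ L.toFinset, cycW c := (List.sum_toFinset _ hnd).symm
  have eO : sO L = ∑ c ∈ L.toFinset, cycO c := (List.sum_toFinset _ hnd).symm
  have eR : sO rem = ∑ c ∈ rem.toFinset, cycO c := (List.sum_toFinset _ hndr).symm
  rw [eW, eO, eR] at hcon
  have hW0 : (L.map cycW).sum ≤ T.length := wordsW S L T hS hL hT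
  have hA0 : (L.map (fun c => cycO c + 1 - cycW c)).sum ≤ T.length :=
    wordsA_of rauzyBound placeLemma S L T hS hL hT
  have key := num_fin L.toFinset rem.toFinset Dc Ls Hs cycW cycO T.length hn
    (fun c hc => List.mem_toFinset.2 (hrem.subset (List.mem_toFinset.1 hc))) hd1 hd2 hd3 hU
    (by rw [← eW]; exact hW0)
    (by
      rw [List.sum_toFinset _ hnd]
      refine le_trans (List.sum_le_sum fun c _ => ?_) hA0
      omega)
    hcon hDc (by
      refine le_trans (le_of_eq ?_) hstar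
      ring)
  obtain ⟨k1, k2, k3, k4, k5⟩ := key
  obtain ⟨D, hD, hDn, hDw, hDo⟩ := exists_dat hS hL hT
  have hsm : ∀ (f : List (List ℕ) → ℕ) (g : Fin L.length → ℕ), (∀ c, g c = f (L.get c)) →
      ∑ F ∈ D.sm, g F =
        ∑ c ∈ L.toFinset.filter (fun c => 10 ^ 7 * cycW c ≤ cycO c), f c := by
    intro f g hfg
    rw [Dat.sm, Finset.sum_filter, Finset.sum_filter, List.sum_toFinset _ hnd,
      ← sum_get_eq L (fun c => if 10 ^ 7 * cycW c ≤ cycO c then f c else 0)]
    refine Finset.sum_congr rfl fun c _ => ?_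
    rw [hDw, hDo, hfg]
  have htm : ∀ (f : List (List ℕ) → ℕ) (g : Fin L.length → ℕ), (∀ c, g c = f (L.get c)) →
      ∑ F ∈ D.smᶜ, g F =
        ∑ c ∈ L.toFinset.filter (fun c => ¬ 10 ^ 7 * cycW c ≤ cycO c), f c := by
    intro f g hfg
    rw [Dat.sm, Finset.compl_filter, Finset.sum_filter, Finset.sum_filter,
      List.sum_toFinset _ hnd,
      ← sum_get_eq L (fun c => if ¬ 10 ^ 7 * cycW c ≤ cycO c then f c else 0)]
    refine Finset.sum_congr rfl fun c _ => ?_
    rw [hDw, hDo, hfg]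
  refine lemmaE (Fin L.length) (SI L) D hD (by rw [hDn]; exact hn) ?_ ?_ ?_ ?_ ?_
  · rw [hsm cycW _ hDw, hDn]; exact k1
  · rw [hsm cycO _ hDo, hDn]; exact k2
  · rw [htm cycW _ hDw, hDn]; exact k3
  · rw [htm (fun c => cycO c - cycW c) _ (fun c => by rw [hDw, hDo]), hDn]; exact k4
  · rw [htm (fun c => cycW c - cycO c) _ (fun c => by rw [hDw, hDo]), hDn]; exact k5

end Vale.Agent.P333.E
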