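import Mathlib
import Vale.Agent.P333.Bdl.B2
import Vale.Agent.P333.E.AlgCands
import Vale.Agent.P333.E.AlgPT
import Vale.Agent.P333.E.AlgLoop
import Vale.Agent.P333.E.AlgIns
import Vale.Agent.P333.E.AlgExpand
import Vale.Agent.P333.E.AlgPeel
import Vale.Agent.P333.E.AlgStage
import Vale.Agent.P333.E.Num

set_option linter.all false

/-!
P333, ratio below `7/3`: assembly.
-/

namespace Vale.Agent.P333.E

open Vale.Agent.P333 Vale.Agent.P333.U

theorem algSide (N D M : ℕ) : AlgSide N D M :=
  algSide_of blkCands (blkPeel (blkExpand blkLoop blkIns)) blkStage blkPT (coverAlg assignAlg)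
    atspAlg_2_3 N D M

theorem hasApprox_main : HasApprox (7 / 3 - 1 / (10 ^ 29 : ℕ)) := by
  obtain ⟨M, hM⟩ := exists_noPeel
  exact hasApprox_of (by norm_num) (by norm_num) (algSide _ _ M) hM

end Vale.Agent.P333.E
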