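import Vale.Agent.P333.E.Defs

/-!
P333, ratio below `7/3`: Lemma E from its blocks.
-/

set_option autoImplicit false

namespace Vale.Agent.P333.E

theorem lemmaE_of (h1 : BlkUex) (h2 : BlkChain) (h3 : BlkNest) (h4 : BlkServ) (h5 : BlkFar)
    (h6 : BlkLoc) (h7 : BlkCore) : LemmaE := by
  intro ι σ _ _ _ D hD hn e1 e2 e3 e4 e5
  obtain ⟨U⟩ := h1 ι σ D hD
  obtain ⟨n1, n2, n3, n4⟩ := h3 ι σ D hD U
  have hxy : ∀ F, U.x F ≤ U.y F := fun F => (U.mat F).1
  have hyn : ∀ F, U.y F ≤ D.n := fun F => (U.mat F).2.1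
  have c1 : ∑ F ∈ D.sm, U.u F ≤ U.cov.card + 2 * ∑ F ∈ D.sm, D.w F := by
    refine h2 ι D.sm U.x U.y D.w (fun F _ => ?_) (fun i hi j hj hij hx => n2 i hi j hj hij hx)
    have := n1 F
    unfold Us.u at this
    omega
  have c2 : U.cov.card ≤ D.n := by
    have : U.cov ⊆ Finset.range D.n := by
      intro i hi
      obtain ⟨F, -, hF⟩ := Finset.mem_biUnion.1 hi
      rw [Finset.mem_Ico] at hF
      have := hyn F
      rw [Finset.mem_range]
      omega
    simpa using Finset.card_le_card this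
  have c3 : ∑ F ∈ D.sm, U.u F = ∑ F ∈ D.sm, (U.u F - D.o F) + ∑ F ∈ D.sm, D.o F := by
    rw [← Finset.sum_add_distrib]
    refine Finset.sum_congr rfl fun F _ => ?_
    have := n1 F
    omega
  have c4 : ∑ c ∈ D.smᶜ, D.w c ≤ ∑ c ∈ D.gd, D.w c + 100 * ∑ c ∈ D.smᶜ, (D.w c - D.o c) +
      ∑ c ∈ D.smᶜ, (D.o c - D.w c) := by
    have hg : D.gd ⊆ D.smᶜ := by
      intro c hc
      simp only [Dat.gd, Dat.sm, Finset.mem_filter, Finset.mem_univ, true_and,
        Finset.mem_compl] at hc ⊢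
      omega
    have hs : ∑ c ∈ D.gd, D.w c = ∑ c ∈ D.smᶜ, (if c ∈ D.gd then D.w c else 0) := by
      rw [← Finset.sum_filter]
      refine Finset.sum_congr ?_ fun _ _ => rfl
      ext c
      simp only [Finset.mem_filter]
      exact ⟨fun h => ⟨hg h, h⟩, fun h => h.2⟩
    rw [hs, Finset.mul_sum, ← Finset.sum_add_distrib, ← Finset.sum_add_distrib]
    refine Finset.sum_le_sum fun c hc => ?_
    by_cases hcg : c ∈ D.gd
    · rw [if_pos hcg]; omega
    · rw [if_neg hcg]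
      simp only [Dat.gd, Dat.sm, Finset.mem_filter, Finset.mem_univ, true_and,
        Finset.mem_compl] at hcg hc
      omega
  have c5 := h4 ι σ D hD U
  set A := D.sm.filter (fun F => 99 * U.u F ≤ 100 * U.xm F) with hA
  have hAs : A ⊆ D.sm := Finset.filter_subset _ _
  have c6 : ∑ F ∈ D.sm, U.u F ≤ ∑ F ∈ A, U.u F + 100 * ∑ F ∈ D.sm, (U.u F - U.xm F) := by
    rw [hA, Finset.sum_filter, Finset.mul_sum, ← Finset.sum_add_distrib]
    refine Finset.sum_le_sum fun F _ => ?_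
    split_ifs <;> omega
  have hserv : ∀ F ∈ A, ∃ s, D.cl s ∈ D.gd ∧ 99 * U.u F ≤ 100 * U.si F s := by
    intro F hF
    have h0 := (Finset.mem_filter.1 hF).2
    have h00 := n1 F
    have hne : (Finset.univ.filter fun s => D.cl s ∈ D.gd).Nonempty := by
      by_contra hne
      rw [Finset.not_nonempty_iff_eq_empty] at hne
      have : U.xm F = 0 := by
        unfold Us.xm
        rw [hne]
        rfl
      omega
    obtain ⟨s, hs, hs'⟩ := Finset.exists_mem_eq_sup _ hne (fun s => U.si F s)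
    refine ⟨s, (Finset.mem_filter.1 hs).2, ?_⟩
    have : U.xm F = U.si F s := hs'
    rw [← this]
    exact h0
  by_cases hAe : A = ∅
  · rw [hAe, Finset.sum_empty] at c6
    omega
  obtain ⟨F0, hF0⟩ := Finset.nonempty_iff_ne_empty.2 hAe
  obtain ⟨s0, -⟩ := hserv F0 hF0
  have hserv' : ∀ F, ∃ s, F ∈ A → D.cl s ∈ D.gd ∧ 99 * U.u F ≤ 100 * U.si F s := by
    intro F
    by_cases hF : F ∈ A
    · obtain ⟨s, hs⟩ := hserv F hF
      exact ⟨s, fun _ => hs⟩
    · exact ⟨s0, fun h => absurd h hF⟩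
  choose s hs using hserv'
  have far := h5 ι σ D hD U (A.filter fun F => 100 * U.u F < D.w (D.cl (s F))) s
    ((Finset.filter_subset _ _).trans hAs) (fun F hF => by
      obtain ⟨h, h'⟩ := Finset.mem_filter.1 hF
      exact ⟨(hs F h).1, (hs F h).2, h'⟩)
  have hloc : ∀ F, ∃ s' q x y, F ∈ A → D.cl s' = D.cl (s F) ∧ D.Mat F q x y ∧ D.a s' ≤ x ∧
      y ≤ D.b s' ∧ U.u F ≤ 3 * (y - x) ∧ ilen x y (U.x F) (U.y F) < D.w F := by
    intro F
    by_cases hF : F ∈ A
    · obtain ⟨s', q, x, y, h⟩ := h6 ι σ D hD U F (s F) (hAs hF) (hs F hF).1 (hs F hF).2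
      exact ⟨s', q, x, y, fun _ => h⟩
    · exact ⟨s0, 0, 0, 0, fun h => absurd h hF⟩
  choose s' q x y hloc using hloc
  have loc := h7 ι σ D hD U (A.filter fun F => ¬ 100 * U.u F < D.w (D.cl (s F))) s' q x y
    ((Finset.filter_subset _ _).trans hAs) (fun F hF => by
      obtain ⟨h, h'⟩ := Finset.mem_filter.1 hF
      obtain ⟨g1, g2, g3, g4, g5, g6⟩ := hloc F h
      refine ⟨by rw [g1]; exact (hs F h).1, by rw [g1]; omega, g2, g3, g4, g5, g6⟩)
  have hsplit : ∑ F ∈ A, U.u F =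
      ∑ F ∈ A.filter (fun F => 100 * U.u F < D.w (D.cl (s F))), U.u F +
      ∑ F ∈ A.filter (fun F => ¬ 100 * U.u F < D.w (D.cl (s F))), U.u F :=
    (Finset.sum_filter_add_sum_filter_not A _ _).symm
  omega

end Vale.Agent.P333.E
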