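import Vale.Agent.P333.Bdl.B1

/-!
P333, ratio `7/3 - η`, algorithm side: insertion of loops.  A text `G` touches a class `c` if a
string of `c` is a factor of `G`; the loop of the class is inserted at this string, the cost is
`cycW c`, all factors of `G` from a substring-free family survive.
-/

namespace Vale.Agent.P333.E

open Vale.Agent.Lib.PolyTime Vale.Agent.P333.U

/-! ### Polynomial time of folds with slowly growing states -/

section PTlemmas

variable {A : Set Word} {α β γ : Type*} [Enc α] [Enc β] [Enc γ]

/-- Folds whose state grows by a polynomially bounded amount in every step. -/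
theorem PT_foldl_growth {l : α → List γ} {init : α → β} {f : α → β → γ → β} (hl : PT A l)
    (hi : PT A init) (hf : PT A (fun p : α × β × γ => f p.1 p.2.1 p.2.2)) {b : α → ℕ} (hb : PBd b)
    (h : ∀ a, ∀ x ∈ l a, ∀ s, esize (f a s x) ≤ esize s + b a) :
    PT A (fun a => (l a).foldl (f a) (init a)) := by
  have key : ∀ a (l' : List γ), (∀ x ∈ l', x ∈ l a) → ∀ s : β,
      esize (l'.foldl (f a) s) ≤ esize s + l'.length * b a := by
    intro a l'
    induction l' with
    | nil => intro _ s; simp
    | cons x l' ih =>
      intro hx s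
      rw [List.foldl_cons]
      have h1 := ih (fun y hy => hx y (List.mem_cons_of_mem _ hy)) (f a s x)
      have h2 := h a x (hx x List.mem_cons_self) s
      rw [List.length_cons, add_mul, one_mul]
      omega
  refine PT.foldl hl hi hf (b := fun a => esize (init a) + (l a).length * b a)
    (hi.pbd.add ((PBd.length hl).mul hb)) fun a i => ?_
  refine (key a _ (fun x hx => List.mem_of_mem_take hx) _).trans ?_
  have h1 : ((l a).take i).length ≤ (l a).length := by
    rw [List.length_take]; exact min_le_right _ _
  have := Nat.mul_le_mul_right (b a) h1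
  omega

theorem PT_linW {f : α → List (List ℕ)} (hf : PT A f) : PT A (fun a => linW (f a)) := by
  refine (PT.sub (PT.length (PT_mergeL hf)) (PT.length (PT_getLastD hf (PT.const [])))).congr
    fun a => ?_
  rw [length_mergeL]
  omega

theorem PT_cycO {f : α → List (List ℕ)} (hf : PT A f) : PT A (fun a => cycO (f a)) :=
  PT_ov (PT_getLastD hf (PT.const [])) (PT_headD hf (PT.const []))

theorem PT_cycW {f : α → List (List ℕ)} (hf : PT A f) : PT A (fun a => cycW (f a)) :=
  PT.add (PT_linW hf) (PT.sub (PT.length (PT_getLastD hf (PT.const []))) (PT_cycO hf))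

end PTlemmas

/-! ### Closed walks -/

theorem linW_append (a : List (List ℕ)) (s t : List ℕ) (b : List (List ℕ)) :
    linW ((a ++ [s]) ++ (t :: b)) = linW (a ++ [s]) + (s.length - ov s t) + linW (t :: b) := by
  induction a with
  | nil => simp [linW]
  | cons x a ih =>
    cases a with
    | nil =>
      simp only [List.nil_append, List.cons_append] at ih ⊢
      rw [spec_linW, ih, spec_linW]
      simp [linW]
      omega
    | cons y a =>
      simp only [List.cons_append] at ih ⊢
      rw [spec_linW, ih, spec_linW]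
      omega

theorem linW_share (a : List (List ℕ)) (s : List ℕ) (b : List (List ℕ)) :
    linW (a ++ s :: b) = linW (a ++ [s]) + linW (s :: b) := by
  induction a with
  | nil => simp [linW]
  | cons x a ih =>
    cases a with
    | nil =>
      simp only [List.nil_append, List.cons_append] at ih ⊢
      rw [spec_linW, spec_linW, ih]
      omega
    | cons y a =>
      simp only [List.cons_append] at ih ⊢
      rw [spec_linW, ih, spec_linW]
      omega

/-- The closed walk from the `j`-th string to itself. -/
def walkAt (c : List (List ℕ)) (j : ℕ) : List (List ℕ) := c.drop j ++ c.take (j + 1)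

/-- The loop at the `j`-th string. -/
def loopAt (c : List (List ℕ)) (j : ℕ) : List ℕ := mergeL (walkAt c j)

theorem walkAt_split {c : List (List ℕ)} {j : ℕ} (hj : j < c.length) :
    ∃ a b, c = a ++ c.getD j [] :: b ∧ walkAt c j = (c.getD j [] :: b) ++ (a ++ [c.getD j []]) := by
  refine ⟨c.take j, c.drop (j + 1), ?_, ?_⟩
  · rw [List.getD_eq_getElem _ _ hj]
    conv_lhs => rw [← List.take_append_drop j c, List.drop_eq_getElem_cons hj]
  · rw [walkAt, List.getD_eq_getElem _ _ hj, List.drop_eq_getElem_cons hj, List.take_succ_eq_append_getElem hj]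

theorem linW_walkAt {c : List (List ℕ)} {j : ℕ} (hj : j < c.length) :
    linW (walkAt c j) = cycW c := by
  obtain ⟨a, b, h1, h2⟩ := walkAt_split hj
  generalize c.getD j [] = s at h1 h2
  rw [h2]
  have e1 : ∃ b' l, s :: b = b' ++ [l] := ⟨(s :: b).dropLast, (s :: b).getLast (by simp),
    (List.dropLast_append_getLast (by simp)).symm⟩
  have e2 : ∃ a' h, a ++ [s] = h :: a' := by
    cases a with
    | nil => exact ⟨[], s, rfl⟩
    | cons x a => exact ⟨a ++ [s], x, rfl⟩
  obtain ⟨b', l, e1⟩ := e1
  obtain ⟨a', h, e2⟩ := e2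
  rw [e1, e2, linW_append, ← e1, ← e2]
  have e3 : c.getLastD [] = l := by
    rw [h1, e1, List.getLastD_eq_getLast?, ← List.append_assoc, List.getLast?_append]
    simp
  have e4 : c.headD [] = h := by
    have : c = (h :: a') ++ b := by rw [h1, ← e2, List.append_assoc]; rfl
    rw [this]; rfl
  rw [cycW, cycO, e3, e4]
  conv_rhs => rw [h1, linW_share]
  omega

theorem length_loopAt {c : List (List ℕ)} {j : ℕ} (hj : j < c.length) :
    (loopAt c j).length = cycW c + (c.getD j []).length := by
  rw [loopAt, length_mergeL, linW_walkAt hj]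
  obtain ⟨a, b, h1, h2⟩ := walkAt_split hj
  rw [h2, List.getLastD_eq_getLast?, ← List.append_assoc, List.getLast?_append]
  simp

theorem prefix_loopAt {c : List (List ℕ)} {j : ℕ} (hj : j < c.length) :
    c.getD j [] <+: loopAt c j := by
  obtain ⟨a, b, h1, h2⟩ := walkAt_split hj
  rw [loopAt, h2, List.cons_append]
  exact head_prefix_mergeL _ _

theorem suffix_loopAt {c : List (List ℕ)} {j : ℕ} (hj : j < c.length) :
    c.getD j [] <:+ loopAt c j := by
  obtain ⟨a, b, h1, h2⟩ := walkAt_split hj
  have h3 := getLastD_suffix_mergeL (walkAt c j)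
  have h4 : (walkAt c j).getLastD [] = c.getD j [] := by
    rw [h2, List.getLastD_eq_getLast?, ← List.append_assoc, List.getLast?_append]
    simp
  rw [h4] at h3
  exact h3

theorem infix_loopAt {c : List (List ℕ)} {j : ℕ} {t : List ℕ} (ht : t ∈ c) :
    t <:+: loopAt c j := by
  refine infix_mergeL ?_
  rw [walkAt, List.mem_append]
  have h : t ∈ c.take j ++ c.drop j := by rwa [List.take_append_drop]
  rcases List.mem_append.1 h with h | h
  · exact Or.inr ((List.take_prefix_take_left (Nat.le_succ j)).subset h)
  · exact Or.inl h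

/-- The inserted part of the loop. -/
def loopX (c : List (List ℕ)) (j : ℕ) : List ℕ := (loopAt c j).take (cycW c)

theorem loopX_append {c : List (List ℕ)} {j : ℕ} (hj : j < c.length) :
    loopX c j ++ c.getD j [] = loopAt c j := by
  obtain ⟨u, hu⟩ := suffix_loopAt hj
  have h1 := length_loopAt hj
  rw [← hu, List.length_append] at h1
  rw [loopX, ← hu, List.take_append_of_le_length (by omega), List.take_of_length_le (by omega)]

theorem length_loopX {c : List (List ℕ)} {j : ℕ} (hj : j < c.length) :
    (loopX c j).length = cycW c := by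
  rw [loopX, List.length_take, length_loopAt hj]
  omega

/-! ### Insertion -/

/-- First occurrence. -/
def occPos (s G : List ℕ) : ℕ :=
  ((List.range (G.length + 1)).find? fun i => decide ((G.drop i).take s.length = s)).getD 0

theorem occPos_spec {s G : List ℕ} (h : s <:+: G) :
    (G.drop (occPos s G)).take s.length = s := by
  have h1 : ((List.range (G.length + 1)).find?
      fun i => decide ((G.drop i).take s.length = s)).isSome := by
    rw [List.find?_isSome]
    have := (infB_iff s G).2 h
    rw [infB, List.any_eq_true] at this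
    exact this
  obtain ⟨i, hi⟩ := Option.isSome_iff_exists.1 h1
  have h2 := List.find?_some hi
  rw [occPos, hi, Option.getD_some]
  exact of_decide_eq_true h2

/-- Insertion of `x.1` before the first occurrence of `x.2`. -/
def insAt (G : List ℕ) (x : List ℕ × List ℕ) : List ℕ :=
  G.take (occPos x.2 G) ++ (x.1 ++ G.drop (occPos x.2 G))

theorem length_insAt (G : List ℕ) (x : List ℕ × List ℕ) :
    (insAt G x).length = G.length + x.1.length := by
  rw [insAt, List.length_append, List.length_append, List.length_take, List.length_drop]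
  omega

theorem esize_insAt (G : List ℕ) (x : List ℕ × List ℕ) :
    esize (insAt G x) = esize G + esize x.1 := by
  have : esize G = esize (G.take (occPos x.2 G)) + esize (G.drop (occPos x.2 G)) := by
    rw [← esize_append, List.take_append_drop]
  rw [insAt, esize_append, esize_append, this]
  ring

/-- Where factors go under an insertion. -/
theorem infix_ins {P s X B t : List ℕ} (hs : s <+: X ++ s) (ht : t <:+: P ++ (s ++ B))
    (h : t = s ∨ ¬ s <:+: t) : t <:+: P ++ (X ++ (s ++ B)) := by
  obtain ⟨u, v, huv⟩ := ht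
  rcases le_or_gt P.length u.length with h1 | h1
  · -- `t` lies in `s ++ B`
    have h2 : P <+: u := by
      refine List.prefix_of_prefix_length_le (l₃ := P ++ (s ++ B)) (List.prefix_append _ _) ?_ h1
      rw [← huv, List.append_assoc]
      exact List.prefix_append _ _
    obtain ⟨w, rfl⟩ := h2
    rw [List.append_assoc, List.append_assoc, List.append_cancel_left_eq] at huv
    refine List.IsInfix.trans (l₂ := s ++ B) ⟨w, v, by rw [List.append_assoc]; exact huv⟩ ?_
    refine List.IsSuffix.isInfix ⟨P ++ X, ?_⟩
    simp [List.append_assoc]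
  · rcases le_or_gt (u.length + t.length) (P.length + s.length) with h2 | h2
    · -- `t` lies in `P ++ s`
      have h3 : u ++ t <+: P ++ s := by
        refine List.prefix_of_prefix_length_le (l₃ := P ++ (s ++ B)) ?_ ?_ ?_
        · rw [← huv]; exact List.prefix_append _ _
        · rw [← List.append_assoc]; exact List.prefix_append _ _
        · rw [List.length_append, List.length_append]; exact h2
      have h4 : t <:+: P ++ s := (List.suffix_append u t).isInfix.trans h3.isInfix
      refine h4.trans ?_
      obtain ⟨z, hz⟩ := hs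
      refine List.IsPrefix.isInfix ⟨z ++ B, ?_⟩
      have : X ++ (s ++ B) = s ++ (z ++ B) := by
        rw [← List.append_assoc, ← hz, List.append_assoc]
      rw [this, List.append_assoc]
    · -- `t` contains `s`
      exfalso
      rcases h with rfl | h
      · omega
      · apply h
        have h3 : u <+: P := by
          refine List.prefix_of_prefix_length_le (l₃ := P ++ (s ++ B)) ?_
            (List.prefix_append _ _) h1.le
          rw [← huv, List.append_assoc]
          exact List.prefix_append _ _
        obtain ⟨w, rfl⟩ := h3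
        rw [List.append_assoc, List.append_assoc, List.append_cancel_left_eq] at huv
        have h4 : w ++ s <+: t := by
          refine List.prefix_of_prefix_length_le (l₃ := w ++ (s ++ B)) ?_ ?_ ?_
          · rw [← List.append_assoc]; exact List.prefix_append _ _
          · rw [← huv]; exact List.prefix_append _ _
          · rw [List.length_append] at h1 h2 ⊢; omega
        exact (List.suffix_append w s).isInfix.trans h4.isInfix

theorem insAt_split {G s X : List ℕ} (hs : s <:+: G) :
    ∃ P B, G = P ++ (s ++ B) ∧ insAt G (X, s) = P ++ (X ++ (s ++ B)) := by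
  have h := occPos_spec hs
  refine ⟨G.take (occPos s G), (G.drop (occPos s G)).drop s.length, ?_, ?_⟩
  · conv_lhs => rw [← List.take_append_drop (occPos s G) G,
      ← List.take_append_drop s.length (G.drop (occPos s G)), h]
  · rw [insAt]
    simp only
    conv_lhs => rw [← List.take_append_drop s.length (G.drop (occPos s G)), h]

theorem infix_insAt {G s X t : List ℕ} (hs : s <:+: G) (hX : s <+: X ++ s) (ht : t <:+: G)
    (h : t = s ∨ ¬ s <:+: t) : t <:+: insAt G (X, s) := by
  obtain ⟨P, B, h1, h2⟩ := insAt_split (X := X) hs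
  rw [h2]
  rw [h1] at ht
  exact infix_ins hX ht h

theorem infix_insAt' {G s X : List ℕ} (hs : s <:+: G) : X ++ s <:+: insAt G (X, s) := by
  obtain ⟨P, B, h1, h2⟩ := insAt_split (X := X) hs
  rw [h2]
  exact ⟨P, B, by simp [List.append_assoc]⟩

/-! ### Insertion of many loops -/

theorem sfree_eq_or {S : List (List ℕ)} (hS : Sfree S) {s t : List ℕ} (hs : s ∈ S) (ht : t ∈ S) :
    t = s ∨ ¬ s <:+: t := by
  by_cases h : t = s
  · exact Or.inl h
  · refine Or.inr ?_
    have : Std.Symm (fun s t : List ℕ => ¬ s <:+: t ∧ ¬ t <:+: s) := ⟨fun a b hab =>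
      ⟨hab.2, hab.1⟩⟩
    exact (hS.2.forall hs ht (fun e => h e.symm)).1

theorem length_foldl_insAt (l : List (List ℕ × List ℕ)) (G : List ℕ) :
    (l.foldl insAt G).length = G.length + (l.map fun x => x.1.length).sum := by
  induction l generalizing G with
  | nil => simp
  | cons x l ih =>
    rw [List.foldl_cons, ih, length_insAt, List.map_cons, List.sum_cons]
    omega

theorem foldl_insAt_keep {S : List (List ℕ)} (hS : Sfree S) (l : List (List ℕ × List ℕ))
    (G : List ℕ) (hl : ∀ x ∈ l, x.2 ∈ S ∧ x.2 <:+: G ∧ x.2 <+: x.1 ++ x.2) {t : List ℕ}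
    (ht : t ∈ S) (htG : t <:+: G) : t <:+: l.foldl insAt G := by
  induction l generalizing G with
  | nil => exact htG
  | cons x l ih =>
    rw [List.foldl_cons]
    obtain ⟨h1, h2, h3⟩ := hl x List.mem_cons_self
    refine ih (insAt G x) (fun y hy => ?_) ?_
    · obtain ⟨k1, k2, k3⟩ := hl y (List.mem_cons_of_mem _ hy)
      exact ⟨k1, infix_insAt (X := x.1) (s := x.2) h2 h3 k2 (sfree_eq_or hS h1 k1), k3⟩
    · exact infix_insAt (X := x.1) (s := x.2) h2 h3 htG (sfree_eq_or hS h1 ht)

theorem foldl_insAt_new {S : List (List ℕ)} (hS : Sfree S) (l : List (List ℕ × List ℕ))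
    (G : List ℕ) (hl : ∀ x ∈ l, x.2 ∈ S ∧ x.2 <:+: G ∧ x.2 <+: x.1 ++ x.2) {x : List ℕ × List ℕ}
    (hx : x ∈ l) {t : List ℕ} (ht : t ∈ S) (htx : t <:+: x.1 ++ x.2) :
    t <:+: l.foldl insAt G := by
  induction l generalizing G with
  | nil => simp at hx
  | cons y l ih =>
    rw [List.foldl_cons]
    obtain ⟨h1, h2, h3⟩ := hl y List.mem_cons_self
    have hl' : ∀ x ∈ l, x.2 ∈ S ∧ x.2 <:+: insAt G y ∧ x.2 <+: x.1 ++ x.2 := fun z hz => by
      obtain ⟨k1, k2, k3⟩ := hl z (List.mem_cons_of_mem _ hz)
      exact ⟨k1, infix_insAt (X := y.1) (s := y.2) h2 h3 k2 (sfree_eq_or hS h1 k1), k3⟩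
    rcases List.mem_cons.1 hx with rfl | hx
    · exact foldl_insAt_keep hS l _ hl' ht (htx.trans (infix_insAt' (s := x.2) (X := x.1) h2))
    · exact ih _ hl' hx

/-! ### Service of the touched classes -/

/-- Index of the first string of `c` which is a factor of `G`. -/
def firstIn (G : List ℕ) (c : List (List ℕ)) : ℕ :=
  ((List.range c.length).find? fun j => infB (c.getD j []) G).getD 0

theorem firstIn_spec {G : List ℕ} {c : List (List ℕ)} (h : ∃ s ∈ c, s <:+: G) :
    firstIn G c < c.length ∧ c.getD (firstIn G c) [] <:+: G := by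
  have h1 : ((List.range c.length).find? fun j => infB (c.getD j []) G).isSome := by
    rw [List.find?_isSome]
    obtain ⟨s, hs, hsG⟩ := h
    obtain ⟨j, hj, rfl⟩ := List.getElem_of_mem hs
    refine ⟨j, List.mem_range.2 hj, ?_⟩
    rw [List.getD_eq_getElem _ _ hj]
    exact (infB_iff _ _).2 hsG
  obtain ⟨j, hj⟩ := Option.isSome_iff_exists.1 h1
  have h2 := List.find?_some hj
  have h3 := List.mem_of_find?_eq_some hj
  rw [firstIn, hj, Option.getD_some]
  exact ⟨List.mem_range.1 h3, (infB_iff _ _).1 h2⟩

/-- The loop to be inserted for the class `c`. -/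
def loopFor (G : List ℕ) (c : List (List ℕ)) : List ℕ × List ℕ :=
  (loopX c (firstIn G c), c.getD (firstIn G c) [])

/-- Insertion of the loops of the classes `cs` into the text `G`. -/
def serve (G : List ℕ) (cs : List (List (List ℕ))) : List ℕ :=
  (cs.map (loopFor G)).foldl insAt G

theorem serve_hyp {S : List (List ℕ)} {G : List ℕ} {cs : List (List (List ℕ))}
    (hcs : ∀ c ∈ cs, (∀ s ∈ c, s ∈ S) ∧ ∃ s ∈ c, s <:+: G) :
    ∀ x ∈ cs.map (loopFor G), x.2 ∈ S ∧ x.2 <:+: G ∧ x.2 <+: x.1 ++ x.2 := by
  intro x hx
  obtain ⟨c, hc, rfl⟩ := List.mem_map.1 hx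
  obtain ⟨h1, h2⟩ := hcs c hc
  obtain ⟨h3, h4⟩ := firstIn_spec h2
  refine ⟨h1 _ ?_, h4, ?_⟩
  · simp only [loopFor]
    rw [List.getD_eq_getElem _ _ h3]
    exact List.getElem_mem h3
  · simp only [loopFor]
    rw [loopX_append h3]
    exact prefix_loopAt h3

/-- The text after the insertion of the loops. -/
theorem length_serve {G : List ℕ} {cs : List (List (List ℕ))}
    (hcs : ∀ c ∈ cs, ∃ s ∈ c, s <:+: G) :
    (serve G cs).length = G.length + (cs.map cycW).sum := by
  rw [serve, length_foldl_insAt, List.map_map]
  congr 2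
  refine List.map_congr_left fun c hc => ?_
  exact length_loopX (firstIn_spec (hcs c hc)).1

/-- Factors from `S` survive. -/
theorem serve_keep {S : List (List ℕ)} (hS : Sfree S) {G : List ℕ} {cs : List (List (List ℕ))}
    (hcs : ∀ c ∈ cs, (∀ s ∈ c, s ∈ S) ∧ ∃ s ∈ c, s <:+: G) {t : List ℕ} (ht : t ∈ S)
    (htG : t <:+: G) : t <:+: serve G cs :=
  foldl_insAt_keep hS _ G (serve_hyp hcs) ht htG

/-- All strings of the classes are served. -/
theorem serve_new {S : List (List ℕ)} (hS : Sfree S) {G : List ℕ} {cs : List (List (List ℕ))}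
    (hcs : ∀ c ∈ cs, (∀ s ∈ c, s ∈ S) ∧ ∃ s ∈ c, s <:+: G) {c : List (List ℕ)} (hc : c ∈ cs)
    {t : List ℕ} (ht : t ∈ c) : t <:+: serve G cs := by
  refine foldl_insAt_new hS _ G (serve_hyp hcs) (List.mem_map_of_mem hc) ((hcs c hc).1 t ht) ?_
  simp only [loopFor]
  rw [loopX_append (firstIn_spec (hcs c hc).2).1]
  exact infix_loopAt ht

/-! ### Polynomial time -/

section PTserve

variable {A : Set Word} {α : Type*} [Enc α]

theorem PT_occPos {s G : α → List ℕ} (hs : PT A s) (hG : PT A G) :
    PT A (fun a => occPos (s a) (G a)) := by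
  refine PT.optGetD (PT.find? (l := fun a => List.range ((G a).length + 1))
    (f := fun a i => decide (((G a).drop i).take (s a).length = s a))
    (PT.range (PT.add hG.length (PT.const 1)) ((PBd.length hG).add (PBd.const 1))) ?_) (PT.const 0)
  have h1 : PT A (fun p : α × ℕ => s p.1) := hs.comp PT.fst'
  have h2 : PT A (fun p : α × ℕ => G p.1) := hG.comp PT.fst'
  exact PT_eqStr (PT.take (PT.drop h2 PT.snd') h1.length) h1

theorem PT_insAt {G : α → List ℕ} {x : α → List ℕ × List ℕ} (hG : PT A G) (hx : PT A x) :
    PT A (fun a => insAt (G a) (x a)) := by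
  have h1 := PT_occPos hx.snd hG
  exact PT.append (PT.take hG h1) (PT.append hx.fst (PT.drop hG h1))

theorem PT_firstIn {G : α → List ℕ} {c : α → List (List ℕ)} (hG : PT A G) (hc : PT A c) :
    PT A (fun a => firstIn (G a) (c a)) := by
  refine PT.optGetD (PT.find? (l := fun a => List.range (c a).length)
    (f := fun a j => infB ((c a).getD j []) (G a))
    (PT.range hc.length (PBd.length hc)) ?_) (PT.const 0)
  have h1 : PT A (fun p : α × ℕ => c p.1) := hc.comp PT.fst'
  have h2 : PT A (fun p : α × ℕ => G p.1) := hG.comp PT.fst'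
  exact PT_infB (PT.getD h1 PT.snd' (PT.const [])) h2

theorem PT_loopFor {G : α → List ℕ} {c : α → List (List ℕ)} (hG : PT A G) (hc : PT A c) :
    PT A (fun a => loopFor (G a) (c a)) := by
  have h1 := PT_firstIn hG hc
  refine PT.pair ?_ (PT.getD hc h1 (PT.const []))
  refine PT.take (PT_mergeL ?_) (PT_cycW hc)
  exact PT.append (PT.drop hc h1) (PT.take hc (PT.add h1 (PT.const 1)))

theorem PT_serve {G : α → List ℕ} {cs : α → List (List (List ℕ))} (hG : PT A G) (hcs : PT A cs) :
    PT A (fun a => serve (G a) (cs a)) := by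
  have h1 : PT A (fun a => (cs a).map (loopFor (G a))) :=
    PT.map (f := fun a c => loopFor (G a) c) hcs (PT_loopFor (hG.comp PT.fst') PT.snd')
  refine PT_foldl_growth (f := fun _ G x => insAt G x) h1 hG
    (PT_insAt PT.snd'.fst PT.snd'.snd) h1.pbd fun a x hx s => ?_
  rw [esize_insAt]
  have h2 := esize_le_of_mem hx
  have h3 : esize x.1 ≤ esize x := by
    rcases x with ⟨y, z⟩
    rw [esize_pair]
    simp only
    omega
  omega

end PTserve

end Vale.Agent.P333.E
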