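import Mathlib
import Vale.Agent.P333.Bdl.B1

set_option linter.all false

/-!
P333, ratio below `7/3`: the savings inequality. The strings of a part `J` of the minimum cycle
cover, read in the order of a superstring, form one cycle; replacing the cycles of `J` by it does not
decrease the weight.
-/

namespace Vale.Agent.P333.E

open Vale.Agent.P333 Vale.Agent.P333.U

/-- One cycle through all strings of `J` weighs at least as much as the cycles of `J`. -/
theorem sum_cycW_le_cycW {S : List (List ℕ)} {L J R : List (List (List ℕ))}
    (hL : MinCover S L) (hJ : L.Perm (J ++ R)) {F : List (List ℕ)} (hF : F.Perm J.flatten) :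
    (J.map cycW).sum ≤ cycW F := by
  by_cases hJ0 : J = []
  · simp [hJ0]
  have hJne : ∀ c ∈ J, c ≠ [] := fun c hc => hL.ne c (hJ.symm.mem_iff.1 (by simp [hc]))
  have hRne : ∀ c ∈ R, c ≠ [] := fun c hc => hL.ne c (hJ.symm.mem_iff.1 (by simp [hc]))
  have hFne : F ≠ [] := by
    intro h
    obtain ⟨c, J', rfl⟩ := List.exists_cons_of_ne_nil hJ0
    obtain ⟨s, c', rfl⟩ := List.exists_cons_of_ne_nil (hJne c (by simp))
    have h2 : s ∈ F := hF.mem_iff.2 (by simp)
    rw [h] at h2
    simp at h2
  have hperm : (J.flatten ++ R.flatten).Perm S := by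
    rw [← List.flatten_append]
    exact (hJ.symm.flatten).trans hL.perm
  have hmin := hL.min (F :: R) (by
    rw [List.flatten_cons]
    exact (List.Perm.append_right _ hF).trans hperm) (by
    intro c hc
    rcases List.mem_cons.1 hc with rfl | hc
    · exact hFne
    · exact hRne c hc)
  have hsum : (L.map cycW).sum = (J.map cycW).sum + (R.map cycW).sum := by
    rw [(hJ.map cycW).sum_eq, List.map_append, List.sum_append]
  rw [hsum, List.map_cons, List.sum_cons] at hmin
  omega

theorem sum_cycW_le_mergeL {S : List (List ℕ)} {L J R : List (List (List ℕ))}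
    (hL : MinCover S L) (hJ : L.Perm (J ++ R)) {F : List (List ℕ)} (hF : F.Perm J.flatten) :
    (J.map cycW).sum ≤ (mergeL F).length := by
  have := sum_cycW_le_cycW hL hJ hF
  rw [length_mergeL']
  omega

/-- Distinct positions of the strings of an antichain. -/
theorem pos_ne {Z : ℕ → ℕ} {s t : List ℕ} {a : ℕ} (hs : OccAt Z s a) (ht : OccAt Z t a)
    (h : ¬ s <:+: t ∧ ¬ t <:+: s) : False := by
  rcases Nat.le_total s.length t.length with h2 | h2
  · exact h.1 (hs.prefix_of_le ht h2).isInfix
  · exact h.2 (ht.prefix_of_le hs h2).isInfix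

/-- The savings along a list sorted by positions. -/
theorem sav_list {Z : ℕ → ℕ} {pos : List ℕ → ℕ} :
    ∀ (F : List (List ℕ)) (s : List ℕ), (∀ t ∈ s :: F, OccAt Z t (pos t)) →
      (s :: F).Pairwise (fun s t => pos s < pos t) →
      (s :: F).Pairwise (fun s t => ¬ s <:+: t ∧ ¬ t <:+: s) →
      ∃ e : List ℕ → ℕ, List.IsChain (fun s t => ov s t ≤ e s + (pos s + s.length - pos t)) (s :: F) ∧
        (mergeL (s :: F)).length + ∑ t ∈ (s :: F).toFinset, e t ≤
          ((s :: F).toFinset.biUnion fun t => Finset.Ico (pos t) (pos t + t.length)).card := by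
  classical
  intro F
  induction F with
  | nil =>
    intro s h1 _ _
    refine ⟨fun _ => 0, List.isChain_singleton _, ?_⟩
    simp [mergeL]
  | cons t F ih =>
    intro s h1 h2 h3
    have h4 := List.pairwise_cons.1 h2
    have h4' := List.pairwise_cons.1 h3
    obtain ⟨e, he1, he2⟩ := ih t (fun u hu => h1 u (List.mem_cons_of_mem _ hu)) h4.2 h4'.2
    have hst : pos s < pos t := h4.1 t (by simp)
    have hg := (h1 s (by simp)).gap_le (h1 t (by simp)) hst (Or.inr (h4'.1 t (by simp)).2)
    have hsn : s ∉ t :: F := by
      intro hs
      exact lt_irrefl _ (h4.1 s hs)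
    refine ⟨fun u => if u = s then ov s t - (pos s + s.length - pos t) else e u, ?_, ?_⟩
    · rw [List.isChain_cons_cons]
      refine ⟨?_, ?_⟩
      · simp only [if_true]
        omega
      · refine List.IsChain.imp_of_mem_imp ?_ he1
        intro u v hu hv huv
        have : u ≠ s := by rintro rfl; exact hsn hu
        simp only [this, if_false]
        exact huv
    · have hsum : ∑ u ∈ (s :: t :: F).toFinset,
          (if u = s then ov s t - (pos s + s.length - pos t) else e u) =
          (ov s t - (pos s + s.length - pos t)) + ∑ u ∈ (t :: F).toFinset, e u := by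
        rw [List.toFinset_cons, Finset.sum_insert (by simpa using hsn)]
        simp only [if_true]
        congr 1
        refine Finset.sum_congr rfl fun u hu => ?_
        have : u ≠ s := by rintro rfl; exact hsn (List.mem_toFinset.1 hu)
        simp only [this, if_false]
      rw [hsum]
      have hl : (mergeL (s :: t :: F)).length = (s.length - ov s t) + (mergeL (t :: F)).length := by
        rw [spec_mergeL, List.length_append, List.length_take]
        omega
      -- the part of the first string before `pos t` is disjoint from the rest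
      have hsub : Finset.Ico (pos s) (min (pos s + s.length) (pos t)) ∪
          ((t :: F).toFinset.biUnion fun t => Finset.Ico (pos t) (pos t + t.length)) ⊆
          ((s :: t :: F).toFinset.biUnion fun t => Finset.Ico (pos t) (pos t + t.length)) := by
        intro x hx
        rcases Finset.mem_union.1 hx with hx | hx
        · refine Finset.mem_biUnion.2 ⟨s, by simp, ?_⟩
          rw [Finset.mem_Ico] at hx ⊢
          omega
        · obtain ⟨u, hu, hux⟩ := Finset.mem_biUnion.1 hx
          refine Finset.mem_biUnion.2 ⟨u, ?_, hux⟩
          rw [List.mem_toFinset] at hu ⊢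
          exact List.mem_cons_of_mem _ hu
      have hdisj : Disjoint (Finset.Ico (pos s) (min (pos s + s.length) (pos t)))
          ((t :: F).toFinset.biUnion fun t => Finset.Ico (pos t) (pos t + t.length)) := by
        rw [Finset.disjoint_left]
        intro x hx hx'
        obtain ⟨u, hu, hux⟩ := Finset.mem_biUnion.1 hx'
        rw [Finset.mem_Ico] at hx hux
        have : pos t ≤ pos u := by
          rcases List.mem_cons.1 (List.mem_toFinset.1 hu) with rfl | hu'
          · exact le_rfl
          · exact ((List.pairwise_cons.1 h4.2).1 u hu').le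
        omega
      have hcard := Finset.card_le_card hsub
      rw [Finset.card_union_of_disjoint hdisj, Nat.card_Ico] at hcard
      have hov := ov_le_left s t
      omega

/-- The savings inequality. -/
theorem sav_ineq {S : List (List ℕ)} {L J R : List (List (List ℕ))} (hS : Sfree S)
    (hL : MinCover S L) (hJ : L.Perm (J ++ R)) {Z : ℕ → ℕ} {pos : List ℕ → ℕ}
    (hocc : ∀ s ∈ J.flatten, OccAt Z s (pos s)) :
    ∃ e : List ℕ → ℕ,
      (∀ s ∈ J.flatten, ∀ t ∈ J.flatten, pos s < pos t →
        (∀ u ∈ J.flatten, ¬ (pos s < pos u ∧ pos u < pos t)) →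
          ov s t ≤ e s + (pos s + s.length - pos t)) ∧
      (J.map cycW).sum + ∑ s ∈ J.flatten.toFinset, e s ≤
        (J.flatten.toFinset.biUnion fun s => Finset.Ico (pos s) (pos s + s.length)).card := by
  classical
  by_cases hJ0 : J.flatten = []
  · have hJ1 : J = [] := by
      by_contra hne
      obtain ⟨c, J', rfl⟩ := List.exists_cons_of_ne_nil hne
      have hc : c ≠ [] := hL.ne c (hJ.symm.mem_iff.1 (by simp))
      simp only [List.flatten_cons, List.append_eq_nil_iff] at hJ0
      exact hc hJ0.1
    subst hJ1
    exact ⟨fun _ => 0, by simp, by simp⟩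
  have hperm : (J.flatten ++ R.flatten).Perm S := by
    rw [← List.flatten_append]
    exact (hJ.symm.flatten).trans hL.perm
  have hpw0 : (J.flatten ++ R.flatten).Pairwise (fun s t => ¬ s <:+: t ∧ ¬ t <:+: s) :=
    (hperm.pairwise_iff (fun {a b} hab => ⟨hab.2, hab.1⟩)).2 hS.2
  have hpw : J.flatten.Pairwise (fun s t => ¬ s <:+: t ∧ ¬ t <:+: s) :=
    (List.pairwise_append.1 hpw0).1
  set F := J.flatten.mergeSort (fun s t => decide (pos s ≤ pos t)) with hFdef
  have hFp : F.Perm J.flatten := List.mergeSort_perm _ _
  have hFs : F.Pairwise (fun s t => pos s ≤ pos t) := by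
    have := List.pairwise_mergeSort (le := fun s t : List ℕ => decide (pos s ≤ pos t))
      (by intro a b c; simp only [decide_eq_true_eq]; omega) (by intro a b; simp; omega) J.flatten
    simpa using this
  have hFw : F.Pairwise (fun s t => ¬ s <:+: t ∧ ¬ t <:+: s) :=
    (hFp.pairwise_iff (fun {a b} hab => ⟨hab.2, hab.1⟩)).2 hpw
  have hFocc : ∀ t ∈ F, OccAt Z t (pos t) := fun t ht => hocc t (hFp.mem_iff.1 ht)
  have hFlt : F.Pairwise (fun s t => pos s < pos t) := by
    have hboth := List.Pairwise.and hFs hFw
    refine List.Pairwise.imp_of_mem ?_ hboth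
    intro s t hs ht hst
    rcases Nat.lt_or_ge (pos s) (pos t) with h1 | h1
    · exact h1
    · exfalso
      have heq : pos s = pos t := le_antisymm hst.1 h1
      have hs' := hFocc s hs
      rw [heq] at hs'
      exact pos_ne hs' (hFocc t ht) hst.2
  have hFne : F ≠ [] := by
    intro h
    apply hJ0
    rw [h] at hFp
    exact (hFp.symm).eq_nil
  obtain ⟨s, F', hF⟩ := List.exists_cons_of_ne_nil hFne
  rw [hF] at hFp hFw hFocc hFlt
  obtain ⟨e, he1, he2⟩ := sav_list F' s hFocc hFlt hFw
  have hset : (s :: F').toFinset = J.flatten.toFinset := by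
    ext x; simp only [List.mem_toFinset]; exact hFp.mem_iff
  rw [hset] at he2
  refine ⟨e, ?_, ?_⟩
  · intro x hx y hy hxy hbet
    have hx' := hFp.mem_iff.2 hx
    have hy' := hFp.mem_iff.2 hy
    -- `x` and `y` are consecutive in the sorted list
    clear_value F
    clear he2 hFdef hFs hF hFne hset
    have key : ∀ (G : List (List ℕ)), G.Pairwise (fun s t => pos s < pos t) →
        List.IsChain (fun s t => ov s t ≤ e s + (pos s + s.length - pos t)) G →
        x ∈ G → y ∈ G → (∀ u ∈ G, ¬ (pos x < pos u ∧ pos u < pos y)) →
        ov x y ≤ e x + (pos x + x.length - pos y) := by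
      intro G
      induction G with
      | nil => intro _ _ h; simp at h
      | cons a G ih =>
        intro g1 g2 g3 g4 g5
        rcases List.mem_cons.1 g3 with rfl | h3
        · rcases List.mem_cons.1 g4 with rfl | h4
          · exact absurd hxy (lt_irrefl _)
          · cases G with
            | nil => simp at h4
            | cons b G =>
              rcases List.mem_cons.1 h4 with rfl | h5
              · exact (List.isChain_cons_cons.1 g2).1
              · exfalso
                refine g5 b (by simp) ⟨(List.pairwise_cons.1 g1).1 b (by simp), ?_⟩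
                exact (List.pairwise_cons.1 (List.pairwise_cons.1 g1).2).1 y h5
        · rcases List.mem_cons.1 g4 with h4 | h4
          · have := (List.pairwise_cons.1 g1).1 x h3
            rw [← h4] at this
            omega
          · exact ih (List.pairwise_cons.1 g1).2 g2.tail h3 h4
              (fun u hu => g5 u (List.mem_cons_of_mem _ hu))
    exact key _ hFlt he1 hx' hy' (fun u hu => hbet u (hFp.mem_iff.1 hu))
  · have := sum_cycW_le_mergeL hL hJ hFp
    omega

end Vale.Agent.P333.E
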